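import Vale.Agent.P146.Lower.Marg.Levels

/-! P146 lower bound, marginality: invariants along the levels and the bound by the root curvature. -/

open MeasureTheory ProbabilityTheory Real Finset
open Vale.Agent.P168.MP (lin)
open Vale.Agent.P157.Par (Prof Vn tlN)
open Vale.Agent.P157.Par.Br (smooth_cosh)

noncomputable section

namespace Vale.Agent.P146.Lower.Marg

variable {F f1 f2 f3 f4 : ℝ → ℝ} {β : ℝ} {R : ℕ} {r : ℕ → ℝ}

lemma Inv.mono {m₀ m : ℝ} (h : Inv F f1 f2 m₀) (hm : m ≤ m₀) : Inv F f1 f2 m :=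
  ⟨h.toCvx, h.anti, h.pos, fun x => (mul_le_mul_of_nonneg_right hm (by linarith [h.toCvx.sq1 x])).trans (h.low x)⟩

lemma Inv.le_zero {m₀ : ℝ} (h : Inv F f1 f2 m₀) (x : ℝ) : f2 x ≤ f2 0 := by
  rcases le_total 0 x with hx | hx
  · exact h.anti (Set.mem_Ici.2 le_rfl) hx hx
  · rw [← h.toCvx.f2_neg x]
    exact h.anti (Set.mem_Ici.2 le_rfl) (Set.mem_Ici.2 (neg_nonneg.2 hx)) (neg_nonneg.2 hx)

lemma lin_mono {i j : ℕ} (hij : i ≤ j) (hj : j ≤ R) : lin R i ≤ lin R j := by
  simp only [lin, if_pos (hij.trans hj), if_pos hj]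
  gcongr

lemma inv_all {V : ℝ} (hr : Prof R r V) : ∀ k, k ≤ R →
    Inv (FL β R r k) (UL β R r k) (WL β R r k) (lin R (R - k))
  | 0, _ => by rw [FL_zero, UL_zero]; exact inv_lc.mono (lin_mem (by omega)).2
  | k + 1, hk => by
    have hm := lin_mem (R := R) (k := R - k) (by omega)
    rw [FL_succ hk, UL_succ hk]
    exact (inv_step (inv_all hr k (by omega)) hm.2 hm.1 le_rfl (dd_nonneg hr hk)).mono
      (lin_mono (by omega) (by omega))

lemma Jet.weaken {B₃ B₄ B₃' B₄' : ℝ} (h : Jet F f1 f2 f3 f4 B₃ B₄) (h3 : B₃ ≤ B₃') (h4 : B₄ ≤ B₄') :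
    Jet F f1 f2 f3 f4 B₃' B₄' :=
  ⟨h.toCvx, h.d2, h.d3, h.cont4, fun x => (h.b3 x).trans h3, fun x => (h.b4 x).trans h4⟩

lemma lin_top (hR : 1 ≤ R) : lin R R = 1 := by
  rw [lin, if_pos le_rfl, div_self (Nat.cast_ne_zero.2 (by omega))]

lemma FL_one {V : ℝ} (hR : 1 ≤ R) (hr : Prof R r V) :
    FL β R r 1 = fun y => dd β R r 0 / 2 + lc y := by
  rw [FL_succ (show 0 < R by omega), FL_zero]
  funext y
  rw [Nat.sub_zero, lin_top hR, smo, if_neg one_ne_zero, div_one]
  simp only [mass, one_mul, lc, exp_log (cosh_pos _)]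
  rw [smooth_cosh (dd_nonneg hr (by omega)) y, log_mul (exp_pos _).ne' (cosh_pos _).ne', log_exp]

lemma one_jet {V : ℝ} (hR : 1 ≤ R) (hr : Prof R r V) :
    ∃ g3 g4, Jet (FL β R r 1) (UL β R r 1) (WL β R r 1) g3 g4 4 4 := by
  have hc := cvx_all (β := β) hr 1 hR
  have hu : UL β R r 1 = th := funext fun x => (hc.d0 x).unique (by
    rw [FL_one hR hr]; exact (jet_lc.d0 x).const_add _)
  have hw : WL β R r 1 = sc := funext fun x => (hc.d1 x).unique (by rw [hu]; exact jet_lc.d1 x)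
  have hc' := hc
  rw [hu, hw] at hc'
  exact ⟨_, _, by rw [hu, hw]; exact ⟨hc', jet_lc.d2, jet_lc.d3, jet_lc.cont4, jet_lc.b3, jet_lc.b4⟩⟩

/-- uniform jets along the levels -/
theorem jets_all (β : ℝ) : ∃ M₃ M₄ : ℝ, 1 ≤ M₃ ∧ 1 ≤ M₄ ∧ ∀ (R : ℕ) (r : ℕ → ℝ), 1 ≤ R → Prof R r 1 →
    ∀ k, 1 ≤ k → k ≤ R → ∃ g3 g4, Jet (FL β R r k) (UL β R r k) (WL β R r k) g3 g4 M₃ M₄ := by
  obtain ⟨C, hC, hstep⟩ := jet_step (β ^ 2)
  set c := β ^ 2
  have hc : 0 ≤ c := sq_nonneg β
  set M₃ := 4 * exp (C * c)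
  have hM₃ : 1 ≤ M₃ := by nlinarith [one_le_exp (mul_nonneg hC hc)]
  set M₄ := 4 * exp (C * M₃ ^ 2 * c)
  have hM₄ : 1 ≤ M₄ := by nlinarith [one_le_exp (show 0 ≤ C * M₃ ^ 2 * c by positivity)]
  refine ⟨M₃, M₄, hM₃, hM₄, fun R r hR hr => ?_⟩
  have jets : ∀ k, 1 ≤ k → k ≤ R → ∃ g3 g4, Jet (FL β R r k) (UL β R r k) (WL β R r k) g3 g4
      (4 * exp (C * (c * (r (R - 1) - r (R - k))))) (4 * exp (C * M₃ ^ 2 * (c * (r (R - 1) - r (R - k))))) := by
    intro k hk1 hkR
    induction k, hk1 using Nat.le_induction with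
    | base => simpa using one_jet (β := β) hR hr
    | succ k hk ih =>
      obtain ⟨g3, g4, hj⟩ := ih (by omega)
      have hm := lin_mem (R := R) (k := R - k) (by omega)
      have hs : r (R - k) ≤ r (R - 1) := by
        have := Vale.Agent.P157.Par.Prof.le_of_le hr (show R - k ≤ R - 1 by omega) (by omega)
        exact this
      have hu := hr.upper (show R - 1 ≤ R by omega)
      have hl := hr.upper (show R - (k + 1) ≤ R by omega)
      have hd := dd_nonneg (β := β) hr (show k < R by omega)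
      have hd' : dd β R r k ≤ c := by
        have := hr.upper (show R - k ≤ R by omega)
        exact mul_le_of_le_one_right hc (by linarith)
      set B₃ := 4 * exp (C * (c * (r (R - 1) - r (R - k))))
      have hB₃ : B₃ ≤ M₃ := by
        refine mul_le_mul_of_nonneg_left (exp_le_exp.2 (mul_le_mul_of_nonneg_left ?_ hC)) (by norm_num)
        have := hr.upper (show R - k ≤ R by omega)
        exact mul_le_of_le_one_right hc (by linarith)
      have h13 : 1 ≤ B₃ := by
        have := one_le_exp (show 0 ≤ C * (c * (r (R - 1) - r (R - k))) by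
          exact mul_nonneg hC (mul_nonneg hc (by linarith)))
        linarith
      have h14 : 1 ≤ 4 * exp (C * M₃ ^ 2 * (c * (r (R - 1) - r (R - k)))) := by
        have := one_le_exp (show 0 ≤ C * M₃ ^ 2 * (c * (r (R - 1) - r (R - k))) by
          exact mul_nonneg (by positivity) (mul_nonneg hc (by linarith)))
        linarith
      obtain ⟨⟨h3, h4, hn⟩, -⟩ := hstep _ _ _ _ _ _ _ (lin R (R - k)) _ hj h13 h14 hm.1 hm.2 hd hd'
      rw [FL_succ (show k < R by omega), UL_succ (show k < R by omega)]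
      refine ⟨h3, h4, hn.weaken ?_ ?_⟩
      · rw [mul_assoc, ← exp_add]
        refine mul_le_mul_of_nonneg_left (exp_le_exp.2 (le_of_eq ?_)) (by norm_num)
        simp only [dd, c]; ring_nf
      · rw [mul_assoc 4, ← exp_add]
        refine mul_le_mul_of_nonneg_left (exp_le_exp.2 ?_) (by norm_num)
        have e : C * M₃ ^ 2 * (c * (r (R - 1) - r (R - (k + 1)))) =
            C * M₃ ^ 2 * (c * (r (R - 1) - r (R - k))) + C * M₃ ^ 2 * dd β R r k := by simp only [dd, c]; ring
        rw [e]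
        gcongr
  have jetM : ∀ k, 1 ≤ k → k ≤ R → ∃ g3 g4, Jet (FL β R r k) (UL β R r k) (WL β R r k) g3 g4 M₃ M₄ := by
    intro k hk hkR
    obtain ⟨g3, g4, hj⟩ := jets k hk hkR
    have h1 := hr.upper (show R - 1 ≤ R by omega)
    have h2 := hr.upper (show R - k ≤ R by omega)
    refine ⟨g3, g4, hj.weaken ?_ ?_⟩ <;>
    · refine mul_le_mul_of_nonneg_left (exp_le_exp.2 (mul_le_mul_of_nonneg_left ?_ (by positivity))) (by norm_num)
      exact mul_le_of_le_one_right hc (by linarith)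
  exact jetM

/-- uniform constants along the levels -/
theorem levels_close (β : ℝ) : ∃ C : ℝ, 0 ≤ C ∧ ∀ (R : ℕ) (r : ℕ → ℝ), 1 ≤ R → Prof R r 1 →
    (∀ k, 1 ≤ k → k ≤ R → ∀ d ∈ Set.Icc 0 (β ^ 2), ∀ m, 0 ≤ m → m ≤ 1 →
      |vS m d (FL β R r k) (UL β R r k) (WL β R r k) 0 - WL β R r k 0| ≤ C * d) ∧
    ∀ k, 1 ≤ k → k ≤ R → |wbar β R r - WL β R r k 0| ≤ C * r (R - k) := by
  obtain ⟨C, hC, hstep⟩ := jet_step (β ^ 2)
  set c := β ^ 2
  have hc : 0 ≤ c := sq_nonneg β
  obtain ⟨M₃, M₄, hM₃, hM₄, hjet⟩ := jets_all β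
  refine ⟨C * (M₃ + M₄) * (c + 1), by positivity, fun R r hR hr => ?_⟩
  set Q := C * (M₃ + M₄)
  have hQ : 0 ≤ Q := by positivity
  have jetM := hjet R r hR hr
  have move : ∀ k, 1 ≤ k → k ≤ R → ∀ d ∈ Set.Icc 0 c, ∀ m, 0 ≤ m → m ≤ 1 →
      |vS m d (FL β R r k) (UL β R r k) (WL β R r k) 0 - WL β R r k 0| ≤ Q * d := by
    intro k hk hkR d hd m hm hm1
    obtain ⟨g3, g4, hj⟩ := jetM k hk hkR
    exact (hstep _ _ _ _ _ _ _ m d hj hM₃ hM₄ hm hm1 hd.1 hd.2).2
  refine ⟨fun k hk hkR d hd m hm hm1 =>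
    (move k hk hkR d hd m hm hm1).trans ?_, fun k hk hkR => ?_⟩
  · exact mul_le_mul_of_nonneg_right (le_mul_of_one_le_right hQ (by linarith)) hd.1
  have chain : ∀ j, k + j ≤ R →
      |WL β R r (k + j) 0 - WL β R r k 0| ≤ Q * (c * (r (R - k) - r (R - (k + j)))) := by
    intro j
    induction j with
    | zero => intro _; simp
    | succ j ih =>
      intro hj
      have hm := lin_mem (R := R) (k := R - (k + j)) (by omega)
      have h2 := hr.upper (show R - (k + j) ≤ R by omega)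
      have h3 := hr.upper (show R - (k + j + 1) ≤ R by omega)
      have h := move (k + j) (by omega) (by omega) (dd β R r (k + j))
        ⟨dd_nonneg hr (by omega), mul_le_of_le_one_right hc (by linarith)⟩ (lin R (R - (k + j))) hm.1 hm.2
      refine (abs_sub_le _ (WL β R r (k + j) 0) _).trans ((add_le_add h (ih (by omega))).trans_eq ?_)
      simp only [dd, c]; ring_nf
  obtain ⟨g3, g4, hj⟩ := jetM R hR le_rfl
  have h0 := hr.upper (Nat.zero_le R)
  have hk0 := hr.upper (show R - k ≤ R by omega)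
  have e : wbar β R r = vS 0 (c * r 0) (FL β R r R) (UL β R r R) (WL β R r R) 0 := by
    simp only [wbar, OP, vS, Nat.sub_self, tlN, zero_mul, add_zero]
    rfl
  have hb := (hstep _ _ _ _ _ _ _ 0 (c * r 0) hj hM₃ hM₄ le_rfl zero_le_one (mul_nonneg hc h0.1)
    (mul_le_of_le_one_right hc h0.2)).2
  rw [← e] at hb
  have hch := chain (R - k) (by omega)
  rw [show k + (R - k) = R by omega, Nat.sub_self] at hch
  refine (abs_sub_le _ (WL β R r R 0) _).trans ((add_le_add hb hch).trans ?_)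
  have : 0 ≤ Q * r (R - k) := mul_nonneg hQ hk0.1
  calc C * (M₃ + M₄) * (c * r 0) + Q * (c * (r (R - k) - r 0)) = Q * c * r (R - k) := by ring
    _ ≤ Q * (c + 1) * r (R - k) := by nlinarith
    _ = _ := rfl

/-- correlations of small levels are at most `β² r` times the square of the root curvature -/
theorem Gm_le_small (β : ℝ) : ∃ C : ℝ, 0 ≤ C ∧ ∀ (R : ℕ) (r : ℕ → ℝ), 1 ≤ R → Prof R r 1 → ∀ l < R,
    0 ≤ wbar β R r + C * r l ∧ Gm β R r l ≤ β ^ 2 * r l * (wbar β R r + C * r l) ^ 2 := by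
  obtain ⟨C₀, hC₀, hlev⟩ := levels_close β
  refine ⟨C₀ * (β ^ 2 + 2), by positivity, fun R r hR hr l hl => ?_⟩
  obtain ⟨hmove, hclose⟩ := hlev R r hR hr
  set c := β ^ 2
  have hc : 0 ≤ c := sq_nonneg β
  set M := wbar β R r + C₀ * (c + 2) * r l
  have hrl := hr.upper hl.le
  have hW : ∀ k, 1 ≤ k → R - l ≤ k → k ≤ R → WL β R r k 0 ≤ wbar β R r + C₀ * r l := fun k hk hlk hkR => by
    have h := (abs_le.1 (hclose k hk hkR)).1
    have := mul_le_mul_of_nonneg_left
      (Vale.Agent.P157.Par.Prof.le_of_le hr (show R - k ≤ l by omega) hl.le) hC₀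
    linarith
  have hM : ∀ k, R - l ≤ k → k < R → ∀ d ∈ Set.Icc 0 (dd β R r k), ∀ y,
      vS (lin R (R - k)) d (FL β R r k) (UL β R r k) (WL β R r k) y ≤ M := by
    intro k hlk hk d hd y
    have hm := lin_mem (R := R) (k := R - k) (by omega)
    refine ((inv_step (inv_all hr k hk.le) hm.2 hm.1 le_rfl hd.1).le_zero y).trans ?_
    have hk1 := hr.upper (show R - k ≤ R by omega)
    have hk2 := hr.upper (show R - (k + 1) ≤ R by omega)
    have h := (abs_le.1 (hmove k (by omega) hk.le d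
      ⟨hd.1, hd.2.trans (mul_le_of_le_one_right hc (by linarith))⟩ _ hm.1 hm.2)).2
    have h1 := hW k (by omega) hlk hk.le
    have hdd : d ≤ c * r l := hd.2.trans (mul_le_mul_of_nonneg_left (by
      have := hr.upper (show R - (k + 1) ≤ R by omega)
      have := Vale.Agent.P157.Par.Prof.le_of_le hr (show R - k ≤ l by omega) hl.le
      linarith) hc)
    have := mul_le_mul_of_nonneg_left hdd hC₀
    have : 0 ≤ C₀ * r l := mul_nonneg hC₀ hrl.1
    linarith
  have hcR := cvx_all (β := β) hr R le_rfl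
  have hd0 : 0 ≤ c * r 0 := mul_nonneg hc hr.zero
  have hM0 : ∀ d ∈ Set.Icc 0 (c * r 0), ∀ y, vS 0 d (FL β R r R) (UL β R r R) (WL β R r R) y ≤ M := by
    intro d _ y
    have hWy : ∀ z, WL β R r R z ≤ M := fun z => by
      refine ((inv_all hr R le_rfl).le_zero z).trans ?_
      have h1 := hW R hR (by omega) le_rfl
      have : 0 ≤ C₀ * (c + 1) * r l := mul_nonneg (by positivity) hrl.1
      linarith
    simp only [vS, zero_mul, add_zero]
    refine (avT_mono hcR _ _ _ hcR.cont2 hcR.abs2 continuous_const (B' := |M|) (fun _ => le_rfl) hWy).trans ?_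
    rw [avT_const hcR]
  have hM_nn : 0 ≤ M := (cvx_step hcR le_rfl zero_le_one hd0).nonneg2 0 |>.trans (hM0 _ ⟨hd0, le_rfl⟩ 0)
  refine ⟨hM_nn, ?_⟩
  have key : ∀ j, j ≤ l → OP β R r (R - l) (fun y => UL β R r (R - l) y ^ 2) ≤
      OP β R r (R - l + j) fun y => c * (r l - r (l - j)) * M ^ 2 + 1 * UL β R r (R - l + j) y ^ 2 := by
    intro j
    induction j with
    | zero => intro _; simp
    | succ j ih =>
      intro hj
      set k := R - l + j with hk
      have hk' : k < R := by omega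
      have hcv := cvx_all (β := β) hr k hk'.le
      have hcv1 := cvx_all (β := β) hr (k + 1) hk'
      have hm := lin_mem (R := R) (k := R - k) (by omega)
      refine (ih (by omega)).trans ?_
      rw [show R - l + (j + 1) = k + 1 by omega, ← OP_step hk']
      set a := c * (r l - r (l - j)) * M ^ 2
      set a' := c * (r l - r (l - (j + 1))) * M ^ 2
      have hU : ∀ y, |UL β R r k y ^ 2| ≤ 1 := fun y => by
        rw [abs_pow]; exact pow_le_one₀ (abs_nonneg _) (hcv.abs1 y)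
      have hU1 : ∀ y, |UL β R r (k + 1) y ^ 2| ≤ 1 := fun y => by
        rw [abs_pow]; exact pow_le_one₀ (abs_nonneg _) (hcv1.abs1 y)
      have hP : Continuous fun y => a + 1 * UL β R r k y ^ 2 :=
        continuous_const.add (continuous_const.mul (sq_cont hcv.cont1))
      have hb : ∀ y, |a + 1 * UL β R r k y ^ 2| ≤ |a| + |a'| + 1 := fun y => (abs_add_le _ _).trans (by
        rw [one_mul]; linarith [hU y, abs_nonneg a'])
      have hcts := tlN_nice (β := β) (R := R) (r := r) (k := k) (j := 1) (by omega) hP hb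
      rw [tlN_eq_avT (R := R) (k := k) (j := 0) (by omega) (by omega)] at hcts
      simp only [tlN, add_zero] at hcts
      refine OP_le hr hcts.1 (continuous_const.add (continuous_const.mul (sq_cont hcv1.cont1))) hcts.2
        (fun y => (abs_add_le _ _).trans (by
          simp only [Pi.mul_apply, one_mul]; linarith [hU1 y, abs_nonneg a])) hk' fun y => ?_
      show avT (lin R (R - k)) (dd β R r k) (FL β R r k) (fun y => a + 1 * UL β R r k y ^ 2) y ≤ _
      rw [avT_affine hcv hm.1 hm.2 _ _ (sq_cont hcv.cont1) hU]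
      have h := step_var_le hcv hm.1 hm.2 (dd_nonneg (β := β) hr hk') (hM k (by omega) hk') y
      rw [← UL_succ hk'] at h
      have ha : a' = a + dd β R r k * M ^ 2 := by
        simp only [a, a', dd, show R - k = l - j by omega, show R - (k + 1) = l - (j + 1) by omega, c]
        ring
      simp only [Pi.add_apply, Pi.mul_apply]
      linarith
  rw [Gm_eq hl.le]
  refine (key l le_rfl).trans ?_
  rw [show R - l + l = R by omega, Nat.sub_self, OP_affine hr (sq_cont hcR.cont1) (B := 1)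
    (fun y => by rw [abs_pow]; exact pow_le_one₀ (abs_nonneg _) (hcR.abs1 y)) le_rfl]
  have h := step_var_le hcR le_rfl zero_le_one hd0 hM0 0
  rw [show avT 0 (c * r 0) (FL β R r R) (UL β R r R) 0 = 0 from
    (cvx_step hcR le_rfl zero_le_one hd0).zero1] at h
  simp only [OP, Nat.sub_self, tlN]
  linarith

end Vale.Agent.P146.Lower.Marg
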