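import Vale.Agent.P146.Lower.Marg.Ground

/-! P146 lower bound, root marginality for every `β > 1`.

For a one-spin tilt `W` of the standard Gaussian with nonnegative curvature `a`, decreasing away from the
origin, slope bounded by `M` and `a + Y ^ 2 ≥ M ^ 2`: if `(E [a + Y ^ 2]) ^ 2 ≤ E Y ^ 2` then `E Y ^ 2 < E a ^ 2`.
Proof: Hermite decomposition of `exp (W / 2)` up to degree two and the gaps two and three on the rest. -/

open MeasureTheory ProbabilityTheory Real Set Filter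

noncomputable section

namespace Vale.Agent.P146.Lower.Marg

/-- the final polynomial inequality -/
lemma core_poly {r : ℝ} (h0 : 0 < r) (h1 : r ≤ 1) :
    (1 - r / 2 + r * (1 / 8 + 3 / 4 * (r * (5 / 4 - r) / 2))) ^ 2 <
      (1 - r * (5 / 4 - r) / 2) * (1 - r ^ 2 / 8) := by
  have hQ : 0 ≤ (r - 3 / 8) ^ 2 * (896750 / 1024000 - 367750 / 1024000 * r + 252000 / 1024000 * r ^ 2 -
      144000 / 1024000 * r ^ 3) := by
    refine mul_nonneg (sq_nonneg _) ?_
    nlinarith [sq_nonneg r, mul_nonneg h0.le (sub_nonneg.2 h1), pow_le_one₀ (n := 3) h0.le h1]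
  have e : (1 - r * (5 / 4 - r) / 2) * (1 - r ^ 2 / 8) -
      (1 - r / 2 + r * (1 / 8 + 3 / 4 * (r * (5 / 4 - r) / 2))) ^ 2 =
    r * (1 / 8 - 45 / 64 * r + 151 / 128 * r ^ 2 - 577 / 1024 * r ^ 3 + 45 / 128 * r ^ 4 - 9 / 64 * r ^ 5) := by
    ring
  have hp : 0 < 1 / 8 - 45 / 64 * r + 151 / 128 * r ^ 2 - 577 / 1024 * r ^ 3 + 45 / 128 * r ^ 4 -
      9 / 64 * r ^ 5 := by nlinarith [hQ]
  nlinarith [mul_pos h0 hp]

/-- the scalar contradiction -/
lemma core_scalar {A S E2 T N c g X : ℝ} (hS : 0 < S) (hA : 0 ≤ A) (_hT0 : 0 ≤ T) (hc : 0 ≤ c) (hg : 0 ≤ g)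
    (hJ : (A + S) ^ 2 ≤ S) (hE : E2 ≤ S) (hsum : c ^ 2 + T = S / 4) (hgap : 3 * T ≤ N - c ^ 2)
    (hN : 4 * N ≤ E2 + A * S + (A + S) * S / 4) (hg0 : 1 - S / 8 ≤ g ^ 2)
    (hid : A + S = S / 2 + 2 * c * g + 2 * X) (hX : X ^ 2 ≤ 3 * S / 8 * T) : False := by
  obtain ⟨r, hr, rfl⟩ : ∃ r, 0 < r ∧ r ^ 2 = S := ⟨√S, sqrt_pos.2 hS, sq_sqrt hS.le⟩
  have hJr : A + r ^ 2 ≤ r := abs_le_of_sq_le_sq' hJ hr.le |>.2
  have hr1 : r ≤ 1 := by nlinarith
  set t := r * (5 / 4 - r) / 2 with ht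
  have ht0 : 0 ≤ t := by rw [ht]; nlinarith
  have hTt : T ≤ r ^ 2 / 4 * t := by
    have : A * r ^ 2 + (A + r ^ 2) * r ^ 2 / 4 ≤ (5 / 4 * r - r ^ 2) * r ^ 2 := by
      nlinarith [mul_le_mul_of_nonneg_right hJr (sq_nonneg r)]
    rw [ht]; nlinarith
  have hB : -(r ^ 2 * (1 / 8 + 3 / 4 * t)) ≤ 2 * X := by
    have h4 : (2 * X) ^ 2 ≤ (r ^ 2 * (1 / 8 + 3 / 4 * t)) ^ 2 := by
      have h5 : 4 * (3 * r ^ 2 / 8 * (r ^ 2 / 4 * t)) ≤ (r ^ 2 * (1 / 8 + 3 / 4 * t)) ^ 2 := by
        nlinarith [mul_nonneg (mul_nonneg (sq_nonneg r) (sq_nonneg r)) (sq_nonneg (1 / 8 - 3 / 4 * t))]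
      nlinarith [mul_le_mul_of_nonneg_left hTt (by positivity : (0:ℝ) ≤ 3 * r ^ 2 / 8)]
    exact (abs_le_of_sq_le_sq' h4 (by positivity)).1
  have hK : 0 ≤ 1 - r / 2 + r * (1 / 8 + 3 / 4 * t) := by nlinarith
  have hcg : r * (1 - r / 2 + r * (1 / 8 + 3 / 4 * t)) < 2 * c * g := by
    refine lt_of_pow_lt_pow_left₀ 2 (by positivity) ?_
    have hc2 : r ^ 2 / 4 * (1 - t) ≤ c ^ 2 := by nlinarith
    have hp := core_poly hr hr1
    rw [← ht] at hp
    have h1 : r ^ 2 / 4 * (1 - t) * (1 - r ^ 2 / 8) ≤ c ^ 2 * g ^ 2 :=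
      mul_le_mul hc2 hg0 (by nlinarith) (sq_nonneg c)
    calc (r * (1 - r / 2 + r * (1 / 8 + 3 / 4 * t))) ^ 2
        = r ^ 2 * (1 - r / 2 + r * (1 / 8 + 3 / 4 * t)) ^ 2 := by ring
      _ < r ^ 2 * ((1 - t) * (1 - r ^ 2 / 8)) := mul_lt_mul_of_pos_left hp (by positivity)
      _ = 4 * (r ^ 2 / 4 * (1 - t) * (1 - r ^ 2 / 8)) := by ring
      _ ≤ 4 * (c ^ 2 * g ^ 2) := by linarith
      _ = (2 * c * g) ^ 2 := by ring
  nlinarith

/-- tilted mean -/
def tm (W P : ℝ → ℝ) : ℝ := (∫ z, exp (W z) * P z ∂(gaussianReal 0 1)) / ∫ z, exp (W z) ∂(gaussianReal 0 1)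

lemma even_data {W Y a : ℝ → ℝ} (hW : ∀ z, HasDerivAt W (Y z) z) (hY : ∀ z, HasDerivAt Y (a z) z)
    (he : ∀ z, W (-z) = W z) : (∀ z, Y (-z) = -Y z) ∧ ∀ z, a (-z) = a z := by
  have hodd : ∀ z, Y (-z) = -Y z := fun z => by
    have h1 := (hW (-z)).comp z (hasDerivAt_neg z)
    rw [show W ∘ Neg.neg = W from funext he] at h1
    linarith [h1.unique (hW z)]
  have hae : ∀ z, a (-z) = a z := fun z => by
    have h1 := (hY (-z)).comp z (hasDerivAt_neg z)
    rw [show Y ∘ Neg.neg = fun w => -Y w from funext hodd] at h1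
    linarith [h1.unique (hY z).fun_neg]
  exact ⟨hodd, hae⟩

lemma gr_exp_line {W Y : ℝ → ℝ} {M : ℝ} (hW : ∀ z, HasDerivAt W (Y z) z) (hYabs : ∀ z, |Y z| ≤ |M|) :
    Gr fun z => exp (W z) := by
  have hWc : Continuous W := continuous_iff_continuousAt.2 fun z => (hW z).continuousAt
  refine ⟨continuous_exp.comp hWc, exp |W 0|, |M|, abs_nonneg M, fun z => ?_⟩
  rw [abs_exp, ← exp_add]
  refine exp_le_exp.2 ((le_abs_self _).trans ?_)
  have := abs_sub_le_of_deriv hW hYabs 0 z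
  rw [sub_zero] at this
  linarith [abs_sub_abs_le_abs_sub (W z) (W 0)]

section tm

variable {W P Q : ℝ → ℝ} (hW : Gr fun z => exp (W z))
include hW

lemma tm_mass_pos : 0 < ∫ z, exp (W z) ∂(gaussianReal 0 1) := integral_exp_pos hW.integrable

lemma tm_mono (hP : Gr P) (hQ : Gr Q) (h : ∀ z, P z ≤ Q z) : tm W P ≤ tm W Q :=
  div_le_div_of_nonneg_right (integral_mono (hW.mul hP).integrable (hW.mul hQ).integrable
    fun z => mul_le_mul_of_nonneg_left (h z) (exp_pos _).le) (tm_mass_pos hW).le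

lemma tm_add (hP : Gr P) (hQ : Gr Q) : tm W (fun z => P z + Q z) = tm W P + tm W Q := by
  simp only [tm, mul_add]
  rw [integral_add (hW.mul hP).integrable (hW.mul hQ).integrable, add_div]

lemma tm_const (k : ℝ) : tm W (fun _ => k) = k := by
  simp only [tm]; rw [integral_mul_const]; exact mul_div_cancel_left₀ k (tm_mass_pos hW).ne'

omit hW in
lemma tm_const_mul (k : ℝ) (P : ℝ → ℝ) : tm W (fun z => k * P z) = k * tm W P := by
  simp only [tm, mul_left_comm _ k]; rw [integral_const_mul, mul_div_assoc]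

lemma tm_nonneg (h : ∀ z, 0 ≤ P z) : 0 ≤ tm W P :=
  div_nonneg (integral_nonneg fun z => mul_nonneg (exp_pos _).le (h z)) (tm_mass_pos hW).le

/-- Chebyshev: decreasing times increasing -/
lemma tm_cheb (hP : Gr P) (hQ : Gr Q) {a0 M : ℝ} (hP0 : ∀ z, P z ≤ a0) (hQM : ∀ z, Q z ≤ M)
    (hP0' : P 0 = a0) (hPe : ∀ z, P z = P |z|) (hQe : ∀ z, Q z = Q |z|)
    (hPa : AntitoneOn P (Ici 0)) (hQm : MonotoneOn Q (Ici 0)) :
    tm W (fun z => P z * Q z) ≤ tm W P * tm W Q := by
  set A := tm W P with hA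
  set U : Set ℝ := Q '' {u | 0 ≤ u ∧ A ≤ P u}
  have hAle : A ≤ a0 := (tm_mono hW hP (Gr.const a0) hP0).trans_eq (tm_const hW a0)
  have hne : U.Nonempty := ⟨_, 0, ⟨le_rfl, by rw [hP0']; exact hAle⟩, rfl⟩
  have hbdd : BddAbove U := ⟨M, by rintro _ ⟨u, -, rfl⟩; exact hQM u⟩
  set k := sSup U
  have hpt : ∀ z, P z * Q z ≤ k * P z + (A * Q z + -(A * k)) := fun z => by
    rw [hPe z, hQe z]
    rcases le_or_gt A (P |z|) with h | h
    · have : Q |z| ≤ k := le_csSup hbdd ⟨|z|, ⟨abs_nonneg z, h⟩, rfl⟩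
      nlinarith [mul_le_mul_of_nonneg_left this (sub_nonneg.2 h)]
    · have : k ≤ Q |z| := csSup_le hne (by
        rintro _ ⟨u, ⟨hu, hua⟩, rfl⟩
        refine hQm (mem_Ici.2 hu) (mem_Ici.2 (abs_nonneg z)) (le_of_not_gt fun hlt => ?_)
        linarith [hPa (mem_Ici.2 (abs_nonneg z)) (mem_Ici.2 hu) hlt.le])
      nlinarith [mul_le_mul_of_nonneg_left this (sub_nonneg.2 h.le)]
  have k2 := (Gr.const A).mul hQ
  refine (tm_mono hW (hP.mul hQ) (((Gr.const k).mul hP).add (k2.add (Gr.const _))) hpt).trans (le_of_eq ?_)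
  rw [tm_add hW ((Gr.const k).mul hP) (k2.add (Gr.const _)), tm_add hW k2 (Gr.const _), tm_const_mul, tm_const_mul,
    tm_const hW, ← hA]
  ring

end tm

/-- the decomposition of `exp (W / 2)` up to degree two -/
lemma tilt_chaos {W Y a : ℝ → ℝ} {M B : ℝ} (hW : ∀ z, HasDerivAt W (Y z) z) (hY : ∀ z, HasDerivAt Y (a z) z)
    (hc : Continuous a) (he : ∀ z, W (-z) = W z) (ha : ∀ z, 0 ≤ a z) (hale : ∀ z, a z ≤ B)
    (hb : ∀ z, Y z ^ 2 ≤ M ^ 2) :
    ∃ T N c g X : ℝ, 0 ≤ T ∧ 0 ≤ c ∧ 0 ≤ g ∧ c ^ 2 + T = tm W (fun z => Y z ^ 2) / 4 ∧ 3 * T ≤ N - c ^ 2 ∧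
      4 * N = tm W (fun z => a z ^ 2) + tm W (fun z => a z * Y z ^ 2) + tm W (fun z => Y z ^ 2 * Y z ^ 2) / 4 ∧
      1 - tm W (fun z => Y z ^ 2) / 8 ≤ g ^ 2 ∧
      tm W a + tm W (fun z => Y z ^ 2) = tm W (fun z => Y z ^ 2) / 2 + 2 * c * g + 2 * X ∧
      X ^ 2 ≤ 3 * tm W (fun z => Y z ^ 2) / 8 * T := by
  obtain ⟨hodd, hae⟩ := even_data hW hY he
  have hYc : Continuous Y := continuous_iff_continuousAt.2 fun z => (hY z).continuousAt
  have hWc : Continuous W := continuous_iff_continuousAt.2 fun z => (hW z).continuousAt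
  have hYabs : ∀ z, |Y z| ≤ |M| := fun z => sq_le_sq.1 (hb z)
  have GY : Gr Y := Gr.bdd hYc hYabs
  have Ga : Gr a := Gr.bdd hc fun z => by rw [abs_of_nonneg (ha z)]; exact hale z
  have GeW : Gr fun z => exp (W z) := gr_exp_line hW hYabs
  set Z := ∫ z, exp (W z) ∂(gaussianReal 0 1) with hZdef
  have hZ : 0 < Z := integral_exp_pos GeW.integrable
  set f : ℝ → ℝ := fun z => exp (W z / 2) / √Z with hf
  have hsq : ∀ z, f z ^ 2 = exp (W z) / Z := fun z => by
    simp only [hf]; rw [div_pow, sq_sqrt hZ.le, ← exp_nat_mul]; congr 2; push_cast; ring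
  have Gf : Gr f := by
    refine Gr.of_le ?_ (((Gr.const Z⁻¹).mul GeW).add (Gr.const 1)) fun z => ?_
    · simp only [hf]; fun_prop
    · have h1 : |f z| ≤ f z ^ 2 + 1 := by nlinarith [sq_nonneg (|f z| - 1), sq_abs (f z), abs_nonneg (f z)]
      refine h1.trans ((le_of_eq ?_).trans (le_abs_self _))
      rw [hsq]; ring
  have hI : ∀ P : ℝ → ℝ, ∫ z, f z ^ 2 * P z ∂(gaussianReal 0 1) = tm W P := fun P => by
    simp only [hsq, tm, ← hZdef]
    rw [← integral_div]
    exact integral_congr_ae (Eventually.of_forall fun z => by ring)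
  have one : ∫ z, f z ^ 2 ∂(gaussianReal 0 1) = 1 := by
    simp only [hsq]; rw [integral_div, ← hZdef, div_self hZ.ne']
  set f1 : ℝ → ℝ := fun z => f z * (Y z / 2) with hf1d
  set f2 : ℝ → ℝ := fun z => f z * (a z / 2 + Y z ^ 2 / 4) with hf2d
  have d1 : ∀ z, HasDerivAt f (f1 z) z := fun z =>
    ((((hW z).div_const 2).exp).div_const √Z).congr_deriv (by simp only [hf1d, hf]; ring)
  have d2 : ∀ z, HasDerivAt f1 (f2 z) z := fun z =>
    ((d1 z).mul ((hY z).div_const 2)).congr_deriv (by simp only [hf1d, hf2d]; ring)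
  have G1 : Gr f1 := by simpa [hf1d, div_eq_mul_inv] using Gf.mul (GY.mul (Gr.const (2:ℝ)⁻¹))
  have G2 : Gr f2 := by
    simpa [hf2d, div_eq_mul_inv] using Gf.mul ((Ga.mul (Gr.const (2:ℝ)⁻¹)).add (GY.sq.mul (Gr.const (4:ℝ)⁻¹)))
  have Gz : Gr fun z : ℝ => z := Gr.id
  set A := tm W a with hA
  set S := tm W (fun z => Y z ^ 2) with hSd
  -- the moments of the decomposition
  set g := ∫ z, f z ∂(gaussianReal 0 1)
  set c := ∫ z, f2 z ∂(gaussianReal 0 1)
  have z1 : ∫ z : ℝ, z * z ∂(gaussianReal 0 1) = 1 := by rw [Gr.ibp hasDerivAt_id' Gz (Gr.const 1)]; simp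
  have z0 : ∫ z : ℝ, z ∂(gaussianReal 0 1) = 0 := integral_id_gaussianReal
  have z4 : ∫ z : ℝ, z * (z * z * z) ∂(gaussianReal 0 1) = 3 := by
    rw [Gr.ibp (f := fun z : ℝ => z * z * z) (f' := fun z => 3 * (z * z)) (fun z => (((hasDerivAt_id' z).mul (hasDerivAt_id' z)).mul
      (hasDerivAt_id' z)).congr_deriv (by simp; ring)) ((Gz.mul Gz).mul Gz) ((Gr.const 3).mul (Gz.mul Gz)),
      integral_const_mul, z1, mul_one]
  have p1 : ∫ z, z * f1 z ∂(gaussianReal 0 1) = c := Gr.ibp d2 G1 G2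
  have p2 : ∫ z, z * (z * f z) ∂(gaussianReal 0 1) = g + c := by
    rw [Gr.ibp (f := fun z => z * f z) (f' := fun z => f z + z * f1 z) (fun z => ((hasDerivAt_id' z).mul (d1 z)).congr_deriv (by simp))
      (Gz.mul Gf) (Gf.add (Gz.mul G1)), integral_add Gf.integrable (Gz.mul G1).integrable, p1]
  have n1 : ∫ z, f1 z ^ 2 ∂(gaussianReal 0 1) = S / 4 := by
    rw [hSd, ← hI, ← integral_div]
    exact integral_congr_ae (Eventually.of_forall fun z => by simp only [hf1d]; ring)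
  have pJ : 2 * ∫ z, z * (f z * f1 z) ∂(gaussianReal 0 1) = A + S := by
    have e : ∫ z, z * (f z ^ 2 * Y z) ∂(gaussianReal 0 1) = A + S := by
      rw [Gr.ibp (f := fun z => f z ^ 2 * Y z) (f' := fun z => f z ^ 2 * a z + f z ^ 2 * Y z ^ 2)
        (fun z => ((((d1 z).pow 2)).mul (hY z)).congr_deriv (by simp only [hf1d, Pi.pow_apply]; push_cast; ring))
        (Gf.sq.mul GY) ((Gf.sq.mul Ga).add (Gf.sq.mul GY.sq)),
        integral_add (Gf.sq.mul Ga).integrable (Gf.sq.mul GY.sq).integrable, hI, hI]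
    rw [← e, ← integral_const_mul]
    exact integral_congr_ae (Eventually.of_forall fun z => by simp only [hf1d]; ring)
  have pzz : ∫ z, z * (z * f z ^ 2) ∂(gaussianReal 0 1) = 1 + (A + S) := by
    rw [Gr.ibp (f := fun z => z * f z ^ 2) (f' := fun z => f z ^ 2 + 2 * (z * (f z * f1 z)))
      (fun z => ((hasDerivAt_id' z).mul ((d1 z).pow 2)).congr_deriv (by simp only [Pi.pow_apply]; push_cast; ring))
      (Gz.mul Gf.sq) (Gf.sq.add ((Gr.const 2).mul (Gz.mul (Gf.mul G1)))),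
      integral_add Gf.sq.integrable ((Gr.const 2).mul (Gz.mul (Gf.mul G1))).integrable, integral_const_mul, one, pJ]
  -- the odd part
  set R1 : ℝ → ℝ := fun z => f1 z - c * z with hR1
  set T := ∫ z, R1 z ^ 2 ∂(gaussianReal 0 1) with hT
  have GR1 : Gr R1 := G1.sub ((Gr.const c).mul Gz)
  have eT : T = S / 4 - c ^ 2 := by
    have e : ∀ z, R1 z ^ 2 = f1 z ^ 2 + ((-2 * c) * (z * f1 z) + c ^ 2 * (z * z)) := fun z => by
      simp only [hR1]; ring
    simp only [hT, e]
    rw [integral_add G1.sq.integrable (((Gr.const _).mul (Gz.mul G1)).add ((Gr.const _).mul (Gz.mul Gz))).integrable,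
      integral_add ((Gr.const _).mul (Gz.mul G1)).integrable ((Gr.const _).mul (Gz.mul Gz)).integrable,
      integral_const_mul, integral_const_mul, n1, p1, z1]
    ring
  have f_even : ∀ z, f (-z) = f z := fun z => by simp only [hf, he]
  have f1_odd : ∀ z, f1 (-z) = -f1 z := fun z => by simp only [hf1d, f_even, hodd]; ring
  have f2_even : ∀ z, f2 (-z) = f2 z := fun z => by simp only [hf2d, f_even, hodd, hae]; ring
  set N := ∫ z, f2 z ^ 2 ∂(gaussianReal 0 1) with hN
  have hgap : 3 * T ≤ N - c ^ 2 := by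
    have h := gap_odd (f := R1) (f' := fun z => f2 z - c)
      (fun z => ((d2 z).sub ((hasDerivAt_id' z).const_mul c)).congr_deriv (by simp)) GR1 (G2.sub (Gr.const c))
      (fun z => by simp only [hR1, f1_odd]; ring) (fun z => by simp only [f2_even])
      (by rw [integral_sub G2.integrable (Gr.const c).integrable]; simp [c])
    have e : ∀ z, (f2 z - c) ^ 2 = f2 z ^ 2 + ((-2 * c) * f2 z + c ^ 2) := fun z => by ring
    simp only [e] at h
    rw [integral_add G2.sq.integrable (((Gr.const _).mul G2).add (Gr.const _)).integrable,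
      integral_add ((Gr.const _).mul G2).integrable (Gr.const _).integrable, integral_const_mul, integral_const,
      probReal_univ, one_smul, show ∫ z, f2 z ∂(gaussianReal 0 1) = c from rfl, ← hN, ← hT] at h
    nlinarith [sq_nonneg (R1 √3 / √3)]
  -- the even part
  set R : ℝ → ℝ := fun z => f z - g - c / 2 * (z * z - 1) with hR
  have Gq : Gr fun z : ℝ => z * z - 1 := (Gz.mul Gz).sub (Gr.const 1)
  have GR : Gr R := (Gf.sub (Gr.const g)).sub ((Gr.const (c / 2)).mul Gq)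
  have hg0 : 1 - S / 8 ≤ g ^ 2 := by
    have q0 : ∫ z : ℝ, (z * z - 1) ∂(gaussianReal 0 1) = 0 := by
      rw [integral_sub (Gz.mul Gz).integrable (Gr.const 1).integrable, z1]; simp
    have eR : ∫ z, R z ∂(gaussianReal 0 1) = 0 := by
      simp only [hR]
      rw [integral_sub (Gf.sub (Gr.const g)).integrable ((Gr.const _).mul Gq).integrable,
        integral_sub Gf.integrable (Gr.const g).integrable, integral_const_mul, q0]
      simp [g]
    have eR2 : ∫ z, R z ^ 2 ∂(gaussianReal 0 1) = 1 - g ^ 2 - c ^ 2 / 2 := by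
      have e : ∀ z, R z ^ 2 = f z ^ 2 + ((-2 * g + c) * f z + ((-c) * (z * (z * f z)) +
          ((g * c - c ^ 2 / 2) * (z * z) + (c ^ 2 / 4 * (z * (z * z * z)) + (g ^ 2 - g * c + c ^ 2 / 4))))) :=
        fun z => by simp only [hR]; ring
      simp only [e]
      have k4 := (Gr.const (c ^ 2 / 4)).mul (Gz.mul ((Gz.mul Gz).mul Gz))
      have k0 := Gr.const (g ^ 2 - g * c + c ^ 2 / 4)
      have k2 := (Gr.const (g * c - c ^ 2 / 2)).mul (Gz.mul Gz)
      have k3 := (Gr.const (-c)).mul (Gz.mul (Gz.mul Gf))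
      have k1 := (Gr.const (-2 * g + c)).mul Gf
      rw [integral_add Gf.sq.integrable (k1.add (k3.add (k2.add (k4.add k0)))).integrable,
        integral_add k1.integrable (k3.add (k2.add (k4.add k0))).integrable,
        integral_add k3.integrable (k2.add (k4.add k0)).integrable,
        integral_add k2.integrable (k4.add k0).integrable, integral_add k4.integrable k0.integrable,
        integral_const_mul, integral_const_mul, integral_const_mul, integral_const_mul, one, p2, z1, z4,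
        integral_const, probReal_univ, one_smul, show ∫ z, f z ∂(gaussianReal 0 1) = g from rfl]
      ring
    have h := gap_even (f := R) (f' := R1)
      (fun z => (((d1 z).sub_const g).sub ((((hasDerivAt_id' z).mul (hasDerivAt_id' z)).sub_const 1).const_mul
        (c / 2))).congr_deriv (by simp only [hR1]; ring))
      GR GR1 (fun z => by simp only [hR, f_even]; ring) (fun z => by simp only [hR1, f1_odd]; ring)
    rw [eR, eR2, ← hT, eT] at h
    nlinarith
  -- the cross term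
  set P : ℝ → ℝ := fun z => z * f z - f1 z - g * z with hP
  have GP : Gr P := ((Gz.mul Gf).sub G1).sub ((Gr.const g).mul Gz)
  have GPR := GP.mul GR1
  have eP : ∫ z, P z ^ 2 ∂(gaussianReal 0 1) = 1 + S / 4 - g ^ 2 := by
    have e : ∀ z, P z ^ 2 = z * (z * f z ^ 2) + ((-2) * (z * (f z * f1 z)) + (f1 z ^ 2 +
        ((-2 * g) * (z * (z * f z)) + (2 * g * (z * f1 z) + g ^ 2 * (z * z))))) := fun z => by
      simp only [hP]; ring
    simp only [e]
    have k1 := (Gr.const (-2)).mul (Gz.mul (Gf.mul G1))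
    have k3 := (Gr.const (-2 * g)).mul (Gz.mul (Gz.mul Gf))
    have k4 := (Gr.const (2 * g)).mul (Gz.mul G1)
    have k5 := (Gr.const (g ^ 2)).mul (Gz.mul Gz)
    rw [integral_add (Gz.mul (Gz.mul Gf.sq)).integrable (k1.add (G1.sq.add (k3.add (k4.add k5)))).integrable,
      integral_add k1.integrable (G1.sq.add (k3.add (k4.add k5))).integrable,
      integral_add G1.sq.integrable (k3.add (k4.add k5)).integrable,
      integral_add k3.integrable (k4.add k5).integrable, integral_add k4.integrable k5.integrable,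
      integral_const_mul, integral_const_mul, integral_const_mul, integral_const_mul, pzz, n1, p2, p1, z1]
    linarith [pJ]
  set X := ∫ z, P z * R1 z ∂(gaussianReal 0 1) with hX
  have eX : A + S = S / 2 + 2 * c * g + 2 * X := by
    have e : ∀ z, P z * R1 z = z * (f z * f1 z) + ((-1) * f1 z ^ 2 + ((c - g) * (z * f1 z) +
        ((-c) * (z * (z * f z)) + g * c * (z * z)))) := fun z => by simp only [hP, hR1]; ring
    simp only [hX, e]
    have k1 := (Gr.const (-1)).mul G1.sq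
    have k2 := (Gr.const (c - g)).mul (Gz.mul G1)
    have k3 := (Gr.const (-c)).mul (Gz.mul (Gz.mul Gf))
    have k4 := (Gr.const (g * c)).mul (Gz.mul Gz)
    rw [integral_add (Gz.mul (Gf.mul G1)).integrable (k1.add (k2.add (k3.add k4))).integrable,
      integral_add k1.integrable (k2.add (k3.add k4)).integrable,
      integral_add k2.integrable (k3.add k4).integrable, integral_add k3.integrable k4.integrable,
      integral_const_mul, integral_const_mul, integral_const_mul, integral_const_mul, n1, p1, p2, z1]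
    linarith [pJ]
  have hX2 : X ^ 2 ≤ (∫ z, P z ^ 2 ∂(gaussianReal 0 1)) * T := by
    have key : ∀ s : ℝ, 0 ≤ (∫ z, P z ^ 2 ∂(gaussianReal 0 1)) * (s * s) + 2 * X * s + T := fun s => by
      have h : 0 ≤ ∫ z, (s * P z + R1 z) ^ 2 ∂(gaussianReal 0 1) := integral_nonneg fun z => sq_nonneg _
      have e : ∀ z, (s * P z + R1 z) ^ 2 = s * s * P z ^ 2 + (2 * s * (P z * R1 z) + R1 z ^ 2) := fun z => by ring
      simp only [e] at h
      rw [integral_add ((Gr.const _).mul GP.sq).integrable (((Gr.const _).mul GPR).add GR1.sq).integrable,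
        integral_add ((Gr.const _).mul GPR).integrable GR1.sq.integrable, integral_const_mul, integral_const_mul,
        ← hX, ← hT] at h
      linarith
    have := discrim_le_zero key
    rw [discrim] at this
    nlinarith
  have hfpos : ∀ z, 0 < f z := fun z => div_pos (exp_pos _) (sqrt_pos.2 hZ)
  have hN4 : 4 * N = tm W (fun z => a z ^ 2) + tm W (fun z => a z * Y z ^ 2) +
      tm W (fun z => Y z ^ 2 * Y z ^ 2) / 4 := by
    have e : ∀ z, f2 z ^ 2 = 1 / 4 * (f z ^ 2 * a z ^ 2) + (1 / 4 * (f z ^ 2 * (a z * Y z ^ 2)) +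
        1 / 16 * (f z ^ 2 * (Y z ^ 2 * Y z ^ 2))) := fun z => by simp only [hf2d]; ring
    have k2 := (Gr.const (1 / 4 : ℝ)).mul (Gf.sq.mul (Ga.mul GY.sq))
    have k3 := (Gr.const (1 / 16 : ℝ)).mul (Gf.sq.mul (GY.sq.mul GY.sq))
    simp only [hN, e]
    rw [integral_add ((Gr.const _).mul (Gf.sq.mul Ga.sq)).integrable (k2.add k3).integrable,
      integral_add k2.integrable k3.integrable, integral_const_mul, integral_const_mul, integral_const_mul,
      hI, hI, hI]
    ring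
  have hT0 : 0 ≤ T := hT ▸ integral_nonneg fun z => sq_nonneg _
  refine ⟨T, N, c, g, X, hT0, integral_nonneg fun z =>
    mul_nonneg (hfpos z).le (add_nonneg (div_nonneg (ha z) two_pos.le) (by positivity)),
    integral_nonneg fun z => (hfpos z).le, by linarith [eT], hgap, hN4, hg0, eX, hX2.trans ?_⟩
  refine mul_le_mul_of_nonneg_right ?_ hT0
  rw [eP]; linarith

/-- **Root marginality** -/
theorem tilt_core {W Y a : ℝ → ℝ} {M : ℝ} (hW : ∀ z, HasDerivAt W (Y z) z) (hY : ∀ z, HasDerivAt Y (a z) z)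
    (hc : Continuous a) (he : ∀ z, W (-z) = W z) (ha : ∀ z, 0 ≤ a z) (hanti : AntitoneOn a (Ici 0))
    (hb : ∀ z, Y z ^ 2 ≤ M ^ 2) (hlow : ∀ z, M ^ 2 ≤ a z + Y z ^ 2) (hpos : 0 < a 0)
    (hJ : (tm W a + tm W (fun z => Y z ^ 2)) ^ 2 ≤ tm W fun z => Y z ^ 2) :
    tm W (fun z => Y z ^ 2) < tm W fun z => a z ^ 2 := by
  obtain ⟨hodd, hae⟩ := even_data hW hY he
  have hale : ∀ z, a z ≤ a 0 := fun z => by
    rcases le_total 0 z with h | h
    · exact hanti (mem_Ici.2 le_rfl) (mem_Ici.2 h) h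
    · rw [← hae z]; exact hanti (mem_Ici.2 le_rfl) (mem_Ici.2 (neg_nonneg.2 h)) (neg_nonneg.2 h)
  have hYc : Continuous Y := continuous_iff_continuousAt.2 fun z => (hY z).continuousAt
  have GY : Gr Y := Gr.bdd hYc fun z => sq_le_sq.1 (hb z)
  have Ga : Gr a := Gr.bdd hc fun z => by rw [abs_of_nonneg (ha z)]; exact hale z
  have GeW : Gr fun z => exp (W z) := gr_exp_line hW fun z => sq_le_sq.1 (hb z)
  set A := tm W a with hA
  set S := tm W (fun z => Y z ^ 2) with hSd
  by_contra hcon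
  push Not at hcon
  have hS : 0 < S := by
    rw [hSd, tm]
    refine div_pos (lt_of_le_of_ne (integral_nonneg fun z => by positivity) fun h => ?_) (tm_mass_pos GeW)
    have hz : ∀ z, Y z = 0 := fun z => by
      have := eq_zero_of_gauss (GeW.mul GY.sq) (fun w => by positivity) h.symm z
      simpa [(exp_pos (W z)).ne'] using this
    have h0 := hY 0
    rw [show Y = fun _ => 0 from funext hz] at h0
    linarith [h0.unique (hasDerivAt_const 0 (0:ℝ))]
  have hY0 : Y 0 = 0 := by have := hodd 0; rw [neg_zero] at this; linarith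
  have hYm : MonotoneOn Y (Ici 0) := (monotone_of_hasDerivAt_nonneg hY ha).monotoneOn _
  have cheb : tm W (fun z => a z * Y z ^ 2) ≤ A * S :=
    tm_cheb GeW Ga GY.sq hale hb rfl (fun z => by rcases abs_choice z with h | h <;> simp [h, hae])
      (fun z => by rcases abs_choice z with h | h <;> simp [h, hodd]) hanti
      fun u hu v hv huv => pow_le_pow_left₀ (hY0 ▸ hYm (mem_Ici.2 le_rfl) hu hu) (hYm hu hv huv) 2
  have hM : M ^ 2 ≤ A + S := by
    have := tm_mono GeW (Gr.const (M ^ 2)) (Ga.add GY.sq) hlow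
    rwa [tm_const GeW, tm_add GeW Ga GY.sq] at this
  have quart : tm W (fun z => Y z ^ 2 * Y z ^ 2) ≤ M ^ 2 * S := by
    refine (tm_mono GeW (GY.sq.mul GY.sq) ((Gr.const (M ^ 2)).mul GY.sq)
      fun z => mul_le_mul_of_nonneg_right (hb z) (sq_nonneg _)).trans (le_of_eq ?_)
    rw [tm_const_mul]
  obtain ⟨T, N, c, g, X, hT0, hc0, hg, hsum, hgap, hN, hg0, hid, hX⟩ := tilt_chaos hW hY hc he ha hale hb
  exact core_scalar hS (tm_nonneg GeW ha) hT0 hc0 hg hJ hcon hsum hgap
    (by rw [hN]; nlinarith [cheb, quart, mul_le_mul_of_nonneg_right hM hS.le]) hg0 hid hX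

variable {G g1 g2 : ℝ → ℝ}

/-- Root marginality for one Gaussian step. -/
theorem core_step {m t : ℝ} (h : Inv G g1 g2 m) (hm : 0 < m) (ht : 0 < t)
    (hG : t * vS m t G g1 g2 0 ^ 2 ≤ avT m t G (fun y => g1 y ^ 2) 0) :
    avT m t G (fun y => g1 y ^ 2) 0 < t * avT m t G (fun y => g2 y ^ 2) 0 := by
  set s := √t
  have hs : 0 < s := sqrt_pos.2 ht
  have hs2 : s ^ 2 = t := sq_sqrt ht.le
  set W : ℝ → ℝ := fun z => m * G (s * z)
  set Y : ℝ → ℝ := fun z => m * s * g1 (s * z)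
  set a : ℝ → ℝ := fun z => m * t * g2 (s * z)
  have hav : ∀ P : ℝ → ℝ, avT m t G P 0 = tm W fun z => P (s * z) := fun P => by
    simp [avT, mass, tm, W, s]
  have htm : ∀ (k : ℝ) (P : ℝ → ℝ), tm W (fun z => k * P z) = k * tm W P := fun k P => by
    simp only [tm]
    rw [← mul_div_assoc, ← integral_const_mul]
    congr 1; exact integral_congr_ae (Eventually.of_forall fun z => by ring)
  have hodd1 : avT m t G g1 0 = 0 := by
    rw [hav, tm]
    have : ∫ z, exp (W z) * g1 (s * z) ∂(gaussianReal 0 1) = 0 := by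
      have e := integral_gauss_neg fun z => exp (W z) * g1 (s * z)
      simp only [W, mul_neg, h.even, h.toCvx.f1_neg, integral_neg] at e
      linarith
    rw [this, zero_div]
  have eA : tm W a = m * t * avT m t G g2 0 := by rw [hav, ← htm]
  have eS : tm W (fun z => Y z ^ 2) = m ^ 2 * t * avT m t G (fun y => g1 y ^ 2) 0 := by
    rw [hav, ← htm]; congr 1; funext z; simp only [Y, mul_pow, hs2]
  have eE : tm W (fun z => a z ^ 2) = m ^ 2 * t ^ 2 * avT m t G (fun y => g2 y ^ 2) 0 := by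
    rw [hav, ← htm]; congr 1; funext z; simp only [a, mul_pow]
  have hd : ∀ z : ℝ, HasDerivAt (fun z => s * z) s z := fun z => by
    simpa using (hasDerivAt_id' z).const_mul s
  have key := tilt_core (W := W) (Y := Y) (a := a) (M := m * s)
    (fun z => (((h.d0 _).comp z (hd z)).const_mul m).congr_deriv (by simp only [Y]; ring))
    (fun z => (((h.d1 _).comp z (hd z)).const_mul (m * s)).congr_deriv (by simp only [a, ← hs2]; ring))
    (continuous_const.mul (h.cont2.comp (by fun_prop)))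
    (fun z => by simp only [W, mul_neg, h.even])
    (fun z => mul_nonneg (mul_pos hm ht).le (h.nonneg2 _))
    (fun u hu v hv huv => mul_le_mul_of_nonneg_left (h.anti (mem_Ici.2 (mul_nonneg hs.le hu))
      (mem_Ici.2 (mul_nonneg hs.le hv)) (mul_le_mul_of_nonneg_left huv hs.le)) (mul_pos hm ht).le)
    (fun z => by
      simp only [Y, mul_pow]
      exact mul_le_of_le_one_right (by positivity) (h.toCvx.sq1 _))
    (fun z => by
      simp only [Y, a, mul_pow, hs2]
      nlinarith [mul_le_mul_of_nonneg_left (h.low (s * z)) (mul_pos hm ht).le])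
    (by simpa [a] using mul_pos (mul_pos hm ht) h.pos) ?_
  · rw [eS, eE] at key
    nlinarith [mul_pos (sq_pos_of_pos hm) ht]
  · rw [eA, eS]
    have hv : m * t * avT m t G g2 0 + m ^ 2 * t * avT m t G (fun y => g1 y ^ 2) 0 =
        m * t * vS m t G g1 g2 0 := by simp only [vS, hodd1]; ring
    rw [hv]
    calc (m * t * vS m t G g1 g2 0) ^ 2 = m ^ 2 * t * (t * vS m t G g1 g2 0 ^ 2) := by ring
      _ ≤ _ := mul_le_mul_of_nonneg_left hG (by positivity)

end Vale.Agent.P146.Lower.Marg
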