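import Vale.Agent.P146.Lower.Defs

/-! P146 lower bound, marginality: one step of the nested functional, in logarithmic form. -/

open MeasureTheory ProbabilityTheory Real

noncomputable section

namespace Vale.Agent.P146.Lower.Marg

/-- `log cosh` -/
def lc (x : ℝ) : ℝ := log (cosh x)

/-- normalisation of the tilt of a Gaussian step of variance `d` -/
def mass (m d : ℝ) (F : ℝ → ℝ) (x : ℝ) : ℝ := ∫ z, exp (m * F (x + √d * z)) ∂gaussianReal 0 1

/-- tilted mean over one step -/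
def avT (m d : ℝ) (F P : ℝ → ℝ) (x : ℝ) : ℝ :=
  (∫ z, exp (m * F (x + √d * z)) * P (x + √d * z) ∂gaussianReal 0 1) / mass m d F x

/-- the value one step below, with its limit at exponent zero -/
def smo (m d : ℝ) (F : ℝ → ℝ) (x : ℝ) : ℝ :=
  if m = 0 then ∫ z, F (x + √d * z) ∂gaussianReal 0 1 else log (mass m d F x) / m

/-- second derivative of `smo` -/
def vS (m d : ℝ) (F f1 f2 : ℝ → ℝ) (x : ℝ) : ℝ :=
  avT m d F f2 x + m * (avT m d F (fun y => f1 y ^ 2) x - avT m d F f1 x ^ 2)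

/-- squared first derivative carried from the intermediate variance `t` back to the start -/
def Gs (m L : ℝ) (F f1 : ℝ → ℝ) (x t : ℝ) : ℝ :=
  avT m t (smo m (L - t) F) (fun y => avT m (L - t) F f1 y ^ 2) x

/-- its derivative in `t` -/
def Gd (m L : ℝ) (F f1 f2 : ℝ → ℝ) (x t : ℝ) : ℝ :=
  avT m t (smo m (L - t) F) (fun y => vS m (L - t) F f1 f2 y ^ 2) x

/-- even, convex, with slope at most one and curvature below `1 - slope²` -/
structure Cvx (F f1 f2 : ℝ → ℝ) : Prop where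
  d0 : ∀ x, HasDerivAt F (f1 x) x
  d1 : ∀ x, HasDerivAt f1 (f2 x) x
  cont2 : Continuous f2
  even : ∀ x, F (-x) = F x
  nonneg2 : ∀ x, 0 ≤ f2 x
  le2 : ∀ x, f2 x ≤ 1 - f1 x ^ 2

/-- with third and fourth derivatives bounded by `B₃`, `B₄` -/
structure Jet (F f1 f2 f3 f4 : ℝ → ℝ) (B₃ B₄ : ℝ) : Prop extends Cvx F f1 f2 where
  d2 : ∀ x, HasDerivAt f2 (f3 x) x
  d3 : ∀ x, HasDerivAt f3 (f4 x) x
  cont4 : Continuous f4
  b3 : ∀ x, |f3 x| ≤ B₃
  b4 : ∀ x, |f4 x| ≤ B₄

/-- what survives the steps with exponents up to `m₀`: curvature decreasing away from the origin, positive there,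
and at least `m₀ (1 - slope²)` -/
structure Inv (F f1 f2 : ℝ → ℝ) (m₀ : ℝ) : Prop extends Cvx F f1 f2 where
  anti : AntitoneOn f2 (Set.Ici 0)
  pos : 0 < f2 0
  low : ∀ x, m₀ * (1 - f1 x ^ 2) ≤ f2 x

end Vale.Agent.P146.Lower.Marg
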