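import Vale.Agent.P146.Lower.Marg.Bounds

/-! P146 lower bound, marginality: profiles with nothing below a level, and the shape of the deficit on a gap. -/

open MeasureTheory ProbabilityTheory Real Finset
open Vale.Agent.P168.MP (lin)
open Vale.Agent.P157.Par (Prof Vn tlN dist1)

noncomputable section

namespace Vale.Agent.P146.Lower.Marg

variable {β : ℝ} {R : ℕ} {r p : ℕ → ℝ} {V : ℝ}

lemma Gm_nonneg (hr : Prof R r V) {l : ℕ} (hl : l ≤ R) : 0 ≤ Gm β R r l := by
  have hc := cvx_all (β := β) hr (R - l) (by omega)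
  rw [Gm_eq hl, ← OP_const (β := β) hr 0 (k := R - l) (by omega)]
  exact OP_le hr continuous_const (sq_cont hc.cont1) (B := 1) (by simp)
    (fun y => by rw [abs_pow]; exact pow_le_one₀ (abs_nonneg _) (hc.abs1 y)) (by omega) fun y => sq_nonneg _

theorem Gm_lip (β : ℝ) : ∃ K : ℝ, 0 ≤ K ∧ ∀ (R : ℕ) (r p : ℕ → ℝ), 1 ≤ R → Prof R r 1 → Prof R p 1 →
    (∀ l ≤ R, |Gm β R r l - Gm β R p l| ≤ K * (|r l - p l| + dist1 R r p)) ∧
      |wbar β R r - wbar β R p| ≤ 2 * K * dist1 R r p := by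
  obtain ⟨K, hK, hlip⟩ := Vale.Agent.P157.Par.Phi_lip Vale.Agent.P157.Par.sm_logcosh (β ^ 2)
  refine ⟨K * β ^ 2, by positivity, fun R r p hR hr hp => ?_⟩
  have h1 : ∀ l ≤ R, |Gm β R r l - Gm β R p l| ≤ K * β ^ 2 * (|r l - p l| + dist1 R r p) := fun l hl => by
    have h := (hlip R (fun i => β ^ 2 * r i) (fun i => β ^ 2 * p i) hR
      (by simpa using hr.scale (sq_nonneg β)) (by simpa using hp.scale (sq_nonneg β))).2 l hl
    rw [Vale.Agent.P157.Par.cosh_eq_exp] at h
    refine h.trans (le_of_eq ?_)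
    simp only [dist1, ← mul_sub, abs_mul, abs_of_nonneg (sq_nonneg β), ← mul_sum]
    ring
  refine ⟨h1, ?_⟩
  have hR0 : (0:ℝ) < R := Nat.cast_pos.2 (by omega)
  rw [wbar_eq hR hr, wbar_eq hR hp]
  set Kb := K * β ^ 2
  have hKb : 0 ≤ Kb := by positivity
  have hd := Vale.Agent.P157.Par.dist1_nonneg R r p
  have hsum : |(∑ i ∈ range R, Gm β R r i) - ∑ i ∈ range R, Gm β R p i| ≤
      Kb * ((∑ i ∈ range R, |r i - p i|) + R * dist1 R r p) := by
    rw [← sum_sub_distrib]
    refine (abs_sum_le_sum_abs _ _).trans ((sum_le_sum fun i hi => h1 i (mem_range.1 hi).le).trans_eq ?_)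
    rw [← mul_sum, sum_add_distrib, sum_const, card_range, nsmul_eq_mul]
  have e : 1 - (∑ i ∈ range R, Gm β R r i) / R - (1 - (∑ i ∈ range R, Gm β R p i) / R) =
      -(((∑ i ∈ range R, Gm β R r i) - ∑ i ∈ range R, Gm β R p i) / R) := by ring
  rw [e, abs_neg, abs_div, abs_of_pos hR0, div_le_iff₀ hR0]
  refine hsum.trans ?_
  have : (∑ i ∈ range R, |r i - p i|) ≤ dist1 R r p * R := by
    rw [← div_le_iff₀ hR0]
    exact le_add_of_nonneg_right (abs_nonneg _)
  nlinarith

lemma congr_levels : ∀ k, k ≤ R → (∀ i, R - k ≤ i → i ≤ R → r i = p i) →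
    FL β R r k = FL β R p k ∧ UL β R r k = UL β R p k ∧ WL β R r k = WL β R p k
  | 0, _, _ => ⟨rfl, rfl, rfl⟩
  | k + 1, hk, h => by
    obtain ⟨a, b, c⟩ := congr_levels k (by omega) fun i hi hi' => h i (by omega) hi'
    have hd : dd β R r k = dd β R p k := by
      simp only [dd, h (R - k) (by omega) (by omega), h (R - (k + 1)) le_rfl (by omega)]
    refine ⟨?_, ?_, ?_⟩
    · rw [FL_succ hk, FL_succ hk, a, hd]
    · rw [UL_succ hk, UL_succ hk, a, b, hd]
    · simp only [WL, a, b, c, hd]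

lemma OP_zero_below : ∀ i₀, i₀ ≤ R → (∀ i ≤ i₀, p i = 0) → ∀ P : ℝ → ℝ, OP β R p (R - i₀) P = P 0
  | 0, _, h, P => by simp [OP, h 0 le_rfl, tlN]
  | i + 1, hi, h, P => by
    have hk : R - (i + 1) < R := by omega
    rw [← OP_step hk, show R - (i + 1) + 1 = R - i by omega,
      OP_zero_below i (by omega) (fun j hj => h j (by omega))]
    simp only [dd, show R - (R - (i + 1)) = i + 1 by omega, show R - (R - (i + 1) + 1) = i by omega,
      h (i + 1) le_rfl, h i (by omega), sub_zero, mul_zero, avT_at_zero]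

/-- the first level not at zero is reached by one tilted step from the origin -/
lemma Gm_first {l : ℕ} (hl : l ≤ R) (hz : ∀ i < l, p i = 0) :
    Gm β R p l = avT (lin R l) (β ^ 2 * p l) (FL β R p (R - l)) (fun y => UL β R p (R - l) y ^ 2) 0 := by
  rw [Gm_eq hl]
  cases l with
  | zero => simp [OP, lin, tlN]
  | succ i =>
    have hk : R - (i + 1) < R := by omega
    rw [← OP_step hk, show R - (i + 1) + 1 = R - i by omega,
      OP_zero_below i (by omega) (fun j hj => hz j (by omega))]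
    simp only [dd, show R - (R - (i + 1)) = i + 1 by omega, show R - (R - (i + 1) + 1) = i by omega,
      hz i (by omega), sub_zero]

/-- `gap_shape` with the root curvature up to `(1 + σ) / β` -/
theorem gap_shape_slack (β : ℝ) : ∃ C : ℝ, 0 ≤ C ∧ ∀ (R : ℕ) (p : ℕ → ℝ) (l : ℕ) (T A σ : ℝ), l + 1 < R →
    Prof R p 1 → (∀ i ≤ l, p i = 0) → 0 ≤ T → T ≤ p (l + 1) → 0 ≤ A → 0 ≤ σ → σ ≤ 1 → β * A ≤ 1 + σ →
    (∀ τ ∈ Set.Icc 0 T, wbar β R (Function.update p l τ) ≤ A) → 1 ≤ β →
    ∀ E : ℝ, 0 ≤ E → Gm β R (Function.update p l T) l + C / R - T ≤ E →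
      ∀ τ ∈ Set.Icc 0 T, Gm β R (Function.update p l τ) l - τ ≤ E + 3 * σ + 2 * C / R ∧
        Gm β R (Function.update p l τ) l - τ ≤ β ^ 2 * τ * (A + C * τ) ^ 2 - τ + C / R := by
  obtain ⟨C₁, hC₁, hlev⟩ := levels_close β
  obtain ⟨Ce, hCe, hexp⟩ := avT_exponent (β ^ 2)
  refine ⟨Ce + C₁ * (β ^ 2 + 2), by positivity, fun R p l T A σ hl hp hz hT hTl hA hσ hσ1 hAβ hw hβ E hE hend => ?_⟩
  set c := β ^ 2
  have hc : 0 < c := pow_pos (by linarith) 2
  have hR : 1 ≤ R := by omega
  set C := Ce + C₁ * (c + 2)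
  set k := R - (l + 1)
  set m := lin R (l + 1)
  set F := FL β R p k
  set U := UL β R p k
  set W := WL β R p k
  set L := c * p (l + 1)
  have hm := lin_mem (R := R) (k := l + 1) (by omega)
  have hm0 : 0 < m := by
    simp only [m, lin, if_pos (show l + 1 ≤ R by omega)]
    exact div_pos (Nat.cast_pos.2 (by omega)) (Nat.cast_pos.2 (by omega))
  have hF : Inv F U W m := by
    have h := inv_all (β := β) hp k (by omega)
    rwa [show R - k = l + 1 by omega] at h
  have hpl := hp.upper (show l + 1 ≤ R by omega)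
  have hcT : c * T ≤ L := mul_le_mul_of_nonneg_left hTl hc.le
  have hL : 0 ≤ L := mul_nonneg hc.le hpl.1
  have hq : ∀ τ ∈ Set.Icc 0 T, Prof R (Function.update p l τ) 1 ∧
      FL β R (Function.update p l τ) (R - l) = smo m (L - c * τ) F ∧
      UL β R (Function.update p l τ) (R - l) = avT m (L - c * τ) F U ∧
      WL β R (Function.update p l τ) (R - l) = vS m (L - c * τ) F U W := fun τ hτ => by
    have hp' : Prof R (Function.update p l τ) 1 := by
      refine ⟨?_, fun i hi => ?_, ?_⟩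
      · rcases eq_or_ne l 0 with rfl | h
        · simpa using hτ.1
        · simpa [Function.update_of_ne h.symm] using hp.zero
      · rcases eq_or_ne i l with rfl | h
        · rw [Function.update_self, Function.update_of_ne (by omega)]
          exact hτ.2.trans hTl
        rcases eq_or_ne (i + 1) l with h' | h'
        · rw [h', Function.update_self, Function.update_of_ne h, hz i (by omega)]
          exact hτ.1
        rw [Function.update_of_ne h, Function.update_of_ne h']
        exact hp.mono i hi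
      · rw [Function.update_of_ne (by omega)]; exact hp.top
    obtain ⟨a, b, e⟩ := congr_levels (β := β) (R := R) (r := Function.update p l τ) (p := p) k (by omega)
      fun i hi _ => Function.update_of_ne (by omega) _ _
    have hk : k < R := by omega
    have hk1 : R - l = k + 1 := by omega
    have hd : dd β R (Function.update p l τ) k = L - c * τ := by
      simp only [dd, show R - k = l + 1 by omega, show R - (k + 1) = l by omega, Function.update_self,
        Function.update_of_ne (show l + 1 ≠ l by omega), L, c]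
      ring
    refine ⟨hp', ?_, ?_, ?_⟩
    · rw [hk1, FL_succ hk, a, hd, show R - k = l + 1 by omega]
    · rw [hk1, UL_succ hk, a, b, hd, show R - k = l + 1 by omega]
    · rw [hk1, WL, a, b, e, hd, show R - k = l + 1 by omega]
  have hcl : ∀ τ ∈ Set.Icc 0 T, |Gm β R (Function.update p l τ) l - Gs m L F U 0 (c * τ)| ≤ Ce / R := by
    intro τ hτ
    obtain ⟨hp', hF', hU', -⟩ := hq τ hτ
    rw [Gm_first (show l ≤ R by omega) (fun i hi => by rw [Function.update_of_ne hi.ne]; exact hz i hi.le),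
      Function.update_self, hF', hU']
    have hd : 0 ≤ L - c * τ := by have := mul_le_mul_of_nonneg_left hτ.2 hc.le; linarith
    have hu := cvx_step hF.toCvx hm.1 hm.2 hd
    have hl' := lin_mem (R := R) (k := l) (by omega)
    refine (hexp _ _ _ _ _ _ _ 1 0 hu (sq_cont hu.cont1)
      (fun y => by rw [abs_pow]; exact pow_le_one₀ (abs_nonneg _) (hu.abs1 y))
      hl'.1 hl'.2 hm.1 hm.2 (mul_nonneg hc.le hτ.1)
      (mul_le_of_le_one_right hc.le (hτ.2.trans (hTl.trans hpl.2)))).trans_eq ?_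
    simp only [m, lin, if_pos (show l + 1 ≤ R by omega), if_pos (show l ≤ R by omega)]
    rw [show (l:ℝ) / R - ((l + 1 : ℕ) : ℝ) / R = -(1 / R) by push_cast; ring, abs_neg,
      abs_of_nonneg (by positivity)]
    ring
  have hA0 : vS m L F U W 0 ≤ A := by
    obtain ⟨hp', -, -, hW⟩ := hq 0 ⟨le_rfl, hT⟩
    have h := (hlev R _ hR hp').2 (R - l) (by omega) (by omega)
    rw [hW, show R - (R - l) = l by omega, Function.update_self, mul_zero, sub_zero, mul_zero] at h
    have := hw 0 ⟨le_rfl, hT⟩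
    linarith [(abs_le.1 h).1]
  have hA0' : 0 ≤ vS m L F U W 0 := (cvx_step hF.toCvx hm.1 hm.2 hL).nonneg2 0
  set g := fun τ => Gs m L F U 0 (c * τ) - τ
  obtain ⟨hgc, hgd⟩ := gs_deriv hF.toCvx hm.1 hm.2 hL 0
  have hgcont : ContinuousOn g (Set.Icc 0 T) := by
    refine ContinuousOn.sub (hgc.comp (by fun_prop) fun τ hτ => ?_) continuousOn_id
    exact ⟨mul_nonneg hc.le hτ.1, (mul_le_mul_of_nonneg_left hτ.2 hc.le).trans hcT⟩
  have hg0 : g 0 = 0 := by
    simp only [g, mul_zero, sub_zero, Gs, avT_at_zero]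
    rw [(cvx_step hF.toCvx hm.1 hm.2 hL).zero1]; ring
  have hgT : g T ≤ E := by
    have := (abs_le.1 (hcl T ⟨hT, le_rfl⟩)).1
    have : Ce / R ≤ C / R := div_le_div_of_nonneg_right (le_add_of_nonneg_right (by positivity)) (Nat.cast_nonneg R)
    simp only [g]; linarith
  have hglob : ∀ τ ∈ Set.Icc 0 T, g τ ≤ E + 3 * σ := by
    obtain ⟨τ₁, hτ₁, hmax⟩ := isCompact_Icc.exists_isMaxOn (Set.nonempty_Icc.2 hT) hgcont
    intro τ hτ
    by_contra hlt
    push Not at hlt
    have h1 : g τ ≤ g τ₁ := hmax hτ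
    have hτ₀ : 0 < τ₁ := lt_of_le_of_ne hτ₁.1 fun h => by rw [← h, hg0] at h1; linarith
    have hτT : τ₁ < T := lt_of_le_of_ne hτ₁.2 fun h => by rw [h] at h1; linarith
    have hloc : IsLocalMax g τ₁ := hmax.isLocalMax (Icc_mem_nhds hτ₀ hτT)
    have hs : c * τ₁ ∈ Set.Ioo 0 L :=
      ⟨mul_pos hc hτ₀, (mul_lt_mul_of_pos_left hτT hc).trans_le hcT⟩
    have hd : HasDerivAt g (Gd m L F U W 0 (c * τ₁) * c - 1) τ₁ := by
      have := ((hgd _ hs).comp τ₁ ((hasDerivAt_id τ₁).const_mul c)).sub (hasDerivAt_id τ₁)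
      exact this.congr_deriv (by ring)
    have hz0 := hloc.hasDerivAt_eq_zero hd
    have hG : c * τ₁ * vS m L F U W 0 ^ 2 ≤ Gs m L F U 0 (c * τ₁) := by
      have h2 : c * vS m L F U W 0 ^ 2 ≤ 1 + 3 * σ := by
        have h3 := (mul_le_mul_of_nonneg_left hA0 (by linarith : 0 ≤ β)).trans hAβ
        rw [← mul_pow]
        refine (pow_le_pow_left₀ (mul_nonneg (by linarith) hA0') h3 2).trans ?_
        have := mul_le_of_le_one_left hσ hσ1
        linarith
      have := mul_le_mul_of_nonneg_left h2 hτ₀.le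
      have h4 : 3 * σ * τ₁ ≤ 3 * σ :=
        mul_le_of_le_one_right (by positivity) (hτ₁.2.trans (hTl.trans hpl.2))
      have : 3 * σ ≤ g τ₁ := by linarith
      simp only [g] at this
      linarith
    have hk := key hF hm0 hm.2 hs.1 hs.2.le hG
    have : 0 ≤ g τ₁ := by linarith
    simp only [g] at this
    have e : c * τ₁ * Gd m L F U W 0 (c * τ₁) = τ₁ * (Gd m L F U W 0 (c * τ₁) * c) := by ring
    rw [show Gd m L F U W 0 (c * τ₁) * c = 1 by linarith, mul_one] at e
    linarith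
  intro τ hτ
  have hc1 := (abs_le.1 (hcl τ hτ)).2
  have hCR : Ce / R ≤ C / R :=
    div_le_div_of_nonneg_right (le_add_of_nonneg_right (by positivity)) (Nat.cast_nonneg R)
  have hC0 : 0 ≤ C / R := by positivity
  refine ⟨?_, ?_⟩
  · have := hglob τ hτ
    simp only [g] at this
    rw [mul_div_assoc]
    linarith
  obtain ⟨hp', hF', hU', hW'⟩ := hq τ hτ
  obtain ⟨hmove, hclose⟩ := hlev R _ hR hp'
  have hI := inv_all (β := β) hp' (R - l) (by omega)
  have hd : 0 ≤ L - c * τ := by have := mul_le_mul_of_nonneg_left hτ.2 hc.le; linarith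
  have hcτ : c * τ ≤ c := mul_le_of_le_one_right hc.le (hτ.2.trans (hTl.trans hpl.2))
  have hM : ∀ d ∈ Set.Icc 0 (c * τ), ∀ y, vS m d (FL β R (Function.update p l τ) (R - l))
      (UL β R (Function.update p l τ) (R - l)) (WL β R (Function.update p l τ) (R - l)) y ≤ A + C * τ := by
    intro d hd' y
    have hI' : Inv (FL β R (Function.update p l τ) (R - l)) (UL β R (Function.update p l τ) (R - l))
        (WL β R (Function.update p l τ) (R - l)) m := by
      rw [hF', hU', hW']
      exact inv_step hF hm.2 hm.1 le_rfl hd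
    refine ((inv_step hI' hm.2 hm.1 le_rfl hd'.1).le_zero y).trans ?_
    have h1 := (abs_le.1 (hmove (R - l) (by omega) (by omega) d ⟨hd'.1, hd'.2.trans hcτ⟩ m hm.1 hm.2)).2
    have h2 := (abs_le.1 (hclose (R - l) (by omega) (by omega))).1
    rw [show R - (R - l) = l by omega, Function.update_self] at h2
    have h3 := hw τ hτ
    have h4 := mul_le_mul_of_nonneg_left hd'.2 hC₁
    have h5 : 0 ≤ Ce * τ := mul_nonneg hCe hτ.1
    have h6 : 0 ≤ C₁ * τ := mul_nonneg hC₁ hτ.1
    simp only [C]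
    linarith
  have hIF := cvx_all (β := β) hp' (R - l) (by omega)
  have hv := step_var_le hIF hm.1 hm.2 (mul_nonneg hc.le hτ.1) hM 0
  rw [show avT m (c * τ) (FL β R (Function.update p l τ) (R - l)) (UL β R (Function.update p l τ) (R - l)) 0 = 0 from
    (cvx_step hIF hm.1 hm.2 (mul_nonneg hc.le hτ.1)).zero1] at hv
  rw [hF', hU'] at hv
  change Gs m L F U 0 (c * τ) - _ ≤ _ at hv
  linarith

/-- **Gap**: on the first gap the deficit stays below the larger of zero and its value at the right end, and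
is negative near the origin -/
theorem gap_shape (β : ℝ) : ∃ C : ℝ, 0 ≤ C ∧ ∀ (R : ℕ) (p : ℕ → ℝ) (l : ℕ) (T A : ℝ), l + 1 < R →
    Prof R p 1 → (∀ i ≤ l, p i = 0) → 0 ≤ T → T ≤ p (l + 1) → 0 ≤ A → β * A ≤ 1 →
    (∀ τ ∈ Set.Icc 0 T, wbar β R (Function.update p l τ) ≤ A) → 1 ≤ β →
    ∀ E : ℝ, 0 ≤ E → Gm β R (Function.update p l T) l + C / R - T ≤ E →
      ∀ τ ∈ Set.Icc 0 T, Gm β R (Function.update p l τ) l - τ ≤ E + 2 * C / R ∧
        Gm β R (Function.update p l τ) l - τ ≤ β ^ 2 * τ * (A + C * τ) ^ 2 - τ + C / R := by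
  obtain ⟨C, hC, h⟩ := gap_shape_slack β
  exact ⟨C, hC, fun R p l T A hl hp hz hT hTl hA hAβ hw hβ E hE hend τ hτ => by
    simpa using h R p l T A 0 hl hp hz hT hTl hA le_rfl zero_le_one (by simpa using hAβ) hw hβ E hE hend τ hτ⟩

end Vale.Agent.P146.Lower.Marg
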