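import Vale.Agent.P146.Lower.Marg.Ground

/-! P146 marginality: one-spin GHS, in the two-replica form. For an even `V` with `V''` decreasing away from the
origin, the variance of the Gaussian tilted by `V w + h w` decreases in `h ≥ 0`. -/

open MeasureTheory ProbabilityTheory Real Set Filter

noncomputable section

namespace Vale.Agent.P146.Lower.Marg

lemma cosh_cross {a b u u' : ℝ} (ha : 0 ≤ a) (hab : a ≤ b) (hu' : 0 ≤ u') (hu : u' ≤ u) :
    cosh (b * u') * cosh (a * u) ≤ cosh (b * u) * cosh (a * u') := by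
  have key : ∀ p q : ℝ, cosh p * cosh q = (cosh (p + q) + cosh (p - q)) / 2 := fun p q => by
    rw [cosh_add, cosh_sub]; ring
  rw [key, key]
  have h1 : cosh (b * u' + a * u) ≤ cosh (b * u + a * u') := by
    refine cosh_le_cosh.2 ?_
    rw [abs_of_nonneg (by nlinarith), abs_of_nonneg (by nlinarith)]
    nlinarith [mul_nonneg (sub_nonneg.2 hab) (sub_nonneg.2 hu)]
  have h2 : cosh (b * u' - a * u) ≤ cosh (b * u - a * u') := by
    refine cosh_le_cosh.2 ?_
    rw [abs_of_nonneg (show (0:ℝ) ≤ b * u - a * u' by nlinarith), abs_le]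
    constructor <;> nlinarith [mul_nonneg (sub_nonneg.2 hab) (add_nonneg (hu'.trans hu) hu'),
      mul_nonneg (add_nonneg (ha.trans hab) ha) (sub_nonneg.2 hu)]
  linarith

lemma cosh_cross_abs {a b : ℝ} (ha : 0 ≤ a) (hab : a ≤ b) {u u' : ℝ} (hu : |u'| ≤ |u|) :
    cosh (b * u') * cosh (a * u) ≤ cosh (b * u) * cosh (a * u') := by
  have e : ∀ k w : ℝ, 0 ≤ k → cosh (k * w) = cosh (k * |w|) := fun k w hk => by
    rw [← cosh_abs (k * w), abs_mul, abs_of_nonneg hk]
  rw [e b u' (ha.trans hab), e b u (ha.trans hab), e a u ha, e a u' ha]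
  exact cosh_cross ha hab (abs_nonneg _) hu

/-- the two-replica potential in rotated coordinates -/
def rotV (V : ℝ → ℝ) (u v : ℝ) : ℝ := V ((u + v) / √2) + V ((-u + v) / √2)

variable {V V1 V2 : ℝ → ℝ}

lemma rotV_submod (h0 : ∀ x, HasDerivAt V (V1 x) x) (h1 : ∀ x, HasDerivAt V1 (V2 x) x) (he : ∀ x, V (-x) = V x)
    (hanti : AntitoneOn V2 (Ici 0)) {u u' v v' : ℝ} (hu' : 0 ≤ u') (hu : u' ≤ u) (hv' : 0 ≤ v') (hv : v' ≤ v) :
    rotV V u v + rotV V u' v' ≤ rotV V u v' + rotV V u' v := by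
  set c := (√2)⁻¹
  have hc : 0 < c := by positivity
  have hneg1 : ∀ x, V1 (-x) = -V1 x := fun x => by
    have h := (h0 (-x)).comp x (hasDerivAt_neg x)
    rw [show V ∘ Neg.neg = V from funext he] at h
    linarith [h.unique (h0 x)]
  have hneg2 : ∀ x, V2 (-x) = V2 x := fun x => by
    have h := (h1 (-x)).comp x (hasDerivAt_neg x)
    rw [show V1 ∘ Neg.neg = fun y => -V1 y from funext hneg1] at h
    linarith [h.unique (h1 x).fun_neg]
  have habs : ∀ x, V2 x = V2 |x| := fun x => by rcases abs_choice x with h | h <;> simp [h, hneg2]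
  -- the `v` derivative
  have hA : ∀ w, 0 ≤ w → AntitoneOn (fun x => V1 ((x + w) * c) + V1 ((-x + w) * c)) (Ici 0) := by
    intro w hw
    have hd : ∀ x, HasDerivAt (fun x => V1 ((x + w) * c) + V1 ((-x + w) * c))
        (c * (V2 ((x + w) * c) - V2 ((-x + w) * c))) x := fun x => by
      have e1 := (h1 ((x + w) * c)).comp x (((hasDerivAt_id' x).add_const w).mul_const c)
      have e2 := (h1 ((-x + w) * c)).comp x (((hasDerivAt_neg x).add_const w).mul_const c)
      exact (e1.add e2).congr_deriv (by ring)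
    refine antitoneOn_of_hasDerivWithinAt_nonpos (convex_Ici 0)
      (fun x _ => (hd x).continuousAt.continuousWithinAt) (fun x _ => (hd x).hasDerivWithinAt) fun x hx => ?_
    rw [interior_Ici] at hx
    refine mul_nonpos_of_nonneg_of_nonpos hc.le (sub_nonpos.2 ?_)
    rw [habs ((x + w) * c), habs ((-x + w) * c)]
    refine hanti (mem_Ici.2 (abs_nonneg _)) (mem_Ici.2 (abs_nonneg _)) ?_
    rw [abs_of_nonneg (show 0 ≤ (x + w) * c by nlinarith [mem_Ioi.1 hx]), abs_mul, abs_of_pos hc]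
    exact mul_le_mul_of_nonneg_right ((abs_add_le _ _).trans (by
      rw [abs_neg, abs_of_nonneg (mem_Ioi.1 hx).le, abs_of_nonneg hw])) hc.le
  have hd : ∀ a w, HasDerivAt (fun w => rotV V a w) (c * (V1 ((a + w) * c) + V1 ((-a + w) * c))) w := fun a w => by
    have e1 := (h0 ((a + w) * c)).comp w (((hasDerivAt_id' w).const_add a).mul_const c)
    have e2 := (h0 ((-a + w) * c)).comp w (((hasDerivAt_id' w).const_add (-a)).mul_const c)
    exact (e1.add e2).congr_deriv (by ring)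
  have hm : AntitoneOn (fun w => rotV V u w - rotV V u' w) (Ici 0) := by
    refine antitoneOn_of_hasDerivWithinAt_nonpos (convex_Ici 0)
      (fun w _ => ((hd u w).sub (hd u' w)).continuousAt.continuousWithinAt)
      (fun w _ => ((hd u w).sub (hd u' w)).hasDerivWithinAt) fun w hw => ?_
    rw [interior_Ici] at hw
    rw [← mul_sub]
    exact mul_nonpos_of_nonneg_of_nonpos hc.le
      (sub_nonpos.2 (hA w (mem_Ioi.1 hw).le (mem_Ici.2 hu') (mem_Ici.2 (hu'.trans hu)) hu))
  have := hm (mem_Ici.2 hv') (mem_Ici.2 (hv'.trans hv)) hv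
  simp only at this
  linarith

lemma rotV_abs (he : ∀ x, V (-x) = V x) (u v : ℝ) : rotV V u v = rotV V |u| |v| := by
  unfold rotV
  rcases abs_choice u with h | h <;> rcases abs_choice v with h' | h' <;> rw [h, h']
  · rw [← he ((u + -v) / √2), ← he ((-u + -v) / √2)]
    rw [show -((u + -v) / √2) = (-u + v) / √2 by ring, show -((-u + -v) / √2) = (u + v) / √2 by ring]
    ring
  · rw [show (- -u + v) / √2 = (u + v) / √2 by ring]; ring
  · rw [← he ((-u + -v) / √2), ← he ((- -u + -v) / √2)]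
    rw [show -((-u + -v) / √2) = (u + v) / √2 by ring, show -((- -u + -v) / √2) = (-u + v) / √2 by ring]

/-- the pointwise sign -/
lemma ghs_sign (h0 : ∀ x, HasDerivAt V (V1 x) x) (h1 : ∀ x, HasDerivAt V1 (V2 x) x) (he : ∀ x, V (-x) = V x)
    (hanti : AntitoneOn V2 (Ici 0)) {a b : ℝ} (ha : 0 ≤ a) (hab : a ≤ b) (u v u' v' : ℝ) :
    (v ^ 2 - v' ^ 2) * (cosh (b * u) * cosh (a * u') - cosh (b * u') * cosh (a * u)) *
      (exp (rotV V u v + rotV V u' v') - exp (rotV V u' v + rotV V u v')) ≤ 0 := by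
  have hsub : ∀ {u u' v v' : ℝ}, |u'| ≤ |u| → |v'| ≤ |v| →
      rotV V u v + rotV V u' v' ≤ rotV V u v' + rotV V u' v := fun {u u' v v'} hu hv => by
    rw [rotV_abs he u v, rotV_abs he u' v', rotV_abs he u v', rotV_abs he u' v]
    exact rotV_submod h0 h1 he hanti (abs_nonneg _) hu (abs_nonneg _) hv
  rcases le_total |v'| |v| with hv | hv <;> rcases le_total |u'| |u| with hu | hu
  · exact mul_nonpos_of_nonneg_of_nonpos
      (mul_nonneg (by linarith [sq_le_sq.2 hv]) (sub_nonneg.2 (cosh_cross_abs ha hab hu)))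
      (sub_nonpos.2 (exp_le_exp.2 (by linarith [hsub hu hv])))
  · exact mul_nonpos_of_nonpos_of_nonneg
      (mul_nonpos_of_nonneg_of_nonpos (by linarith [sq_le_sq.2 hv]) (sub_nonpos.2 (cosh_cross_abs ha hab hu)))
      (sub_nonneg.2 (exp_le_exp.2 (by linarith [hsub hu hv])))
  · exact mul_nonpos_of_nonpos_of_nonneg
      (mul_nonpos_of_nonpos_of_nonneg (by linarith [sq_le_sq.2 hv]) (sub_nonneg.2 (cosh_cross_abs ha hab hu)))
      (sub_nonneg.2 (exp_le_exp.2 (by linarith [hsub hu hv])))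
  · exact mul_nonpos_of_nonneg_of_nonpos
      (mul_nonneg_of_nonpos_of_nonpos (by linarith [sq_le_sq.2 hv]) (sub_nonpos.2 (cosh_cross_abs ha hab hu)))
      (sub_nonpos.2 (exp_le_exp.2 (by linarith [hsub hu hv])))

/-- the four-point correlation inequality -/
lemma four_point {f g : ℝ × ℝ → ℝ} {k : ℝ × ℝ → ℝ} (hi : ∀ φ ψ : ℝ × ℝ → ℝ,
    (φ = f ∨ φ = g) → (ψ = f ∨ ψ = g) → Integrable (fun p => k p * φ p) (((gaussianReal 0 1)).prod (gaussianReal 0 1)) ∧ Integrable ψ (((gaussianReal 0 1)).prod (gaussianReal 0 1)))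
    (hs : ∀ u v u' v' : ℝ, (k (u, v) - k (u', v')) * (f (u, v) * g (u', v') - f (u', v') * g (u, v)) +
      (k (u', v) - k (u, v')) * (f (u', v) * g (u, v') - f (u, v') * g (u', v)) ≤ 0) :
    (∫ p, k p * f p ∂((gaussianReal 0 1)).prod (gaussianReal 0 1)) * (∫ p, g p ∂((gaussianReal 0 1)).prod (gaussianReal 0 1)) ≤
      (∫ p, k p * g p ∂((gaussianReal 0 1)).prod (gaussianReal 0 1)) * ∫ p, f p ∂((gaussianReal 0 1)).prod (gaussianReal 0 1) := by
  set ν := ((gaussianReal 0 1)).prod (gaussianReal 0 1)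
  set H : (ℝ × ℝ) × (ℝ × ℝ) → ℝ := fun q => (k q.1 - k q.2) * (f q.1 * g q.2 - f q.2 * g q.1)
  obtain ⟨kf, hg⟩ := hi f g (Or.inl rfl) (Or.inr rfl)
  obtain ⟨kg, hf⟩ := hi g f (Or.inr rfl) (Or.inl rfl)
  have eH : H = fun q => (k q.1 * f q.1 * g q.2 - k q.1 * g q.1 * f q.2) +
      (g q.1 * (k q.2 * f q.2) - f q.1 * (k q.2 * g q.2)) := funext fun q => by simp only [H]; ring
  have iH : Integrable H (ν.prod ν) := by
    rw [eH]; exact ((kf.mul_prod hg).sub (kg.mul_prod hf)).add ((hg.mul_prod kf).sub (hf.mul_prod kg))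
  have vH : ∫ q, H q ∂ν.prod ν =
      2 * ((∫ p, k p * f p ∂ν) * (∫ p, g p ∂ν) - (∫ p, k p * g p ∂ν) * ∫ p, f p ∂ν) := by
    simp only [eH]
    rw [integral_add (f := fun q : (ℝ × ℝ) × (ℝ × ℝ) => k q.1 * f q.1 * g q.2 - k q.1 * g q.1 * f q.2)
        (g := fun q => g q.1 * (k q.2 * f q.2) - f q.1 * (k q.2 * g q.2))
        ((kf.mul_prod hg).sub (kg.mul_prod hf)) ((hg.mul_prod kf).sub (hf.mul_prod kg)),
      integral_sub (kf.mul_prod hg) (kg.mul_prod hf), integral_sub (hg.mul_prod kf) (hf.mul_prod kg),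
      integral_prod_mul (fun p => k p * f p) g, integral_prod_mul (fun p => k p * g p) f,
      integral_prod_mul g (fun p => k p * f p), integral_prod_mul f (fun p => k p * g p)]
    ring
  -- exchange the two first coordinates
  let σ : (ℝ × ℝ) × (ℝ × ℝ) → (ℝ × ℝ) × (ℝ × ℝ) := fun q => ((q.2.1, q.1.2), (q.1.1, q.2.2))
  have hσ : MeasurePreserving σ (ν.prod ν) (ν.prod ν) := by
    have hA := measurePreserving_prodAssoc ((gaussianReal 0 1)) ((gaussianReal 0 1)) (((gaussianReal 0 1)).prod (gaussianReal 0 1))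
    have hL : MeasurePreserving (fun q : ℝ × ℝ × ℝ => (q.2.1, q.1, q.2.2)) (((gaussianReal 0 1)).prod (((gaussianReal 0 1)).prod (gaussianReal 0 1)))
        (((gaussianReal 0 1)).prod (((gaussianReal 0 1)).prod (gaussianReal 0 1))) := by
      have h := measurePreserving_prodAssoc ((gaussianReal 0 1)) ((gaussianReal 0 1)) ((gaussianReal 0 1))
      exact h.comp (((Measure.measurePreserving_swap).prod (MeasurePreserving.id _)).comp (h.symm _))
    have hL4 : MeasurePreserving (fun q : ℝ × ℝ × ℝ × ℝ => (q.2.1, q.1, q.2.2))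
        (((gaussianReal 0 1)).prod (((gaussianReal 0 1)).prod (((gaussianReal 0 1)).prod (gaussianReal 0 1)))) (((gaussianReal 0 1)).prod (((gaussianReal 0 1)).prod (((gaussianReal 0 1)).prod (gaussianReal 0 1)))) := by
      have h := measurePreserving_prodAssoc ((gaussianReal 0 1)) ((gaussianReal 0 1)) (((gaussianReal 0 1)).prod (gaussianReal 0 1))
      exact h.comp (((Measure.measurePreserving_swap).prod (MeasurePreserving.id _)).comp (h.symm _))
    have hI := (MeasurePreserving.id ((gaussianReal 0 1))).prod hL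
    exact (hA.symm _).comp (hI.comp (hL4.comp (hI.comp hA)))
  have iσ : Integrable (H ∘ σ) (ν.prod ν) := (hσ.integrable_comp iH.aestronglyMeasurable).2 iH
  have vσ : ∫ q, H (σ q) ∂ν.prod ν = ∫ q, H q ∂ν.prod ν := by
    conv_rhs => rw [← hσ.map_eq, integral_map hσ.measurable.aemeasurable (hσ.map_eq.symm ▸ iH.aestronglyMeasurable)]
  have : ∫ q, (H q + H (σ q)) ∂ν.prod ν ≤ 0 := integral_nonpos fun q => hs q.1.1 q.1.2 q.2.1 q.2.2
  rw [integral_add (g := fun q => H (σ q)) iH iσ, vσ, vH] at this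
  linarith

/-- moments of the Gaussian tilted by `V w + h w` -/
def mom (V : ℝ → ℝ) (k : ℕ) (h : ℝ) : ℝ := ∫ w, w ^ k * exp (V w + h * w) ∂(gaussianReal 0 1)

/-- **one-spin GHS**: the variance decreases in the field -/
theorem ghs (h0 : ∀ x, HasDerivAt V (V1 x) x) (h1 : ∀ x, HasDerivAt V1 (V2 x) x) (he : ∀ x, V (-x) = V x)
    (hanti : AntitoneOn V2 (Ici 0)) (hV : Gr fun w => exp (V w)) {a b : ℝ} (ha : 0 ≤ a) (hab : a ≤ b) :
    mom V 2 b / mom V 0 b - (mom V 1 b / mom V 0 b) ^ 2 ≤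
      mom V 2 a / mom V 0 a - (mom V 1 a / mom V 0 a) ^ 2 := by
  set ν := ((gaussianReal 0 1)).prod (gaussianReal 0 1)
  have gw : ∀ (k : ℕ) (h : ℝ), Integrable (fun w => w ^ k * exp (V w + h * w)) (gaussianReal 0 1) := fun k h => by
    have hp : Gr fun w : ℝ => w ^ k := by
      induction k with
      | zero => simpa using Gr.const (1:ℝ)
      | succ k ih => simpa [pow_succ] using ih.mul Gr.id
    have he' : Gr fun w => exp (h * w) :=
      ⟨by fun_prop, 1, |h|, abs_nonneg h, fun w => by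
        rw [abs_exp, one_mul, ← abs_mul]; exact exp_le_exp.2 (le_abs_self _)⟩
    simpa [exp_add] using (hp.mul (hV.mul he')).integrable
  set Φ : ℝ → ℝ × ℝ → ℝ := fun h p => exp (V p.1 + h * p.1) * exp (V p.2 + h * p.2)
  have key : ∀ h : ℝ, (∫ p : ℝ × ℝ, exp (rotV V p.1 p.2) * cosh (√2 * h * p.1) ∂ν = mom V 0 h ^ 2 ∧
      ∫ p : ℝ × ℝ, p.2 ^ 2 * (exp (rotV V p.1 p.2) * cosh (√2 * h * p.1)) ∂ν =
        mom V 2 h * mom V 0 h - mom V 1 h ^ 2) ∧
      Integrable (fun p : ℝ × ℝ => exp (rotV V p.1 p.2) * cosh (√2 * h * p.1)) ν ∧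
      Integrable (fun p : ℝ × ℝ => p.2 ^ 2 * (exp (rotV V p.1 p.2) * cosh (√2 * h * p.1))) ν := by
    intro h
    set R : ℝ × ℝ → ℝ × ℝ := fun p => ((p.1 + p.2) / √2, (p.1 - p.2) / √2)
    have h2 : (√2:ℝ) ^ 2 = 2 := sq_sqrt (by norm_num)
    have hne : (√2:ℝ) ≠ 0 := by positivity
    have hR : MeasurePreserving R ν ν := by
      have hr : MeasurePreserving (ContinuousLinearMap.rotation (E := ℝ) (π / 4)) ν ν :=
        ⟨by fun_prop, IsGaussian.map_rotation_eq_self_of_forall_strongDual_eq_zero (μ := (gaussianReal 0 1)) (fun L => by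
          have : ∀ x : ℝ, L x = x * L 1 := fun x => by rw [← smul_eq_mul, ← map_smul, smul_eq_mul, mul_one]
          rw [integral_congr_ae (Eventually.of_forall this), integral_mul_const, integral_id_gaussianReal, zero_mul]) (π / 4)⟩
      have e : R = (ContinuousLinearMap.rotation (E := ℝ) (π / 4)) ∘ Prod.swap := by
        funext p
        simp only [R, Function.comp_apply, ContinuousLinearMap.rotation_apply, cos_pi_div_four, sin_pi_div_four,
          smul_eq_mul, Prod.fst_swap, Prod.snd_swap, Prod.mk.injEq]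
        constructor <;> field_simp <;> rw [h2] <;> ring
      rw [e]
      exact hr.comp Measure.measurePreserving_swap
    have hΦ : ∀ (i j : ℕ), Integrable (fun p : ℝ × ℝ => p.1 ^ i * p.2 ^ j * Φ h p) ν := fun i j =>
      ((gw i h).mul_prod (gw j h)).congr (Eventually.of_forall fun p => by simp only [Φ]; ring)
    have vΦ : ∀ (i j : ℕ), ∫ p, p.1 ^ i * p.2 ^ j * Φ h p ∂ν = mom V i h * mom V j h := fun i j => by
      rw [mom, mom, ← integral_prod_mul]
      exact integral_congr_ae (Eventually.of_forall fun p => by simp only [Φ]; ring)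
    set D : ℝ × ℝ → ℝ := fun p => p.1 ^ 2 * p.2 ^ 0 * Φ h p + (p.1 ^ 0 * p.2 ^ 2 * Φ h p -
      2 * (p.1 ^ 1 * p.2 ^ 1 * Φ h p))
    have iD : Integrable D ν := (hΦ 2 0).add ((hΦ 0 2).sub ((hΦ 1 1).const_mul 2))
    have vD : ∫ p, D p ∂ν = 2 * (mom V 2 h * mom V 0 h - mom V 1 h ^ 2) := by
      simp only [D]
      rw [integral_add (g := fun p : ℝ × ℝ => p.1 ^ 0 * p.2 ^ 2 * Φ h p - 2 * (p.1 ^ 1 * p.2 ^ 1 * Φ h p))
        (hΦ 2 0) ((hΦ 0 2).sub ((hΦ 1 1).const_mul 2)),
        integral_sub (hΦ 0 2) ((hΦ 1 1).const_mul 2), integral_const_mul, vΦ, vΦ, vΦ]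
      ring
    have i0 : Integrable (Φ h) ν := (hΦ 0 0).congr (Eventually.of_forall fun p => by simp)
    have v0 : ∫ p, Φ h p ∂ν = mom V 0 h ^ 2 := by
      rw [sq, ← vΦ 0 0]; exact integral_congr_ae (Eventually.of_forall fun p => by simp)
    -- rotate and symmetrise the first coordinate
    have sym : ∀ {G : ℝ × ℝ → ℝ}, Integrable G ν →
        Integrable (fun p : ℝ × ℝ => (G (R p) + G (R (-p.1, p.2))) / 2) ν ∧
          ∫ p, (G (R p) + G (R (-p.1, p.2))) / 2 ∂ν = ∫ p, G p ∂ν := by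
      intro G hG
      have hN : MeasurePreserving (fun p : ℝ × ℝ => (-p.1, p.2)) ν ν :=
        (⟨measurable_neg, by rw [gaussianReal_map_neg, neg_zero]⟩ : MeasurePreserving (fun x : ℝ => -x) (gaussianReal 0 1) (gaussianReal 0 1)).prod
          (MeasurePreserving.id (gaussianReal 0 1))
      have hRN := hR.comp hN
      have iv : ∀ {T : ℝ × ℝ → ℝ × ℝ}, MeasurePreserving T ν ν →
          Integrable (fun p => G (T p)) ν ∧ ∫ p, G (T p) ∂ν = ∫ p, G p ∂ν := fun {T} hT => by
        refine ⟨(hT.integrable_comp hG.aestronglyMeasurable).2 hG, ?_⟩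
        conv_rhs => rw [← hT.map_eq, integral_map hT.measurable.aemeasurable (hT.map_eq.symm ▸ hG.aestronglyMeasurable)]
      obtain ⟨i1, v1⟩ := iv hR
      obtain ⟨i2, v2⟩ := iv hRN
      simp only [Function.comp_def] at i2 v2
      refine ⟨(i1.add i2).div_const 2, ?_⟩
      rw [integral_div, integral_add i1 (g := fun p => G (R (-p.1, p.2))) i2]
      rw [v1, v2]; ring
    have eΦ : ∀ u v : ℝ, Φ h ((u + v) / √2, (u - v) / √2) = exp (rotV V u v) * exp (√2 * h * u) := fun u v => by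
      simp only [Φ, rotV]
      rw [← exp_add, ← exp_add, ← he ((u - v) / √2), show -((u - v) / √2) = (-u + v) / √2 by ring]
      congr 1
      field_simp
      ring_nf
      rw [h2]; ring
    have eP : ∀ u v : ℝ, rotV V (-u) v = rotV V u v := fun u v => by
      unfold rotV; rw [neg_neg]; ring
    have e0 : ∀ p : ℝ × ℝ, (Φ h (R p) + Φ h (R (-p.1, p.2))) / 2 =
        exp (rotV V p.1 p.2) * cosh (√2 * h * p.1) := fun p => by
      simp only [R]
      rw [eΦ, eΦ, eP, cosh_eq, mul_neg]; ring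
    have eD : ∀ p : ℝ × ℝ, (D (R p) + D (R (-p.1, p.2))) / 2 =
        2 * (p.2 ^ 2 * (exp (rotV V p.1 p.2) * cosh (√2 * h * p.1))) := fun p => by
      have e : ∀ u v : ℝ, D ((u + v) / √2, (u - v) / √2) = 2 * v ^ 2 * (exp (rotV V u v) * exp (√2 * h * u)) :=
        fun u v => by
          rw [← eΦ]; simp only [D]
          field_simp
          ring_nf
          rw [h2]; ring
      simp only [R]
      rw [e, e, eP, cosh_eq, mul_neg]; ring
    obtain ⟨iS0, vS0⟩ := sym i0
    obtain ⟨iSD, vSD⟩ := sym iD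
    simp only [e0] at iS0 vS0
    simp only [eD] at iSD vSD
    rw [integral_const_mul, vD] at vSD
    refine ⟨⟨vS0.trans v0, by linarith⟩, iS0, ?_⟩
    simpa using iSD.const_mul (2:ℝ)⁻¹
  obtain ⟨⟨ab0, ab2⟩, ia0, ia2⟩ := key a
  obtain ⟨⟨bb0, bb2⟩, ib0, ib2⟩ := key b
  have h4 := four_point (f := fun p : ℝ × ℝ => exp (rotV V p.1 p.2) * cosh (√2 * b * p.1))
    (g := fun p : ℝ × ℝ => exp (rotV V p.1 p.2) * cosh (√2 * a * p.1)) (k := fun p : ℝ × ℝ => p.2 ^ 2)
    (fun φ ψ hφ hψ => ⟨by rcases hφ with rfl | rfl <;> assumption, by rcases hψ with rfl | rfl <;> assumption⟩)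
    fun u v u' v' => by
      have := ghs_sign h0 h1 he hanti (mul_nonneg (sqrt_nonneg 2) ha)
        (mul_le_mul_of_nonneg_left hab (sqrt_nonneg 2)) u v u' v'
      simp only [exp_add] at this
      linarith
  rw [bb2, ab0, ab2, bb0] at h4
  have pos : ∀ h, 0 < mom V 0 h := fun h => by
    rw [mom]; simpa using integral_exp_pos (μ := (gaussianReal 0 1)) (f := fun w => V w + h * w) (by simpa using gw 0 h)
  have pa := pos a
  have pb := pos b
  have e : ∀ {x y z : ℝ}, 0 < z → x / z - (y / z) ^ 2 = (x * z - y ^ 2) / z ^ 2 := fun {x y z} hz => by field_simp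
  rw [e pb, e pa, div_le_div_iff₀ (by positivity) (by positivity)]
  exact h4

end Vale.Agent.P146.Lower.Marg
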