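import Vale.Agent.P146.Lower.Marg.Defs

/-! P146 marginality: one tilted Gaussian step, basic calculus. -/

open MeasureTheory ProbabilityTheory Real Filter
open scoped Topology

noncomputable section

namespace Vale.Agent.P146.Lower.Marg

set_option linter.unusedSectionVars false

variable {F f1 f2 : ℝ → ℝ}

/-- at most exponential growth -/
def Gr (G : ℝ → ℝ) : Prop := Continuous G ∧ ∃ C M, 0 ≤ M ∧ ∀ z, |G z| ≤ C * exp (M * |z|)

lemma gauss_exp_abs (c : ℝ) : Integrable (fun z => exp (c * |z|)) (gaussianReal 0 1) := by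
  refine ((integrable_exp_mul_gaussianReal c).add (integrable_exp_mul_gaussianReal (-c))).mono'
    (by fun_prop) (Eventually.of_forall fun z => ?_)
  rw [Real.norm_eq_abs, abs_exp]
  show exp (c * |z|) ≤ exp (c * z) + exp (-c * z)
  rcases le_total 0 z with h | h
  · rw [abs_of_nonneg h]; linarith [exp_pos (-c * z)]
  · rw [abs_of_nonpos h, mul_neg, ← neg_mul]; linarith [exp_pos (c * z)]

lemma Gr.integrable {G : ℝ → ℝ} (h : Gr G) : Integrable G (gaussianReal 0 1) := by
  obtain ⟨hc, C, M, -, hC⟩ := h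
  exact ((gauss_exp_abs M).const_mul C).mono' hc.aestronglyMeasurable (Eventually.of_forall hC)

lemma Gr.const (c : ℝ) : Gr fun _ => c := ⟨continuous_const, |c|, 0, le_rfl, fun z => by simp⟩

lemma Gr.id : Gr fun z => z :=
  ⟨continuous_id, 1, 1, zero_le_one, fun z => by
    rw [one_mul, one_mul]; linarith [add_one_le_exp |z|]⟩

lemma Gr.bdd {G : ℝ → ℝ} (hc : Continuous G) {B : ℝ} (hB : ∀ z, |G z| ≤ B) : Gr G :=
  ⟨hc, B, 0, le_rfl, fun z => by simpa using hB z⟩

lemma Gr.mul {G H : ℝ → ℝ} (hG : Gr G) (hH : Gr H) : Gr fun z => G z * H z := by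
  obtain ⟨cG, C, M, hM, hC⟩ := hG
  obtain ⟨cH, D, N, hN, hD⟩ := hH
  refine ⟨cG.mul cH, C * D, M + N, add_nonneg hM hN, fun z => ?_⟩
  rw [abs_mul, add_mul, exp_add, mul_mul_mul_comm]
  exact mul_le_mul (hC z) (hD z) (abs_nonneg _) ((abs_nonneg _).trans (hC z))

lemma Gr.add {G H : ℝ → ℝ} (hG : Gr G) (hH : Gr H) : Gr fun z => G z + H z := by
  obtain ⟨cG, C, M, hM, hC⟩ := hG
  obtain ⟨cH, D, N, hN, hD⟩ := hH
  have e : ∀ {A : ℝ} {L : ℝ} {G : ℝ → ℝ}, (∀ z, |G z| ≤ A * exp (L * |z|)) → 0 ≤ A := fun h =>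
    nonneg_of_mul_nonneg_left ((abs_nonneg _).trans (h 0)) (exp_pos _)
  refine ⟨cG.add cH, C + D, M + N, add_nonneg hM hN, fun z => ?_⟩
  rw [add_mul C D]
  refine (abs_add_le _ _).trans (add_le_add ((hC z).trans ?_) ((hD z).trans ?_))
  · exact mul_le_mul_of_nonneg_left (exp_le_exp.2 (mul_le_mul_of_nonneg_right (le_add_of_nonneg_right hN)
      (abs_nonneg _))) (e hC)
  · exact mul_le_mul_of_nonneg_left (exp_le_exp.2 (mul_le_mul_of_nonneg_right (le_add_of_nonneg_left hM)
      (abs_nonneg _))) (e hD)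

lemma Gr.neg {G : ℝ → ℝ} (hG : Gr G) : Gr fun z => -G z := by simpa using (Gr.const (-1)).mul hG

lemma Gr.sub {G H : ℝ → ℝ} (hG : Gr G) (hH : Gr H) : Gr fun z => G z - H z := by
  simpa [sub_eq_add_neg] using hG.add hH.neg

lemma integral_gauss_neg (G : ℝ → ℝ) : ∫ z, G (-z) ∂(gaussianReal 0 1) = ∫ z, G z ∂(gaussianReal 0 1) := by
  have h := MeasureTheory.integral_map_equiv (μ := (gaussianReal 0 1)) (MeasurableEquiv.neg ℝ) G
  rw [show ⇑(MeasurableEquiv.neg ℝ) = fun x => -x from rfl, gaussianReal_map_neg, neg_zero] at h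
  exact h.symm

/-- a continuous function is determined up to its linear part -/
lemma abs_sub_le_of_deriv {P P' : ℝ → ℝ} {L : ℝ} (hd : ∀ x, HasDerivAt P (P' x) x) (hL : ∀ x, |P' x| ≤ L)
    (a b : ℝ) : |P b - P a| ≤ L * |b - a| := by
  simpa [Real.norm_eq_abs] using convex_univ.norm_image_sub_le_of_norm_hasDerivWithin_le
    (fun x _ => (hd x).hasDerivWithinAt) (fun x _ => hL x) (Set.mem_univ a) (Set.mem_univ b)

namespace Cvx

variable (h : Cvx F f1 f2)
include h

lemma cont1 : Continuous f1 := continuous_iff_continuousAt.2 fun x => (h.d1 x).continuousAt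

lemma cont0 : Continuous F := continuous_iff_continuousAt.2 fun x => (h.d0 x).continuousAt

lemma f1_neg (x : ℝ) : f1 (-x) = -f1 x := by
  have h1 := (h.d0 (-x)).comp x (hasDerivAt_neg x)
  rw [show F ∘ Neg.neg = F from funext h.even] at h1
  linarith [h1.unique (h.d0 x)]

lemma f2_neg (x : ℝ) : f2 (-x) = f2 x := by
  have h1 := (h.d1 (-x)).comp x (hasDerivAt_neg x)
  rw [show f1 ∘ Neg.neg = fun y => -f1 y from funext h.f1_neg] at h1
  linarith [h1.unique (h.d1 x).fun_neg]

lemma sq1 (x : ℝ) : f1 x ^ 2 ≤ 1 := by linarith [h.nonneg2 x, h.le2 x]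

lemma abs1 (x : ℝ) : |f1 x| ≤ 1 := (sq_le_one_iff_abs_le_one _).1 (h.sq1 x)

lemma abs2 (x : ℝ) : |f2 x| ≤ 1 := by
  rw [abs_of_nonneg (h.nonneg2 x)]; linarith [h.le2 x, sq_nonneg (f1 x)]

lemma lip (x h' : ℝ) : |F (x + h') - F x| ≤ |h'| := by
  simpa using abs_sub_le_of_deriv h.d0 h.abs1 x (x + h')

lemma gr_line (d x : ℝ) : Gr fun z => F (x + √d * z) := by
  refine ⟨h.cont0.comp (by fun_prop), |F x| + 1, √d, sqrt_nonneg _, fun z => ?_⟩
  have e : (1:ℝ) ≤ exp (√d * |z|) := one_le_exp (by positivity)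
  have h1 := h.lip x (√d * z)
  rw [abs_mul, abs_of_nonneg (sqrt_nonneg d)] at h1
  have h2 := add_one_le_exp (√d * |z|)
  nlinarith [abs_sub_abs_le_abs_sub (F (x + √d * z)) (F x), abs_nonneg (F x)]

lemma gr_tilt (m d x : ℝ) : Gr fun z => exp (m * F (x + √d * z)) := by
  refine ⟨continuous_exp.comp (continuous_const.mul (h.cont0.comp (by fun_prop))), exp (|m| * |F x|),
    |m| * √d, by positivity, fun z => ?_⟩
  rw [abs_exp, ← exp_add, mul_assoc, ← mul_add]
  refine exp_le_exp.2 ((le_abs_self _).trans ?_)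
  rw [abs_mul]
  refine mul_le_mul_of_nonneg_left ?_ (abs_nonneg m)
  have h1 := h.lip x (√d * z)
  rw [abs_mul, abs_of_nonneg (sqrt_nonneg d)] at h1
  linarith [abs_sub_abs_le_abs_sub (F (x + √d * z)) (F x)]

lemma mass_pos (m d x : ℝ) : 0 < mass m d F x :=
  integral_exp_pos (h.gr_tilt m d x).integrable

end Cvx

/-- tilted mean of a function of the Gaussian variable -/
def tl (m d : ℝ) (F : ℝ → ℝ) (x : ℝ) (G : ℝ → ℝ) : ℝ :=
  (∫ z, exp (m * F (x + √d * z)) * G z ∂(gaussianReal 0 1)) / mass m d F x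

lemma avT_eq_tl (m d : ℝ) (F P : ℝ → ℝ) (x : ℝ) :
    avT m d F P x = tl m d F x fun z => P (x + √d * z) := rfl

section tl

variable (h : Cvx F f1 f2) (m d x : ℝ)
include h

lemma tl_add {G H : ℝ → ℝ} (hG : Gr G) (hH : Gr H) :
    tl m d F x (fun z => G z + H z) = tl m d F x G + tl m d F x H := by
  simp only [tl, mul_add]
  rw [integral_add ((h.gr_tilt m d x).mul hG).integrable ((h.gr_tilt m d x).mul hH).integrable, add_div]

lemma tl_const (c : ℝ) : tl m d F x (fun _ => c) = c := by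
  simp only [tl]
  rw [integral_mul_const]
  exact mul_div_cancel_left₀ c (h.mass_pos m d x).ne'

omit h in
lemma tl_const_mul (c : ℝ) (G : ℝ → ℝ) : tl m d F x (fun z => c * G z) = c * tl m d F x G := by
  simp only [tl, mul_left_comm _ c]
  rw [integral_const_mul, mul_div_assoc]

lemma tl_sub {G H : ℝ → ℝ} (hG : Gr G) (hH : Gr H) :
    tl m d F x (fun z => G z - H z) = tl m d F x G - tl m d F x H := by
  have e := tl_add h m d x (hG.sub hH) hH
  simp only [sub_add_cancel] at e
  linarith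

lemma tl_mono {G H : ℝ → ℝ} (hG : Gr G) (hH : Gr H) (hle : ∀ z, G z ≤ H z) :
    tl m d F x G ≤ tl m d F x H :=
  div_le_div_of_nonneg_right (integral_mono ((h.gr_tilt m d x).mul hG).integrable
    ((h.gr_tilt m d x).mul hH).integrable fun z => mul_le_mul_of_nonneg_left (hle z) (exp_pos _).le)
    (h.mass_pos m d x).le

lemma tl_nonneg {G : ℝ → ℝ} (hG : ∀ z, 0 ≤ G z) : 0 ≤ tl m d F x G :=
  div_nonneg (integral_nonneg fun z => mul_nonneg (exp_pos _).le (hG z)) (h.mass_pos m d x).le

/-- the tilted mean is linear -/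
theorem avT_add {P Q : ℝ → ℝ} (hP : Continuous P) {B : ℝ} (hPB : ∀ y, |P y| ≤ B)
    (hQ : Continuous Q) {B' : ℝ} (hQB : ∀ y, |Q y| ≤ B') :
    avT m d F (fun y => P y + Q y) x = avT m d F P x + avT m d F Q x :=
  tl_add h m d x (Gr.bdd (hP.comp (by fun_prop)) fun _ => hPB _) (Gr.bdd (hQ.comp (by fun_prop)) fun _ => hQB _)

theorem avT_sub {P Q : ℝ → ℝ} (hP : Continuous P) {B : ℝ} (hPB : ∀ y, |P y| ≤ B)
    (hQ : Continuous Q) {B' : ℝ} (hQB : ∀ y, |Q y| ≤ B') :
    avT m d F (fun y => P y - Q y) x = avT m d F P x - avT m d F Q x :=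
  tl_sub h m d x (Gr.bdd (hP.comp (by fun_prop)) fun _ => hPB _) (Gr.bdd (hQ.comp (by fun_prop)) fun _ => hQB _)

theorem avT_const (c : ℝ) : avT m d F (fun _ => c) x = c := tl_const h m d x c

omit h in
theorem avT_const_mul (c : ℝ) (P : ℝ → ℝ) : avT m d F (fun y => c * P y) x = c * avT m d F P x :=
  tl_const_mul m d x c _

theorem avT_mono {P Q : ℝ → ℝ} (hP : Continuous P) {B : ℝ} (hPB : ∀ y, |P y| ≤ B)
    (hQ : Continuous Q) {B' : ℝ} (hQB : ∀ y, |Q y| ≤ B') (hle : ∀ y, P y ≤ Q y) :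
    avT m d F P x ≤ avT m d F Q x :=
  tl_mono h m d x (Gr.bdd (hP.comp (by fun_prop)) fun _ => hPB _) (Gr.bdd (hQ.comp (by fun_prop)) fun _ => hQB _)
    fun _ => hle _

theorem avT_nonneg {P : ℝ → ℝ} (hP : ∀ y, 0 ≤ P y) : 0 ≤ avT m d F P x := tl_nonneg h m d x fun _ => hP _

theorem avT_abs_le {P : ℝ → ℝ} (hP : Continuous P) {B : ℝ} (hPB : ∀ y, |P y| ≤ B) :
    |avT m d F P x| ≤ B := by
  have hc : ∀ c : ℝ, ∀ _ : ℝ, |c| ≤ |c| := fun _ _ => le_rfl
  rw [abs_le]
  refine ⟨?_, ?_⟩
  · rw [← avT_const h m d x (-B)]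
    exact avT_mono h m d x continuous_const (hc _) hP hPB fun y => (abs_le.1 (hPB y)).1
  · rw [← avT_const h m d x B]
    exact avT_mono h m d x hP hPB continuous_const (hc _) fun y => (abs_le.1 (hPB y)).2

/-- Jensen -/
theorem sq_avT_le {P : ℝ → ℝ} (hP : Continuous P) {B : ℝ} (hPB : ∀ y, |P y| ≤ B) :
    avT m d F P x ^ 2 ≤ avT m d F (fun y => P y ^ 2) x := by
  set a := avT m d F P x with ha
  have hG : Gr fun z => P (x + √d * z) := Gr.bdd (hP.comp (by fun_prop)) fun _ => hPB _
  have h0 := tl_nonneg h m d x (G := fun z => P (x + √d * z) * P (x + √d * z) -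
    2 * a * P (x + √d * z) + a ^ 2) fun z => by nlinarith [sq_nonneg (P (x + √d * z) - a)]
  rw [tl_add h m d x ((hG.mul hG).sub ((Gr.const _).mul hG)) (Gr.const _), tl_sub h m d x (hG.mul hG)
    ((Gr.const _).mul hG), tl_const_mul, tl_const h, ← avT_eq_tl, ← ha] at h0
  rw [show (fun y => P y ^ 2) = fun y => P y * P y from funext fun y => sq (P y), avT_eq_tl]
  nlinarith

end tl

/-! ### derivatives -/

section deriv

variable (h : Cvx F f1 f2) (m d : ℝ)
include h

lemma hasDerivAt_num {P P' : ℝ → ℝ} (hd : ∀ y, HasDerivAt P (P' y) y) (hc : Continuous P') {B L : ℝ}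
    (hB : ∀ y, |P y| ≤ B) (hL : ∀ y, |P' y| ≤ L) (x : ℝ) :
    HasDerivAt (fun x => ∫ z, exp (m * F (x + √d * z)) * P (x + √d * z) ∂(gaussianReal 0 1))
      (∫ z, exp (m * F (x + √d * z)) * (m * (f1 (x + √d * z) * P (x + √d * z)) + P' (x + √d * z)) ∂(gaussianReal 0 1)) x := by
  have hP : Continuous P := continuous_iff_continuousAt.2 fun y => (hd y).continuousAt
  have hf1 := h.cont1
  have hF := h.cont0
  refine (hasDerivAt_integral_of_dominated_loc_of_deriv_le (s := Metric.ball x 1)
    (F := fun x z => exp (m * F (x + √d * z)) * P (x + √d * z))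
    (F' := fun x z => exp (m * F (x + √d * z)) * (m * (f1 (x + √d * z) * P (x + √d * z)) + P' (x + √d * z)))
    (bound := fun z => exp (|m| * (|F x| + 1)) * (|m| * B + L) * exp (|m| * √d * |z|))
    (Metric.ball_mem_nhds x one_pos) (Eventually.of_forall fun y => by
      exact (by fun_prop : Continuous fun z => exp (m * F (y + √d * z)) * P (y + √d * z)).aestronglyMeasurable)
    (((h.gr_tilt m d x).mul (Gr.bdd (hP.comp (by fun_prop)) fun _ => hB _)).integrable)
    ((by fun_prop : Continuous fun z =>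
      exp (m * F (x + √d * z)) * (m * (f1 (x + √d * z) * P (x + √d * z)) + P' (x + √d * z))).aestronglyMeasurable)
    (Eventually.of_forall fun z y hy => ?_) ((gauss_exp_abs _).const_mul _)
    (Eventually.of_forall fun z y _ => ?_)).2
  · rw [Real.norm_eq_abs, abs_mul, abs_exp, mul_right_comm _ (_ + L)]
    refine mul_le_mul ?_ ?_ (abs_nonneg _) (mul_nonneg (exp_pos _).le (exp_pos _).le)
    · rw [← exp_add, mul_assoc, ← mul_add]
      refine exp_le_exp.2 ((le_abs_self _).trans ?_)
      rw [abs_mul]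
      refine mul_le_mul_of_nonneg_left ?_ (abs_nonneg m)
      have h1 := h.lip x (y - x + √d * z)
      rw [show x + (y - x + √d * z) = y + √d * z by ring] at h1
      have h2 := abs_add_le (y - x) (√d * z)
      rw [abs_mul, abs_of_nonneg (sqrt_nonneg d)] at h2
      rw [Metric.mem_ball, Real.dist_eq] at hy
      linarith [abs_sub_abs_le_abs_sub (F (y + √d * z)) (F x)]
    · refine (abs_add_le _ _).trans (add_le_add ?_ (hL _))
      rw [abs_mul, abs_mul]
      refine mul_le_mul_of_nonneg_left ?_ (abs_nonneg m)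
      exact (mul_le_of_le_one_left (abs_nonneg _) (h.abs1 _)).trans (hB _)
  · have he : HasDerivAt (fun y => exp (m * F (y + √d * z)))
        (exp (m * F (y + √d * z)) * (m * f1 (y + √d * z))) y :=
      (((h.d0 _).comp_add_const y (√d * z)).const_mul m).exp
    exact (he.mul ((hd _).comp_add_const y (√d * z))).congr_deriv (by ring)

lemma hasDerivAt_mass (x : ℝ) :
    HasDerivAt (mass m d F) (m * avT m d F f1 x * mass m d F x) x := by
  have h1 := hasDerivAt_num h m d (P := fun _ => (1:ℝ)) (P' := fun _ => 0) (fun _ => hasDerivAt_const _ _)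
    continuous_const (B := 1) (L := 0) (fun _ => by simp) (fun _ => by simp) x
  simp only [mul_one, add_zero] at h1
  refine h1.congr_deriv ?_
  rw [avT, mul_assoc, div_mul_cancel₀ _ (h.mass_pos m d x).ne', ← integral_const_mul]
  exact integral_congr_ae (Eventually.of_forall fun z => by ring)

/-- derivative of a tilted mean -/
theorem hasDerivAt_avT {P P' : ℝ → ℝ} (hd : ∀ y, HasDerivAt P (P' y) y) (hc : Continuous P') {B L : ℝ}
    (hB : ∀ y, |P y| ≤ B) (hL : ∀ y, |P' y| ≤ L) (x : ℝ) :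
    HasDerivAt (avT m d F P)
      (avT m d F P' x + m * (avT m d F (fun y => f1 y * P y) x - avT m d F f1 x * avT m d F P x)) x := by
  have hP : Continuous P := continuous_iff_continuousAt.2 fun y => (hd y).continuousAt
  have hm := (h.mass_pos m d x).ne'
  refine ((hasDerivAt_num h m d hd hc hB hL x).div (hasDerivAt_mass h m d x) hm).congr_deriv ?_
  have e : ∫ z, exp (m * F (x + √d * z)) * (m * (f1 (x + √d * z) * P (x + √d * z)) + P' (x + √d * z)) ∂(gaussianReal 0 1) =
      m * (∫ z, exp (m * F (x + √d * z)) * (f1 (x + √d * z) * P (x + √d * z)) ∂(gaussianReal 0 1)) +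
        ∫ z, exp (m * F (x + √d * z)) * P' (x + √d * z) ∂(gaussianReal 0 1) := by
    rw [← integral_const_mul, ← integral_add]
    · exact integral_congr_ae (Eventually.of_forall fun z => by ring)
    · exact ((h.gr_tilt m d x).mul (Gr.bdd ((h.cont1.mul hP).comp (by fun_prop)) fun z => by
        show |f1 _ * P _| ≤ B
        rw [abs_mul]; exact (mul_le_of_le_one_left (abs_nonneg _) (h.abs1 _)).trans (hB _))).integrable.const_mul m
    · exact ((h.gr_tilt m d x).mul (Gr.bdd (hc.comp (by fun_prop)) fun _ => hL _)).integrable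
  rw [e]
  simp only [avT]
  field_simp
  ring

lemma mass_even (x : ℝ) : mass m d F (-x) = mass m d F x := by
  rw [mass, mass, ← integral_gauss_neg fun z => exp (m * F (-x + √d * z))]
  exact integral_congr_ae (Eventually.of_forall fun z => by
    show exp _ = exp _
    rw [show -x + √d * -z = -(x + √d * z) by ring, h.even])

lemma smo_even (x : ℝ) : smo m d F (-x) = smo m d F x := by
  unfold smo
  split_ifs
  · rw [← integral_gauss_neg fun z => F (-x + √d * z)]
    exact integral_congr_ae (Eventually.of_forall fun z => by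
      show F _ = F _
      rw [show -x + √d * -z = -(x + √d * z) by ring, h.even])
  · rw [mass_even h]

theorem hasDerivAt_smo (x : ℝ) : HasDerivAt (smo m d F) (avT m d F f1 x) x := by
  rcases eq_or_ne m 0 with rfl | hm
  · have e : avT 0 d F f1 x = ∫ z, f1 (x + √d * z) ∂(gaussianReal 0 1) := by simp [avT, mass]
    rw [e, show smo 0 d F = fun x => ∫ z, F (x + √d * z) ∂(gaussianReal 0 1) from funext fun y => by simp [smo]]
    have hF := h.cont0
    have hf1 := h.cont1
    exact (hasDerivAt_integral_of_dominated_loc_of_deriv_le (s := Metric.ball x 1)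
      (F := fun x z => F (x + √d * z)) (F' := fun x z => f1 (x + √d * z)) (bound := fun _ => 1)
      (Metric.ball_mem_nhds x one_pos) (Eventually.of_forall fun y => by
        exact (by fun_prop : Continuous fun z => F (y + √d * z)).aestronglyMeasurable)
      (h.gr_line d x).integrable (by fun_prop : Continuous fun z => f1 (x + √d * z)).aestronglyMeasurable
      (Eventually.of_forall fun z y _ => h.abs1 _) (integrable_const 1)
      (Eventually.of_forall fun z y _ => (h.d0 _).comp_add_const y (√d * z))).2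
  · rw [show smo m d F = fun x => log (mass m d F x) / m from funext fun y => by simp [smo, hm]]
    refine (((hasDerivAt_mass h m d x).log (h.mass_pos m d x).ne').div_const m).congr_deriv ?_
    field_simp [(h.mass_pos m d x).ne']

theorem continuous_avT {P : ℝ → ℝ} (hP : Continuous P) {B : ℝ} (hB : ∀ y, |P y| ≤ B) :
    Continuous (avT m d F P) := by
  have hmc : Continuous (mass m d F) :=
    continuous_iff_continuousAt.2 fun x => (hasDerivAt_mass h m d x).continuousAt
  refine Continuous.div ?_ hmc fun x => (h.mass_pos m d x).ne'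
  refine continuous_iff_continuousAt.2 fun x => ?_
  refine continuousAt_of_dominated (bound := fun z => exp (|m| * (|F x| + 1)) * B * exp (|m| * √d * |z|))
    (Eventually.of_forall fun y => ?_) ?_ ((gauss_exp_abs _).const_mul _) (Eventually.of_forall fun z => ?_)
  · have := h.cont0
    exact (by fun_prop : Continuous fun z => exp (m * F (y + √d * z)) * P (y + √d * z)).aestronglyMeasurable
  · filter_upwards [Metric.ball_mem_nhds x one_pos] with y hy
    refine Eventually.of_forall fun z => ?_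
    rw [Real.norm_eq_abs, abs_mul, abs_exp, mul_right_comm _ B]
    refine mul_le_mul ?_ (hB _) (abs_nonneg _) (mul_nonneg (exp_pos _).le (exp_pos _).le)
    rw [← exp_add, mul_assoc, ← mul_add]
    refine exp_le_exp.2 ((le_abs_self _).trans ?_)
    rw [abs_mul]
    refine mul_le_mul_of_nonneg_left ?_ (abs_nonneg m)
    have h1 := h.lip x (y - x + √d * z)
    rw [show x + (y - x + √d * z) = y + √d * z by ring] at h1
    have h2 := abs_add_le (y - x) (√d * z)
    rw [abs_mul, abs_of_nonneg (sqrt_nonneg d)] at h2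
    rw [Metric.mem_ball, Real.dist_eq] at hy
    linarith [abs_sub_abs_le_abs_sub (F (y + √d * z)) (F x)]
  · have := h.cont0
    exact (by fun_prop : Continuous fun y => exp (m * F (y + √d * z)) * P (y + √d * z)).continuousAt

end deriv

/-- **One step keeps the cone** -/
theorem cvx_step (h : Cvx F f1 f2) {m d : ℝ} (hm : 0 ≤ m) (hm1 : m ≤ 1) (_hd : 0 ≤ d) :
    Cvx (smo m d F) (avT m d F f1) (vS m d F f1 f2) := by
  have hvar : ∀ x, 0 ≤ avT m d F (fun y => f1 y ^ 2) x - avT m d F f1 x ^ 2 := fun x =>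
    sub_nonneg.2 (sq_avT_le h m d x h.cont1 h.abs1)
  have hd2 : ∀ x, HasDerivAt (avT m d F f1) (vS m d F f1 f2 x) x := fun x => by
    refine (hasDerivAt_avT h m d h.d1 h.cont2 h.abs1 h.abs2 x).congr_deriv ?_
    simp only [vS, sq]
  have hsq : ∀ y, |f1 y ^ 2| ≤ 1 := fun y => by rw [abs_of_nonneg (sq_nonneg _)]; exact h.sq1 y
  refine ⟨hasDerivAt_smo h m d, hd2, ?_, smo_even h m d, fun x => ?_, fun x => ?_⟩
  · have cav : ∀ {P : ℝ → ℝ} {B : ℝ}, Continuous P → (∀ y, |P y| ≤ B) → Continuous (avT m d F P) :=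
      fun hP hB => continuous_avT h m d hP hB
    exact (cav h.cont2 h.abs2).add (continuous_const.mul
      ((cav (h.cont1.pow 2) hsq).sub ((cav h.cont1 h.abs1).pow 2)))
  · exact add_nonneg (avT_nonneg h m d x h.nonneg2) (mul_nonneg hm (hvar x))
  · have h1 : avT m d F f2 x ≤ 1 - avT m d F (fun y => f1 y ^ 2) x := by
      rw [← avT_const h m d x 1, ← avT_sub h m d x (Q := fun y => f1 y ^ 2) continuous_const
        (fun _ => le_of_eq abs_one) (h.cont1.pow 2) hsq]
      refine avT_mono h m d x h.cont2 h.abs2 (Q := fun y => 1 - f1 y ^ 2)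
        (continuous_const.sub (h.cont1.pow 2)) (B' := 2) (fun y => ?_) h.le2
      rw [abs_le]; constructor <;> nlinarith [sq_nonneg (f1 y), h.sq1 y]
    have h2 := mul_le_of_le_one_left (hvar x) hm1
    unfold vS
    linarith

end Vale.Agent.P146.Lower.Marg
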