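import Vale.Agent.P150.GaussCalc
import Vale.Agent.P146.Lower.Marg.StepBase

/-! P146 lower bound, marginality for every `β > 1`: Gaussian ground-state inequalities on even and odd functions. -/

open MeasureTheory ProbabilityTheory Real Set Filter Topology

noncomputable section

namespace Vale.Agent.P146.Lower.Marg

lemma Gr.cont {f : ℝ → ℝ} (h : Gr f) : Continuous f := h.1

lemma Gr.sq {f : ℝ → ℝ} (h : Gr f) : Gr fun t => f t ^ 2 := by simpa [pow_two] using h.mul h

lemma Gr.of_le {f g : ℝ → ℝ} (hc : Continuous f) (hg : Gr g) (h : ∀ t, |f t| ≤ |g t|) : Gr f := by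
  obtain ⟨-, C, M, hM, hb⟩ := hg
  exact ⟨hc, C, M, hM, fun t => (h t).trans (hb t)⟩

lemma Gr.ibp {f f' : ℝ → ℝ} (hd : ∀ t, HasDerivAt f (f' t) t) (hf : Gr f) (hf' : Gr f') :
    ∫ t, t * f t ∂gaussianReal 0 1 = ∫ t, f' t ∂gaussianReal 0 1 := by
  obtain ⟨-, C, M, hM, hb⟩ := hf
  obtain ⟨hc', D, N, hN, hd'⟩ := hf'
  have hC : 0 ≤ C := nonneg_of_mul_nonneg_left ((abs_nonneg _).trans (hb 0)) (exp_pos _)
  have hD : 0 ≤ D := nonneg_of_mul_nonneg_left ((abs_nonneg _).trans (hd' 0)) (exp_pos _)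
  refine Vale.Agent.P150.stein_one (C := C + D) (M := M + N) hd hc' (fun t => (hb t).trans ?_) fun t =>
    (hd' t).trans ?_
  all_goals
    exact mul_le_mul (by linarith) (exp_le_exp.2 (by nlinarith [abs_nonneg t])) (exp_pos _).le (by linarith)


/-- the unnormalised Gaussian weight -/
def gw (x : ℝ) : ℝ := exp (-(x ^ 2) / 2)

lemma hasDerivAt_gw (x : ℝ) : HasDerivAt gw (-x * gw x) x := by
  have h := (((hasDerivAt_pow 2 x).neg).div_const 2).exp
  exact h.congr_deriv (by simp [gw]; ring)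

lemma gauss_integral (f : ℝ → ℝ) :
    ∫ x, f x ∂gaussianReal 0 1 = (√(2 * π))⁻¹ * ∫ x, gw x * f x := by
  rw [integral_gaussianReal_eq_integral_smul one_ne_zero, ← integral_const_mul]
  refine integral_congr_ae (Eventually.of_forall fun x => ?_)
  simp [gaussianPDFReal_def, gw, mul_assoc]

lemma Gr.int_gw {f : ℝ → ℝ} (hf : Gr f) : Integrable (fun x => gw x * f x) := by
  have h := hf.integrable
  rw [gaussianReal_of_var_ne_zero 0 one_ne_zero, integrable_withDensity_iff_integrable_smul'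
    (measurable_gaussianPDF 0 1) (Eventually.of_forall fun x => gaussianPDF_lt_top)] at h
  refine (h.const_mul (√(2 * π))).congr (Eventually.of_forall fun x => ?_)
  have : √(2 * π) ≠ 0 := by positivity
  simp [toReal_gaussianPDF, gaussianPDFReal_def, gw]
  field_simp

/-- the boundary term of the ground-state transform -/
def bdy (g ψ ψ' : ℝ → ℝ) (x : ℝ) : ℝ := ψ' x * g x ^ 2 / ψ x * gw x

lemma bdy_continuousAt {g g' ψ ψ' : ℝ → ℝ} (hg : ∀ x, HasDerivAt g (g' x) x)
    (hψ : ∀ x, HasDerivAt ψ (ψ' x) x) (hψc : Continuous ψ') {r : ℝ}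
    (hr : ψ r = 0 → g r = 0 ∧ ψ' r ≠ 0) : ContinuousAt (bdy g ψ ψ') r := by
  have hgc : Continuous g := continuous_iff_continuousAt.2 fun t => (hg t).continuousAt
  have hwc : Continuous gw := by unfold gw; fun_prop
  by_cases h0 : ψ r = 0
  · obtain ⟨h1, h2⟩ := hr h0
    have e : bdy g ψ ψ' = fun x => ψ' x * g x * dslope g r x / dslope ψ r x * gw x := by
      funext x
      unfold bdy
      by_cases hx : x = r
      · subst hx; simp [h1]
      · rw [dslope_of_ne _ hx, dslope_of_ne _ hx, slope_def_field, slope_def_field, h1, h0, sub_zero, sub_zero]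
        have : x - r ≠ 0 := sub_ne_zero.2 hx
        by_cases hp : ψ x = 0
        · simp [hp]
        · field_simp
    rw [e]
    refine ((((hψc.continuousAt).mul hgc.continuousAt).mul
      (continuousAt_dslope_same.2 (hg r).differentiableAt)).div
        (continuousAt_dslope_same.2 (hψ r).differentiableAt) ?_).mul hwc.continuousAt
    rw [dslope_same, (hψ r).deriv]; exact h2
  · exact (((hψc.mul (hgc.pow 2)).continuousAt).div (hψ r).continuousAt h0).mul hwc.continuousAt

lemma monotoneOn_Ici_of_two {Φ Φ' : ℝ → ℝ} {r : ℝ} (hr : 0 < r) (hc : ContinuousOn Φ (Ici 0))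
    (hd : ∀ x, 0 < x → x ≠ r → HasDerivAt Φ (Φ' x) x) (hn : ∀ x, 0 < x → x ≠ r → 0 ≤ Φ' x) :
    MonotoneOn Φ (Ici 0) := by
  have h1 : MonotoneOn Φ (Icc 0 r) := by
    refine monotoneOn_of_hasDerivWithinAt_nonneg (f' := Φ') (convex_Icc _ _) (hc.mono Icc_subset_Ici_self) ?_ ?_
    all_goals rw [interior_Icc]
    · exact fun x hx => (hd x hx.1 hx.2.ne).hasDerivWithinAt
    · exact fun x hx => hn x hx.1 hx.2.ne
  have h2 : MonotoneOn Φ (Ici r) := by
    refine monotoneOn_of_hasDerivWithinAt_nonneg (f' := Φ') (convex_Ici _) (hc.mono (Ici_subset_Ici.2 hr.le)) ?_ ?_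
    all_goals rw [interior_Ici]
    · exact fun x hx => (hd x (hr.trans hx) (ne_of_gt hx)).hasDerivWithinAt
    · exact fun x hx => hn x (hr.trans hx) (ne_of_gt hx)
  have := h1.union_right h2 (isGreatest_Icc hr.le) isLeast_Ici
  rwa [Icc_union_Ici_eq_Ici hr.le] at this

/-- ground-state transform on the half line with a test function having a single positive root -/
theorem ground {g g' ψ ψ' ψ'' : ℝ → ℝ} {c r : ℝ} (hr : 0 < r)
    (hg : ∀ x, HasDerivAt g (g' x) x) (Hg : Gr g) (Hg' : Gr g')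
    (hψ : ∀ x, HasDerivAt ψ (ψ' x) x) (hψ' : ∀ x, HasDerivAt ψ' (ψ'' x) x)
    (hode : ∀ x, ψ'' x - x * ψ' x = -c * ψ x)
    (hroot : ∀ x, 0 ≤ x → ψ x = 0 → g x = 0 ∧ ψ' x ≠ 0) (hne : ∀ x, 0 < x → x ≠ r → ψ x ≠ 0)
    (h0 : bdy g ψ ψ' 0 = 0) (hsign : ∀ x, r < x → 0 ≤ ψ' x / ψ x)
    (heven : ∀ x, g (-x) ^ 2 = g x ^ 2) (heven' : ∀ x, g' (-x) ^ 2 = g' x ^ 2) :
    c * ∫ x, g x ^ 2 ∂gaussianReal 0 1 ≤ ∫ x, g' x ^ 2 ∂gaussianReal 0 1 := by
  set D : ℝ → ℝ := fun x => gw x * (g' x ^ 2 - c * g x ^ 2) with hD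
  have HD : Gr fun x => g' x ^ 2 - c * g x ^ 2 := Hg'.sq.sub ((Gr.const c).mul Hg.sq)
  have hi : Integrable D := HD.int_gw
  have hDc : Continuous D := by
    have h := HD.cont
    have : Continuous gw := by unfold gw; fun_prop
    exact this.mul h
  have hψc : Continuous ψ' := continuous_iff_continuousAt.2 fun t => (hψ' t).continuousAt
  set Φ : ℝ → ℝ := fun x => (∫ y in (0:ℝ)..x, D y) - bdy g ψ ψ' x
  have hΦc : ContinuousOn Φ (Ici 0) := fun x hx =>
    (((intervalIntegral.integral_hasDerivAt_right (hi.intervalIntegrable) (hDc.stronglyMeasurableAtFilter _ _)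
      hDc.continuousAt).continuousAt).sub (bdy_continuousAt hg hψ hψc (hroot x hx))).continuousWithinAt
  have hmono : MonotoneOn Φ (Ici 0) := by
    refine monotoneOn_Ici_of_two (Φ' := fun x => gw x * (g' x - g x * ψ' x / ψ x) ^ 2) hr hΦc ?_ ?_
    · intro x hx hxr
      have hp := hne x hx hxr
      have h1 : HasDerivAt (fun x => ∫ y in (0:ℝ)..x, D y) (D x) x :=
        intervalIntegral.integral_hasDerivAt_right hi.intervalIntegrable (hDc.stronglyMeasurableAtFilter _ _)
          hDc.continuousAt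
      have h2 := ((((hψ' x).mul ((hg x).pow 2)).div (hψ x) hp).mul (hasDerivAt_gw x))
      refine (h1.sub h2).congr_deriv ?_
      have := hode x
      simp only [hD, Pi.mul_apply, Pi.pow_apply, Pi.div_apply]
      field_simp
      linear_combination (-(g x ^ 2 * gw x * ψ x)) * this
    · exact fun x _ _ => mul_nonneg (exp_pos _).le (sq_nonneg _)
  have hpos : ∀ R, r < R → 0 ≤ ∫ y in (0:ℝ)..R, D y := by
    intro R hR
    have := hmono (mem_Ici.2 le_rfl) (mem_Ici.2 (hr.trans hR).le) (hr.trans hR).le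
    simp only [Φ, intervalIntegral.integral_same, h0] at this
    have hb : 0 ≤ bdy g ψ ψ' R := by
      unfold bdy
      rw [show ψ' R * g R ^ 2 / ψ R = ψ' R / ψ R * g R ^ 2 by ring]
      exact mul_nonneg (mul_nonneg (hsign R hR) (sq_nonneg _)) (exp_pos _).le
    linarith
  have hIoi : 0 ≤ ∫ y in Ioi (0:ℝ), D y :=
    ge_of_tendsto (intervalIntegral_tendsto_integral_Ioi 0 hi.integrableOn tendsto_id)
      (by filter_upwards [eventually_gt_atTop r] with R hR using hpos R hR)
  have hev : ∀ x, D (-x) = D x := fun x => by simp [hD, gw, heven x, heven' x]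
  have hall : 0 ≤ ∫ y, D y := by
    rw [← intervalIntegral.integral_Iic_add_Ioi (b := (0:ℝ)) hi.integrableOn hi.integrableOn]
    have : ∫ y in Iic (0:ℝ), D y = ∫ y in Ioi (0:ℝ), D y := by
      rw [← neg_zero, ← integral_comp_neg_Iic]
      simp [hev]
    linarith
  have : 0 ≤ ∫ x, (g' x ^ 2 - c * g x ^ 2) ∂gaussianReal 0 1 := by
    rw [gauss_integral]; exact mul_nonneg (by positivity) hall
  rw [integral_sub Hg'.sq.integrable ((Gr.const c).mul Hg.sq).integrable, integral_const_mul] at this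
  linarith

/-- odd functions with mean-zero derivative: gap three, with the defect at the root -/
theorem gap_odd {f f' : ℝ → ℝ} (hf : ∀ x, HasDerivAt f (f' x) x) (Hf : Gr f) (Hf' : Gr f')
    (hodd : ∀ x, f (-x) = -f x) (heven : ∀ x, f' (-x) = f' x) (h0 : ∫ x, f' x ∂gaussianReal 0 1 = 0) :
    3 * ∫ x, f x ^ 2 ∂gaussianReal 0 1 + 2 * (f √3 / √3) ^ 2 ≤ ∫ x, f' x ^ 2 ∂gaussianReal 0 1 := by
  set θ := f √3 / √3
  have hs : (√3:ℝ) ^ 2 = 3 := sq_sqrt (by norm_num)
  have hsp : (0:ℝ) < √3 := by positivity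
  have key := ground (g := fun x => f x - θ * x) (g' := fun x => f' x - θ)
    (ψ := fun x => x ^ 3 - 3 * x) (ψ' := fun x => 3 * x ^ 2 - 3) (ψ'' := fun x => 6 * x) (c := 3) hsp
    (fun x => by simpa using! (hf x).sub ((hasDerivAt_id x).const_mul θ))
    (Hf.sub ((Gr.const θ).mul Gr.id)) (Hf'.sub (Gr.const θ))
    (fun x => by simpa using! ((hasDerivAt_pow 3 x).sub ((hasDerivAt_id x).const_mul 3)))
    (fun x => by simpa [mul_assoc, mul_comm, mul_left_comm] using
      (((hasDerivAt_pow 2 x).const_mul 3).sub_const 3).congr_deriv (by simp; ring : _ = 6 * x))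
    (fun x => by ring) ?_ ?_ ?_ ?_ ?_ ?_
  · have e1 : ∫ x, (f x - θ * x) ^ 2 ∂gaussianReal 0 1 = ∫ x, f x ^ 2 ∂gaussianReal 0 1 + θ ^ 2 := by
      have h2 : ∫ x : ℝ, x * x ∂gaussianReal 0 1 = 1 := by
        rw [Gr.ibp (f' := fun _ => 1) hasDerivAt_id' Gr.id (Gr.const 1)]; simp
      have h1 : ∫ x, x * f x ∂gaussianReal 0 1 = 0 := by rw [Gr.ibp hf Hf Hf', h0]
      have e : ∀ x, (f x - θ * x) ^ 2 = f x ^ 2 + ((-2 * θ) * (x * f x) + θ ^ 2 * (x * x)) := fun x => by ring
      simp only [e]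
      rw [integral_add Hf.sq.integrable (((Gr.const _).mul (Gr.id.mul Hf)).add ((Gr.const _).mul (Gr.id.mul Gr.id))).integrable,
        integral_add ((Gr.const _).mul (Gr.id.mul Hf)).integrable ((Gr.const _).mul (Gr.id.mul Gr.id)).integrable,
        integral_const_mul, integral_const_mul, h1, h2]
      ring
    have e2 : ∫ x, (f' x - θ) ^ 2 ∂gaussianReal 0 1 = ∫ x, f' x ^ 2 ∂gaussianReal 0 1 + θ ^ 2 := by
      have e : ∀ x, (f' x - θ) ^ 2 = f' x ^ 2 + ((-2 * θ) * f' x + θ ^ 2) := fun x => by ring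
      simp only [e]
      rw [integral_add Hf'.sq.integrable (((Gr.const _).mul Hf').add (Gr.const _)).integrable,
        integral_add ((Gr.const _).mul Hf').integrable (Gr.const _).integrable, integral_const_mul, h0]
      simp
    rw [e1, e2] at key
    linarith
  · intro x hx h
    have h' : x = 0 ∨ x ^ 2 = 3 := by
      rcases mul_eq_zero.1 (show x * (x ^ 2 - 3) = 0 by linear_combination h) with h | h
      · exact Or.inl h
      · exact Or.inr (by linarith)
    rcases h' with rfl | h'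
    · have : f 0 = 0 := by have := hodd 0; rw [neg_zero] at this; linarith
      exact ⟨by simp [this], by norm_num⟩
    · have hx3 : x = √3 := by rw [← h', sqrt_sq hx]
      exact ⟨by subst hx3; simp [θ], by rw [h']; norm_num⟩
  · intro x hx hxr h
    rcases mul_eq_zero.1 (show x * (x ^ 2 - 3) = 0 by linear_combination h) with h | h
    · exact hx.ne' h
    · exact hxr (by rw [← show x ^ 2 = 3 by linarith, sqrt_sq hx.le])
  · simp [bdy]
  · intro x hx
    have : 3 < x ^ 2 := by nlinarith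
    exact div_nonneg (by nlinarith) (by nlinarith)
  · intro x; simp [hodd]; ring
  · intro x; simp [heven]

/-- even functions: gap two -/
theorem gap_even {f f' : ℝ → ℝ} (hf : ∀ x, HasDerivAt f (f' x) x) (Hf : Gr f) (Hf' : Gr f')
    (heven : ∀ x, f (-x) = f x) (hodd : ∀ x, f' (-x) = -f' x) :
    2 * (∫ x, f x ^ 2 ∂gaussianReal 0 1 - (∫ x, f x ∂gaussianReal 0 1) ^ 2) ≤
      ∫ x, f' x ^ 2 ∂gaussianReal 0 1 := by
  have key := ground (g := fun x => f x - f 1) (g' := f') (ψ := fun x => x ^ 2 - 1) (ψ' := fun x => 2 * x)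
    (ψ'' := fun _ => 2) (c := 2) one_pos
    (fun x => (hf x).sub_const _) (Hf.sub (Gr.const _)) Hf'
    (fun x => by simpa using! (hasDerivAt_pow 2 x).sub_const 1)
    (fun x => by simpa using! (hasDerivAt_id x).const_mul 2)
    (fun x => by ring) ?_ ?_ ?_ ?_ ?_ ?_
  · have e : ∀ x, (f x - f 1) ^ 2 = f x ^ 2 + ((-2 * f 1) * f x + f 1 ^ 2) := fun x => by ring
    simp only [e] at key
    rw [integral_add Hf.sq.integrable (((Gr.const _).mul Hf).add (Gr.const _)).integrable,
      integral_add ((Gr.const _).mul Hf).integrable (Gr.const _).integrable, integral_const_mul] at key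
    simp at key
    nlinarith [sq_nonneg (∫ x, f x ∂gaussianReal 0 1 - f 1)]
  · intro x hx h
    have : x = 1 := by nlinarith
    subst this; simp
  · intro x hx hx1 h; exact hx1 (by nlinarith)
  · simp [bdy]
  · intro x hx; exact div_nonneg (by linarith) (by nlinarith)
  · intro x; simp [heven]
  · intro x; simp [hodd]

/-- a nonnegative continuous function with vanishing Gaussian integral vanishes -/
lemma eq_zero_of_gauss {f : ℝ → ℝ} (hf : Gr f) (h0 : ∀ x, 0 ≤ f x) (h : ∫ x, f x ∂gaussianReal 0 1 = 0) (x : ℝ) : f x = 0 := by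
  have h1 := (integral_eq_zero_iff_of_nonneg h0 hf.integrable).1 h
  have h2 : f =ᵐ[volume] fun _ => 0 := gaussianReal_absolutelyContinuous' 0 one_ne_zero |>.ae_eq h1
  exact congr_fun (hf.cont.ae_eq_iff_eq volume continuous_const |>.1 h2) x

end Vale.Agent.P146.Lower.Marg
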