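import Vale.Agent.P146.Lower.Marg.StepBase
import Vale.Agent.P150.GaussCalc

/-! P146 marginality: heat calculus of the squared slope carried along one step. -/

open MeasureTheory ProbabilityTheory Real Filter
open scoped Topology

noncomputable section

namespace Vale.Agent.P146.Lower.Marg
namespace Heat

/-- Gaussian average of `h` about `y` at scale `c`, weighted by `k` -/
def T (k h : ℝ → ℝ) (c y : ℝ) : ℝ := ∫ z, k z * h (y + c * z) ∂gaussianReal 0 1

/-- bound of a weighted average at scales up to `C` -/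
def W (C : ℝ) : ℝ := ∫ z, exp ((C + 1) * |z|) ∂gaussianReal 0 1

lemma W_nonneg (C : ℝ) : 0 ≤ W C := integral_nonneg fun _ => (exp_pos _).le

/-- a `C¹` function which, with its derivative, grows at most like `exp |w|` -/
structure Hg (g g' : ℝ → ℝ) (K : ℝ) : Prop where
  d : ∀ w, HasDerivAt g (g' w) w
  c' : Continuous g'
  b : ∀ w, |g w| ≤ K * exp |w|
  b' : ∀ w, |g' w| ≤ K * exp |w|

lemma Hg.c {g g' : ℝ → ℝ} {K : ℝ} (h : Hg g g' K) : Continuous g :=
  continuous_iff_continuousAt.2 fun w => (h.d w).continuousAt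

lemma Hg.K0 {g g' : ℝ → ℝ} {K : ℝ} (h : Hg g g' K) : 0 ≤ K :=
  nonneg_of_mul_nonneg_left ((abs_nonneg _).trans (h.b 0)) (exp_pos _)

section

variable {k h : ℝ → ℝ} {K : ℝ}

lemma bound_at (hh : ∀ w, |h w| ≤ K * exp |w|) {c y C Y : ℝ} (hc : |c| ≤ C) (hy : |y| ≤ Y) (z : ℝ) :
    |h (y + c * z)| ≤ K * exp Y * exp (C * |z|) := by
  have hK : 0 ≤ K := nonneg_of_mul_nonneg_left ((abs_nonneg _).trans (hh 0)) (exp_pos _)
  refine (hh _).trans ?_
  rw [mul_assoc, ← exp_add]
  refine mul_le_mul_of_nonneg_left (exp_le_exp.2 ((abs_add_le _ _).trans (add_le_add hy ?_))) hK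
  rw [abs_mul]
  exact mul_le_mul_of_nonneg_right hc (abs_nonneg z)

lemma bound_wt (hk : ∀ z, |k z| ≤ exp |z|) (hh : ∀ w, |h w| ≤ K * exp |w|) {c y C Y : ℝ} (hc : |c| ≤ C)
    (hy : |y| ≤ Y) (z : ℝ) : |k z * h (y + c * z)| ≤ K * exp Y * exp ((C + 1) * |z|) := by
  rw [abs_mul, add_mul, one_mul, exp_add]
  exact (mul_le_mul (hk z) (bound_at hh hc hy z) (abs_nonneg _) (exp_pos _).le).trans_eq (by ring)

variable (hk0 : Continuous k) (hk : ∀ z, |k z| ≤ exp |z|) (hh0 : Continuous h) (hh : ∀ w, |h w| ≤ K * exp |w|)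
include hk0 hk hh0 hh

lemma integrable_T (c y : ℝ) : Integrable (fun z => k z * h (y + c * z)) (gaussianReal 0 1) :=
  ((gauss_exp_abs _).const_mul _).mono' (by fun_prop : Continuous fun z => k z * h (y + c * z)).aestronglyMeasurable
    (Eventually.of_forall fun z => bound_wt hk hh le_rfl le_rfl z)

lemma abs_T_le {c y C Y : ℝ} (hc : |c| ≤ C) (hy : |y| ≤ Y) : |T k h c y| ≤ K * exp Y * W C := by
  rw [W, ← integral_const_mul]
  exact abs_integral_le_integral_abs.trans (integral_mono (integrable_T hk0 hk hh0 hh c y).abs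
    ((gauss_exp_abs _).const_mul _) fun z => bound_wt hk hh hc hy z)

lemma continuous_T {c y : ℝ → ℝ} (hc : Continuous c) (hy : Continuous y) :
    Continuous fun p => T k h (c p) (y p) := by
  refine continuous_iff_continuousAt.2 fun p => ?_
  refine continuousAt_of_dominated (bound := fun z => K * exp (|y p| + 1) * exp ((|c p| + 1 + 1) * |z|))
    (Eventually.of_forall fun q => (by fun_prop : Continuous fun z => k z * h (y q + c q * z)).aestronglyMeasurable)
    ?_ ((gauss_exp_abs _).const_mul _)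
    (Eventually.of_forall fun z => (by fun_prop : Continuous fun q => k z * h (y q + c q * z)).continuousAt)
  filter_upwards [hc.continuousAt.abs.eventually_lt_const (lt_add_one |c p|),
    hy.continuousAt.abs.eventually_lt_const (lt_add_one |y p|)] with q h1 h2
  exact Eventually.of_forall fun z => bound_wt hk hh h1.le h2.le z

end

/-- derivative of a weighted average along a differentiable path -/
lemma hasDerivAt_T {k g g' : ℝ → ℝ} {K : ℝ} (hk0 : Continuous k) (hk : ∀ z, |k z| ≤ exp |z|) (hg : Hg g g' K)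
    {c y c' y' : ℝ → ℝ} {t δ C Y D : ℝ} (hδ : 0 < δ)
    (hd : ∀ θ ∈ Metric.ball t δ, HasDerivAt c (c' θ) θ ∧ HasDerivAt y (y' θ) θ ∧
      |c θ| ≤ C ∧ |y θ| ≤ Y ∧ |c' θ| ≤ D ∧ |y' θ| ≤ D) :
    HasDerivAt (fun θ => T k g (c θ) (y θ))
      (y' t * T k g' (c t) (y t) + c' t * T (fun z => z * k z) g' (c t) (y t)) t := by
  have hcg := hg.c
  have hcg' := hg.c'
  have hI := integrable_T hk0 hk hg.c' hg.b' (c t) (y t)
  have hk2 : ∀ z, |z * k z| ≤ exp (2 * |z|) := fun z => by
    rw [abs_mul, show (2:ℝ) * |z| = |z| + |z| by ring, exp_add]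
    exact mul_le_mul (by linarith [add_one_le_exp |z|]) (hk z) (abs_nonneg _) (exp_pos _).le
  have hI2 : Integrable (fun z => z * k z * g' (y t + c t * z)) (gaussianReal 0 1) := by
    refine ((gauss_exp_abs (|c t| + 2)).const_mul (K * exp |y t|)).mono'
      (by fun_prop : Continuous fun z => z * k z * g' (y t + c t * z)).aestronglyMeasurable
      (Eventually.of_forall fun z => ?_)
    rw [Real.norm_eq_abs, abs_mul, add_mul, exp_add]
    exact (mul_le_mul (hk2 z) (bound_at hg.b' le_rfl le_rfl z) (abs_nonneg _) (exp_pos _).le).trans_eq (by ring)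
  refine ((hasDerivAt_integral_of_dominated_loc_of_deriv_le (Metric.ball_mem_nhds t hδ)
    (F := fun θ z => k z * g (y θ + c θ * z))
    (F' := fun θ z => k z * g' (y θ + c θ * z) * (y' θ + c' θ * z))
    (bound := fun z => D * (K * exp Y) * exp ((C + 2) * |z|))
    (Eventually.of_forall fun θ => (by fun_prop : Continuous fun z => k z * g (y θ + c θ * z)).aestronglyMeasurable)
    (integrable_T hk0 hk hg.c hg.b _ _)
    (by fun_prop : Continuous fun z => k z * g' (y t + c t * z) * (y' t + c' t * z)).aestronglyMeasurable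
    (Eventually.of_forall fun z θ hθ => ?_) ((gauss_exp_abs _).const_mul _)
    (Eventually.of_forall fun z θ hθ => ?_)).2).congr_deriv ?_
  · obtain ⟨-, -, b1, b2, b3, b4⟩ := hd θ hθ
    rw [Real.norm_eq_abs, abs_mul]
    have h1 : |y' θ + c' θ * z| ≤ D * exp |z| := by
      refine (abs_add_le _ _).trans ?_
      rw [abs_mul]
      have := mul_le_mul_of_nonneg_right b3 (abs_nonneg z)
      have := mul_le_mul_of_nonneg_left (add_one_le_exp |z|) ((abs_nonneg _).trans b4)
      linarith
    refine (mul_le_mul (bound_wt hk hg.b' b1 b2 z) h1 (abs_nonneg _)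
      ((abs_nonneg _).trans (bound_wt hk hg.b' b1 b2 z))).trans_eq ?_
    rw [show (C + 2) * |z| = (C + 1) * |z| + |z| by ring, exp_add]; ring
  · obtain ⟨h1, h2, -⟩ := hd θ hθ
    exact (((hg.d _).comp θ (h2.fun_add (h1.mul_const z))).const_mul (k z)).congr_deriv (by ring)
  · simp only [T, ← integral_const_mul]
    rw [← integral_add (hI.const_mul _) (hI2.const_mul _)]
    exact integral_congr_ae (Eventually.of_forall fun z => by ring)

lemma one_le (z : ℝ) : |(fun _ : ℝ => (1:ℝ)) z| ≤ exp |z| := by simp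

lemma id_le (z : ℝ) : |(fun w : ℝ => w) z| ≤ exp |z| := by linarith [add_one_le_exp |z|]

/-- plain average -/
abbrev U (h : ℝ → ℝ) (c y : ℝ) : ℝ := T (fun _ => 1) h c y

/-- average weighted by the Gaussian variable -/
abbrev V (h : ℝ → ℝ) (c y : ℝ) : ℝ := T (fun w => w) h c y

lemma id_mul_one (g : ℝ → ℝ) (c y : ℝ) : T (fun z => z * (1:ℝ)) g c y = V g c y := by simp [T]

/-- derivative in the centre -/
lemma hd_space {k g g' : ℝ → ℝ} {K : ℝ} (hk0 : Continuous k) (hk : ∀ z, |k z| ≤ exp |z|) (hg : Hg g g' K) (c y : ℝ) :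
    HasDerivAt (T k g c) (T k g' c y) y := by
  refine (hasDerivAt_T hk0 hk hg (c := fun _ => c) (y := fun θ => θ) (c' := fun _ => 0) (y' := fun _ => 1)
    (C := |c|) (Y := |y| + 1) (D := 1) one_pos fun θ hθ =>
      ⟨hasDerivAt_const _ _, hasDerivAt_id' θ, le_rfl, ?_, by simp, by simp⟩).congr_deriv (by simp)
  rw [Metric.mem_ball, Real.dist_eq] at hθ
  linarith [abs_sub_abs_le_abs_sub θ y]

/-- the Gaussian average of the derivative -/
lemma stein_V {g g' : ℝ → ℝ} {K : ℝ} (hg : Hg g g' K) (c y : ℝ) : V g c y = c * U g' c y := by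
  have hK := hg.K0
  have hc := hg.c'
  have e : V g c y = ∫ z, c * g' (y + c * z) ∂gaussianReal 0 1 := by
    show ∫ z, z * g (y + c * z) ∂gaussianReal 0 1 = _
    refine Vale.Agent.P150.stein_one (f := fun z => g (y + c * z)) (f' := fun z => c * g' (y + c * z))
      (C := (1 + |c|) * (K * exp |y|)) (M := |c|) (fun z => ?_) (by fun_prop) (fun z => ?_) (fun z => ?_)
    · exact ((hg.d _).comp z (((hasDerivAt_id' z).const_mul c).const_add y)).congr_deriv (by ring)
    · refine (bound_at hg.b le_rfl le_rfl z).trans (mul_le_mul_of_nonneg_right ?_ (exp_pos _).le)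
      exact le_mul_of_one_le_left (by positivity) (by linarith [abs_nonneg c])
    · rw [abs_mul, mul_assoc]
      exact mul_le_mul (by linarith [abs_nonneg c]) (bound_at hg.b' le_rfl le_rfl z) (abs_nonneg _) (by positivity)
  rw [e, integral_const_mul]
  simp [T]

/-- second derivative in the centre -/
lemma hd_space2 {g g' : ℝ → ℝ} {K : ℝ} (hg : Hg g g' K) {c : ℝ} (hc : c ≠ 0) (y : ℝ) :
    HasDerivAt (U g' c) (1 / c * V g' c y) y := by
  have e : U g' c = fun w => 1 / c * V g c w := funext fun w => by rw [stein_V hg]; field_simp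
  rw [e]
  exact (hd_space continuous_id id_le hg c y).const_mul (1 / c)

/-- carried average `∫ b² / a` -/
def Nf (g h : ℝ → ℝ) (L x t : ℝ) : ℝ :=
  ∫ z, U h √(L - t) (x + √t * z) ^ 2 / U g √(L - t) (x + √t * z) ∂gaussianReal 0 1

/-- what the derivative along the step needs of `r = b / a` -/
structure Ratio (g g' h h' : ℝ → ℝ) (K : ℝ) (r v : ℝ → ℝ → ℝ) : Prop where
  hg : Hg g g' K
  hh : Hg h h' K
  pos : ∀ d y, 0 < U g √d y
  eq : ∀ d y, U h √d y = r d y * U g √d y
  rb : ∀ d y, 0 ≤ d → |r d y| ≤ 1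
  vb : ∀ d y, 0 ≤ d → |v d y| ≤ 1
  rd : ∀ d y, 0 ≤ d → HasDerivAt (r d) (v d y) y
  vc : ∀ d, 0 ≤ d → Continuous (v d)

section Ratio

variable {g g' h h' : ℝ → ℝ} {K : ℝ} {r v : ℝ → ℝ → ℝ} (H : Ratio g g' h h' K r v)
include H

lemma Nf_int_eq (d y : ℝ) : U h √d y ^ 2 / U g √d y = r d y * U h √d y := by
  rw [H.eq]
  field_simp [(H.pos d y).ne']

omit H in
lemma line_le {t L : ℝ} (htL : t ≤ L) (x z : ℝ) : |x + √t * z| ≤ |x| + √L * |z| := by
  refine (abs_add_le _ _).trans (add_le_add le_rfl ?_)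
  rw [abs_mul, abs_of_nonneg (sqrt_nonneg t)]
  exact mul_le_mul_of_nonneg_right (sqrt_le_sqrt htL) (abs_nonneg z)

lemma Nf_bound {t L : ℝ} (ht : 0 ≤ t) (htL : t ≤ L) (x z : ℝ) :
    |U h √(L - t) (x + √t * z) ^ 2 / U g √(L - t) (x + √t * z)| ≤ K * exp |x| * W √L * exp (√L * |z|) := by
  rw [Nf_int_eq H, abs_mul]
  refine (mul_le_of_le_one_left (abs_nonneg _) (H.rb _ _ (by linarith))).trans ?_
  refine (abs_T_le continuous_const one_le H.hh.c H.hh.b (C := √L) (Y := |x| + √L * |z|) ?_
    (line_le htL x z)).trans_eq ?_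
  · rw [abs_of_nonneg (sqrt_nonneg _)]; exact sqrt_le_sqrt (by linarith)
  · rw [exp_add]; ring

lemma cont_Nf_z (L x t : ℝ) :
    Continuous fun z => U h √(L - t) (x + √t * z) ^ 2 / U g √(L - t) (x + √t * z) :=
  ((continuous_T continuous_const one_le H.hh.c H.hh.b continuous_const (by fun_prop)).pow 2).div
    (continuous_T continuous_const one_le H.hg.c H.hg.b continuous_const (by fun_prop)) fun z => (H.pos _ _).ne'

lemma continuousOn_Nf (L x : ℝ) : ContinuousOn (Nf g h L x) (Set.Icc 0 L) :=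
  continuousOn_of_dominated (bound := fun z => K * exp |x| * W √L * exp (√L * |z|))
    (fun t _ => (cont_Nf_z H L x t).aestronglyMeasurable)
    (fun t ht => Eventually.of_forall fun z => Nf_bound H ht.1 ht.2 x z) ((gauss_exp_abs _).const_mul _)
    (Eventually.of_forall fun z => (((continuous_T continuous_const one_le H.hh.c H.hh.b (by fun_prop)
      (by fun_prop)).pow 2).div (continuous_T continuous_const one_le H.hg.c H.hg.b (by fun_prop) (by fun_prop))
        fun t => (H.pos _ _).ne').continuousOn)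

omit H in
/-- time derivative of an average seen from the moving point -/
lemma hd_time {g g' : ℝ → ℝ} {K : ℝ} (hg : Hg g g' K) {L x z θ δ : ℝ} (hδ : 0 < δ) (h1 : δ < θ) (h2 : δ < L - θ) :
    HasDerivAt (fun s => U g √(L - s) (x + √s * z))
      (z / (2 * √θ) * U g' √(L - θ) (x + √θ * z) + -1 / (2 * √(L - θ)) * V g' √(L - θ) (x + √θ * z)) θ := by
  set ε := min (θ - δ) (L - θ - δ) with hε
  have hε0 : 0 < ε := lt_min (by linarith) (by linarith)
  have hb : ∀ s ∈ Metric.ball θ ε, δ < s ∧ δ < L - s := fun s hs => by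
    rw [Metric.mem_ball, Real.dist_eq] at hs
    obtain ⟨e1, e2⟩ := abs_lt.1 hs
    exact ⟨by linarith [min_le_left (θ - δ) (L - θ - δ)], by linarith [min_le_right (θ - δ) (L - θ - δ)]⟩
  have hq : ∀ {u a : ℝ}, δ < u → |a / (2 * √u)| ≤ |a| / (2 * √δ) := fun {u a} hu => by
    rw [abs_div, abs_of_nonneg (show (0:ℝ) ≤ 2 * √u by positivity)]
    exact div_le_div_of_nonneg_left (abs_nonneg a) (by positivity) (by linarith [sqrt_le_sqrt hu.le])
  refine (hasDerivAt_T continuous_const one_le hg (c := fun s => √(L - s)) (y := fun s => x + √s * z)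
    (c' := fun s => -1 / (2 * √(L - s))) (y' := fun s => z / (2 * √s))
    (C := √L) (Y := |x| + √L * |z|) (D := (|z| + 1) / (2 * √δ)) hε0 fun s hs => ?_).congr_deriv ?_
  · obtain ⟨a1, a2⟩ := hb s hs
    refine ⟨((hasDerivAt_id' s).const_sub L).sqrt (by linarith),
      ((((hasDerivAt_id' s).sqrt (by linarith)).mul_const z).const_add x).congr_deriv (by ring),
      ?_, ?_, (hq a2).trans ?_, (hq a1).trans ?_⟩
    · rw [abs_of_nonneg (sqrt_nonneg _)]; exact sqrt_le_sqrt (by linarith)
    · refine (abs_add_le _ _).trans (add_le_add le_rfl ?_)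
      rw [abs_mul, abs_of_nonneg (sqrt_nonneg s)]
      exact mul_le_mul_of_nonneg_right (sqrt_le_sqrt (by linarith)) (abs_nonneg z)
    · exact div_le_div_of_nonneg_right (by rw [abs_neg, abs_one]; linarith [abs_nonneg z]) (by positivity)
    · exact div_le_div_of_nonneg_right (by linarith) (by positivity)
  · rw [id_mul_one]

/-- **heat identity**: `d/dt ∫ b² / a = ∫ a r'²` -/
theorem hasDerivAt_Nf {L t : ℝ} (x : ℝ) (ht : 0 < t) (htL : t < L) :
    HasDerivAt (Nf g h L x) (∫ z, U g √(L - t) (x + √t * z) * v (L - t) (x + √t * z) ^ 2 ∂gaussianReal 0 1) t := by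
  set δ := min t (L - t) / 2 with hδ
  have hm1 := min_le_left t (L - t)
  have hm2 := min_le_right t (L - t)
  have hm0 : 0 < min t (L - t) := lt_min ht (by linarith)
  have hδ0 : 0 < δ := by positivity
  set E := K * exp |x| * W √L
  have hE : 0 ≤ E := mul_nonneg (mul_nonneg H.hg.K0 (exp_pos _).le) (W_nonneg _)
  -- pointwise derivative
  let dt : (ℝ → ℝ) → ℝ → ℝ → ℝ := fun f θ z =>
    z / (2 * √θ) * U f √(L - θ) (x + √θ * z) + -1 / (2 * √(L - θ)) * V f √(L - θ) (x + √θ * z)
  let Fd : ℝ → ℝ → ℝ := fun θ z =>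
    2 * r (L - θ) (x + √θ * z) * dt h' θ z - r (L - θ) (x + √θ * z) ^ 2 * dt g' θ z
  have hball : ∀ θ ∈ Metric.ball t δ, δ < θ ∧ δ < L - θ := fun θ hθ => by
    rw [Metric.mem_ball, Real.dist_eq] at hθ
    obtain ⟨e1, e2⟩ := abs_lt.1 hθ
    rw [hδ] at e1 e2 ⊢
    exact ⟨by linarith, by linarith⟩
  have hdt : ∀ {f : ℝ → ℝ}, Continuous f → (∀ w, |f w| ≤ K * exp |w|) → ∀ θ ∈ Metric.ball t δ, ∀ z,
      |dt f θ z| ≤ 1 / √δ * E * exp ((√L + 1) * |z|) := fun {f} hf hfb θ hθ z => by
    obtain ⟨a1, a2⟩ := hball θ hθ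
    have hc : |√(L - θ)| ≤ √L := by rw [abs_of_nonneg (sqrt_nonneg _)]; exact sqrt_le_sqrt (by linarith)
    have hy := line_le (t := θ) (L := L) (by linarith) x z
    have hUV : ∀ {k : ℝ → ℝ}, Continuous k → (∀ w, |k w| ≤ exp |w|) →
        |T k f √(L - θ) (x + √θ * z)| ≤ E * exp (√L * |z|) := fun hk0 hk =>
      (abs_T_le hk0 hk hf hfb hc hy).trans_eq (by rw [exp_add]; ring)
    have hq : ∀ {u a : ℝ}, δ < u → |a / (2 * √u)| ≤ |a| / √δ := fun {u a} hu => by
      rw [abs_div, abs_of_nonneg (show (0:ℝ) ≤ 2 * √u by positivity)]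
      exact div_le_div_of_nonneg_left (abs_nonneg a) (by positivity)
        (by linarith [sqrt_le_sqrt hu.le, sqrt_nonneg u])
    refine (abs_add_le _ _).trans ?_
    rw [abs_mul, abs_mul]
    refine (add_le_add (mul_le_mul (hq a1) (hUV continuous_const one_le) (abs_nonneg _) (by positivity))
      (mul_le_mul (hq a2) (hUV continuous_id id_le) (abs_nonneg _) (by positivity))).trans ?_
    rw [abs_neg, abs_one, ← add_mul, ← add_div, add_mul (√L), one_mul, exp_add,
      show 1 / √δ * E * (exp (√L * |z|) * exp |z|) = exp |z| / √δ * (E * exp (√L * |z|)) by ring]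
    exact mul_le_mul_of_nonneg_right (div_le_div_of_nonneg_right (add_one_le_exp _) (sqrt_nonneg _))
      (mul_nonneg hE (exp_pos _).le)
  have hcont : Continuous (Fd t) := by
    have hL : 0 ≤ L - t := by linarith
    have cr : Continuous fun z => r (L - t) (x + √t * z) :=
      (continuous_iff_continuousAt.2 fun y => (H.rd (L - t) y hL).continuousAt).comp (by fun_prop)
    have cT : ∀ {k f : ℝ → ℝ}, Continuous k → (∀ w, |k w| ≤ exp |w|) → Continuous f →
        (∀ w, |f w| ≤ K * exp |w|) → Continuous fun z => T k f √(L - t) (x + √t * z) := fun a b c d =>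
      continuous_T a b c d continuous_const (by fun_prop)
    have cdt : ∀ {f : ℝ → ℝ}, Continuous f → (∀ w, |f w| ≤ K * exp |w|) → Continuous (dt f t) := fun hf hfb =>
      ((continuous_id.div_const _).mul (cT continuous_const one_le hf hfb)).add
        (continuous_const.mul (cT continuous_id id_le hf hfb))
    exact ((continuous_const.mul cr).mul (cdt H.hh.c' H.hh.b')).sub ((cr.pow 2).mul (cdt H.hg.c' H.hg.b'))
  have hder := hasDerivAt_integral_of_dominated_loc_of_deriv_le (Metric.ball_mem_nhds t hδ0)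
    (μ := gaussianReal 0 1)
    (F := fun θ z => U h √(L - θ) (x + √θ * z) ^ 2 / U g √(L - θ) (x + √θ * z)) (F' := Fd)
    (bound := fun z => 3 / √δ * E * exp ((√L + 1) * |z|))
    (Eventually.of_forall fun θ => (cont_Nf_z H L x θ).aestronglyMeasurable)
    (((gauss_exp_abs _).const_mul _).mono' (cont_Nf_z H L x t).aestronglyMeasurable
      (Eventually.of_forall fun z => Nf_bound H ht.le htL.le x z))
    hcont.aestronglyMeasurable
    (Eventually.of_forall fun z θ hθ => by
      obtain ⟨a1, a2⟩ := hball θ hθ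
      have hr := H.rb (L - θ) (x + √θ * z) (by linarith)
      rw [Real.norm_eq_abs]
      refine (abs_sub _ _).trans ?_
      rw [abs_mul, abs_mul, abs_mul, abs_two, abs_pow]
      refine (add_le_add (mul_le_mul (mul_le_of_le_one_right zero_le_two hr) (hdt H.hh.c' H.hh.b' θ hθ z)
        (abs_nonneg _) zero_le_two) (mul_le_mul (pow_le_one₀ (abs_nonneg _) hr) (hdt H.hg.c' H.hg.b' θ hθ z)
        (abs_nonneg _) zero_le_one)).trans_eq ?_
      ring)
    ((gauss_exp_abs _).const_mul _)
    (Eventually.of_forall fun z θ hθ => by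
      obtain ⟨a1, a2⟩ := hball θ hθ
      have e := H.eq (L - θ) (x + √θ * z)
      refine (((hd_time H.hh hδ0 a1 a2).fun_pow 2).fun_div (hd_time H.hg hδ0 a1 a2) (H.pos _ _).ne').congr_deriv ?_
      simp only [Fd, dt, e]
      field_simp [(H.pos (L - θ) (x + √θ * z)).ne']
      norm_num
      ring)
  refine hder.2.congr_deriv ?_
  -- integration by parts in the spatial variable
  have hd : 0 ≤ L - t := by linarith
  have hL0 : 0 ≤ L := by linarith
  set c := √(L - t) with hc
  have hc0 : 0 < c := sqrt_pos.2 (by linarith)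
  have hcL : |c| ≤ √L := by rw [abs_of_pos hc0]; exact sqrt_le_sqrt (by linarith)
  set s := √t with hs
  have hs0 : 0 < s := sqrt_pos.2 ht
  let P : ℝ → ℝ := fun y => 2 * r (L - t) y * U h' c y - r (L - t) y ^ 2 * U g' c y
  let Q : ℝ → ℝ := fun y => 2 * r (L - t) y * (1 / c * V h' c y) - r (L - t) y ^ 2 * (1 / c * V g' c y)
  let P' : ℝ → ℝ := fun y => Q y + 2 * (U g c y * v (L - t) y ^ 2)
  have hP : ∀ y, HasDerivAt P (P' y) y := fun y => by
    have hr := H.rd (L - t) y hd
    have e1 : U h' c y = v (L - t) y * U g c y + r (L - t) y * U g' c y := by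
      have h1 := hd_space continuous_const one_le H.hh c y
      rw [show T (fun _ => 1) h c = fun w => r (L - t) w * U g c w from funext fun w => H.eq (L - t) w] at h1
      exact h1.unique (hr.fun_mul (hd_space continuous_const one_le H.hg c y))
    refine (((hr.const_mul 2).fun_mul (hd_space2 H.hh hc0.ne' y)).fun_sub
      ((hr.fun_pow 2).fun_mul (hd_space2 H.hg hc0.ne' y))).congr_deriv ?_
    simp only [P', Q]
    rw [e1]
    push_cast
    ring
  have cT : ∀ {k f : ℝ → ℝ}, Continuous k → (∀ w, |k w| ≤ exp |w|) → Continuous f →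
      (∀ w, |f w| ≤ K * exp |w|) → Continuous fun y => T k f c y := fun a b e f =>
    continuous_T a b e f continuous_const continuous_id
  have cr : Continuous (r (L - t)) := continuous_iff_continuousAt.2 fun y => (H.rd _ y hd).continuousAt
  have cv : Continuous fun y => U g c y * v (L - t) y ^ 2 :=
    (cT continuous_const one_le H.hg.c H.hg.b).mul ((H.vc _ hd).pow 2)
  have cQ : Continuous Q :=
    ((continuous_const.mul cr).mul (continuous_const.mul (cT continuous_id id_le H.hh.c' H.hh.b'))).sub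
      ((cr.pow 2).mul (continuous_const.mul (cT continuous_id id_le H.hg.c' H.hg.b')))
  have cP' : Continuous P' := cQ.add (continuous_const.mul cv)
  -- growth
  have bT : ∀ {k f : ℝ → ℝ}, Continuous k → (∀ w, |k w| ≤ exp |w|) → Continuous f →
      (∀ w, |f w| ≤ K * exp |w|) → ∀ z, |T k f c (x + s * z)| ≤ E * exp (√L * |z|) := fun a b e f z =>
    (abs_T_le a b e f hcL (line_le htL.le x z)).trans_eq (by rw [exp_add]; ring)
  have br : ∀ y, |2 * r (L - t) y| ≤ 2 ∧ |r (L - t) y ^ 2| ≤ 1 := fun y => by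
    refine ⟨?_, ?_⟩
    · rw [abs_mul, abs_two]; exact mul_le_of_le_one_right zero_le_two (H.rb _ y hd)
    · rw [abs_pow]; exact pow_le_one₀ (abs_nonneg _) (H.rb _ y hd)
  have bv : ∀ z, |U g c (x + s * z) * v (L - t) (x + s * z) ^ 2| ≤ E * exp (√L * |z|) := fun z => by
    rw [abs_mul, abs_pow]
    exact (mul_le_of_le_one_right (abs_nonneg _) (pow_le_one₀ (abs_nonneg _) (H.vb _ _ hd))).trans
      (bT continuous_const one_le H.hg.c H.hg.b z)
  have bQ : ∀ z, |Q (x + s * z)| ≤ 3 / c * E * exp (√L * |z|) := fun z => by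
    refine (abs_sub _ _).trans ?_
    rw [abs_mul (2 * r (L - t) (x + s * z)), abs_mul (r (L - t) (x + s * z) ^ 2), abs_mul (1 / c), abs_mul (1 / c),
      abs_of_nonneg (show 0 ≤ 1 / c by positivity)]
    refine (add_le_add (mul_le_mul (br _).1 (mul_le_mul_of_nonneg_left (bT continuous_id id_le H.hh.c' H.hh.b' z)
      (by positivity)) (by positivity) zero_le_two) (mul_le_mul (br _).2 (mul_le_mul_of_nonneg_left
      (bT continuous_id id_le H.hg.c' H.hg.b' z) (by positivity)) (by positivity) zero_le_one)).trans_eq ?_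
    ring
  have bP : ∀ z, |P (x + s * z)| ≤ 3 * E * exp (√L * |z|) := fun z => by
    refine (abs_sub _ _).trans ?_
    rw [abs_mul (2 * r (L - t) (x + s * z)), abs_mul (r (L - t) (x + s * z) ^ 2)]
    refine (add_le_add (mul_le_mul (br _).1 (bT continuous_const one_le H.hh.c' H.hh.b' z) (abs_nonneg _) zero_le_two)
      (mul_le_mul (br _).2 (bT continuous_const one_le H.hg.c' H.hg.b' z) (abs_nonneg _) zero_le_one)).trans_eq ?_
    ring
  have hib : ∫ z, z * P (x + s * z) ∂gaussianReal 0 1 = ∫ z, s * P' (x + s * z) ∂gaussianReal 0 1 := by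
    refine Vale.Agent.P150.stein_one (C := (3 + s * (3 / c + 2)) * E) (M := √L) (fun z => ?_) (by fun_prop)
      (fun z => ?_) (fun z => ?_)
    · exact ((hP _).comp z (((hasDerivAt_id' z).const_mul s).const_add x)).congr_deriv (by ring)
    · refine (bP z).trans (mul_le_mul_of_nonneg_right (mul_le_mul_of_nonneg_right ?_ hE) (exp_pos _).le)
      exact le_add_of_nonneg_right (by positivity)
    · rw [abs_mul, abs_of_pos hs0]
      have h2 : |P' (x + s * z)| ≤ (3 / c + 2) * E * exp (√L * |z|) := by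
        refine ((abs_add_le _ _).trans (add_le_add (bQ z) ?_)).trans_eq (b := 3 / c * E * exp (√L * |z|) + 2 * (E * exp (√L * |z|))) (by ring)
        rw [abs_mul, abs_two]; exact mul_le_mul_of_nonneg_left (bv z) zero_le_two
      refine (mul_le_mul_of_nonneg_left h2 hs0.le).trans ?_
      rw [show s * ((3 / c + 2) * E * exp (√L * |z|)) = s * (3 / c + 2) * E * exp (√L * |z|) by ring]
      exact mul_le_mul_of_nonneg_right (mul_le_mul_of_nonneg_right (le_add_of_nonneg_left (by norm_num)) hE)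
        (exp_pos _).le
  have ge : ∀ {f : ℝ → ℝ} {A B : ℝ}, Continuous f → (∀ z, |f z| ≤ A * exp (B * |z|)) →
      Integrable f (gaussianReal 0 1) := fun hf hb =>
    ((gauss_exp_abs _).const_mul _).mono' hf.aestronglyMeasurable (Eventually.of_forall hb)
  have iQ : Integrable (fun z => Q (x + s * z)) (gaussianReal 0 1) := ge (by fun_prop) bQ
  have iv : Integrable (fun z => U g c (x + s * z) * v (L - t) (x + s * z) ^ 2) (gaussianReal 0 1) :=
    ge (cv.comp (by fun_prop : Continuous fun z => x + s * z)) bv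
  have cP : Continuous P := continuous_iff_continuousAt.2 fun y => (hP y).continuousAt
  have izP : Integrable (fun z => z * P (x + s * z)) (gaussianReal 0 1) := by
    refine ge (A := 3 * E) (B := √L + 1) (by fun_prop) fun z => ?_
    rw [abs_mul, add_mul, one_mul, exp_add]
    exact (mul_le_mul (id_le z) (bP z) (abs_nonneg _) (exp_pos _).le).trans_eq (by ring)
  have hcs : ∀ z, Fd t z = 1 / (2 * s) * (z * P (x + s * z)) - 1 / 2 * Q (x + s * z) := fun z => by
    simp only [Fd, dt, P, Q, ← hc, ← hs]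
    field_simp
    ring
  simp only [hcs]
  rw [integral_sub (izP.const_mul _) (iQ.const_mul _), integral_const_mul, integral_const_mul, hib,
    integral_const_mul, integral_add iQ (iv.const_mul 2), integral_const_mul]
  field_simp
  ring

end Ratio

end Heat

open Heat

variable {F f1 f2 : ℝ → ℝ}

namespace Cvx

variable (h : Cvx F f1 f2) {m : ℝ} (hm : 0 ≤ m) (hm1 : m ≤ 1)
include h hm hm1

lemma exp_le (w : ℝ) : exp (m * F w) ≤ exp |F 0| * exp |w| := by
  rw [← exp_add]
  refine exp_le_exp.2 ((le_abs_self _).trans ?_)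
  rw [abs_mul, abs_of_nonneg hm]
  refine (mul_le_of_le_one_left (abs_nonneg _) hm1).trans ?_
  have h1 := h.lip 0 w
  rw [zero_add] at h1
  linarith [abs_sub_abs_le_abs_sub (F w) (F 0)]

lemma hg_mass : Hg (fun w => exp (m * F w)) (fun w => m * f1 w * exp (m * F w)) (exp |F 0|) := by
  have c0 := h.cont0
  have c1 := h.cont1
  refine ⟨fun w => (((h.d0 w).const_mul m).exp).congr_deriv (by ring), by fun_prop, fun w => ?_, fun w => ?_⟩
  · rw [abs_exp]; exact h.exp_le hm hm1 w
  · rw [abs_mul, abs_exp, abs_mul, abs_of_nonneg hm]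
    exact (mul_le_of_le_one_left (exp_pos _).le (mul_le_one₀ hm1 (abs_nonneg _) (h.abs1 w))).trans (h.exp_le hm hm1 w)

lemma hg_num : Hg (fun w => exp (m * F w) * f1 w) (fun w => (m * f1 w ^ 2 + f2 w) * exp (m * F w)) (exp |F 0|) := by
  have c0 := h.cont0
  have c1 := h.cont1
  have c2 := h.cont2
  refine ⟨fun w => (((h.d0 w).const_mul m).exp.fun_mul (h.d1 w)).congr_deriv (by ring), by fun_prop, fun w => ?_,
    fun w => ?_⟩
  · rw [abs_mul, abs_exp]
    exact (mul_le_of_le_one_right (exp_pos _).le (h.abs1 w)).trans (h.exp_le hm hm1 w)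
  · have e0 : 0 ≤ m * f1 w ^ 2 + f2 w := add_nonneg (mul_nonneg hm (sq_nonneg _)) (h.nonneg2 w)
    have e1 : m * f1 w ^ 2 + f2 w ≤ 1 := by
      linarith [h.le2 w, mul_le_of_le_one_left (sq_nonneg (f1 w)) hm1]
    rw [abs_mul, abs_exp, abs_of_nonneg e0]
    exact (mul_le_of_le_one_left (exp_pos _).le e1).trans (h.exp_le hm hm1 w)

omit h hm hm1 in
lemma U_mass (d y : ℝ) : U (fun w => exp (m * F w)) √d y = mass m d F y := by simp [T, mass]

omit hm hm1 in
lemma exp_smo (d y : ℝ) : exp (m * smo m d F y) = mass m d F y := by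
  rcases eq_or_ne m 0 with rfl | hm0
  · simp [mass]
  · rw [smo, if_neg hm0, mul_div_cancel₀ _ hm0, exp_log (h.mass_pos m d y)]

lemma ratio : Ratio (fun w => exp (m * F w)) (fun w => m * f1 w * exp (m * F w)) (fun w => exp (m * F w) * f1 w)
    (fun w => (m * f1 w ^ 2 + f2 w) * exp (m * F w)) (exp |F 0|) (fun d => avT m d F f1) (fun d => vS m d F f1 f2) where
  hg := h.hg_mass hm hm1
  hh := h.hg_num hm hm1
  pos d y := by rw [U_mass]; exact h.mass_pos m d y
  eq d y := by
    rw [U_mass, avT, div_mul_cancel₀ _ (h.mass_pos m d y).ne']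
    simp [T]
  rb d y hd := (cvx_step h hm hm1 hd).abs1 y
  vb d y hd := (cvx_step h hm hm1 hd).abs2 y
  rd d y hd := (cvx_step h hm hm1 hd).d1 y
  vc d hd := (cvx_step h hm hm1 hd).cont2

lemma ratio_one : Ratio (fun w => exp (m * F w)) (fun w => m * f1 w * exp (m * F w)) (fun w => exp (m * F w))
    (fun w => m * f1 w * exp (m * F w)) (exp |F 0|) (fun _ _ => 1) (fun _ _ => 0) where
  hg := h.hg_mass hm hm1
  hh := h.hg_mass hm hm1
  pos d y := by rw [U_mass]; exact h.mass_pos m d y
  eq d y := (one_mul _).symm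
  rb d y _ := by simp
  vb d y _ := by simp
  rd d y _ := hasDerivAt_const _ _
  vc d _ := continuous_const

end Cvx

/-- the squared slope carried back has derivative the carried squared curvature -/
theorem gs_deriv (h : Cvx F f1 f2) {m L : ℝ} (hm : 0 ≤ m) (hm1 : m ≤ 1) (_hL : 0 ≤ L) (x : ℝ) :
    ContinuousOn (Gs m L F f1 x) (Set.Icc 0 L) ∧
      ∀ t ∈ Set.Ioo 0 L, HasDerivAt (Gs m L F f1 x) (Gd m L F f1 f2 x t) t := by
  have R := h.ratio hm hm1
  have R1 := h.ratio_one hm hm1
  have hD : ∀ t, mass m t (smo m (L - t) F) x = Nf (fun w => exp (m * F w)) (fun w => exp (m * F w)) L x t := fun t =>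
    integral_congr_ae (Eventually.of_forall fun z => by
      show exp (m * smo m (L - t) F (x + √t * z)) = U (fun w => exp (m * F w)) √(L - t) (x + √t * z) ^ 2 / U (fun w => exp (m * F w)) √(L - t) (x + √t * z)
      rw [h.exp_smo, Cvx.U_mass, sq, mul_div_assoc, div_self (h.mass_pos _ _ _).ne', mul_one])
  have hN : ∀ t, ∫ z, exp (m * smo m (L - t) F (x + √t * z)) * avT m (L - t) F f1 (x + √t * z) ^ 2
      ∂gaussianReal 0 1 = Nf (fun w => exp (m * F w)) (fun w => exp (m * F w) * f1 w) L x t := fun t =>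
    integral_congr_ae (Eventually.of_forall fun z => by
      show exp (m * smo m (L - t) F (x + √t * z)) * avT m (L - t) F f1 (x + √t * z) ^ 2 =
        U (fun w => exp (m * F w) * f1 w) √(L - t) (x + √t * z) ^ 2 / U (fun w => exp (m * F w)) √(L - t) (x + √t * z)
      rw [h.exp_smo, R.eq, Cvx.U_mass]
      field_simp [(h.mass_pos m (L - t) (x + √t * z)).ne'])
  have hpos : ∀ t, 0 ≤ t → t ≤ L → 0 < Nf (fun w => exp (m * F w)) (fun w => exp (m * F w)) L x t := fun t _ ht => by
    rw [← hD]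
    exact (cvx_step h hm hm1 (by linarith)).mass_pos m t x
  have hGs : ∀ t, Gs m L F f1 x t = Nf (fun w => exp (m * F w)) (fun w => exp (m * F w) * f1 w) L x t / Nf (fun w => exp (m * F w)) (fun w => exp (m * F w)) L x t := fun t => by
    rw [← hD, ← hN]; rfl
  rw [show Gs m L F f1 x = fun t => Nf (fun w => exp (m * F w)) (fun w => exp (m * F w) * f1 w) L x t / Nf (fun w => exp (m * F w)) (fun w => exp (m * F w)) L x t from funext hGs]
  refine ⟨(continuousOn_Nf R L x).div (continuousOn_Nf R1 L x) fun t ht => (hpos t ht.1 ht.2).ne', fun t ht => ?_⟩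
  have hne := (hpos t ht.1.le ht.2.le).ne'
  refine ((hasDerivAt_Nf R x ht.1 ht.2).fun_div (hasDerivAt_Nf R1 x ht.1 ht.2) hne).congr_deriv ?_
  have e : Gd m L F f1 f2 x t = (∫ z, U (fun w => exp (m * F w)) √(L - t) (x + √t * z) * vS m (L - t) F f1 f2 (x + √t * z) ^ 2
      ∂gaussianReal 0 1) / Nf (fun w => exp (m * F w)) (fun w => exp (m * F w)) L x t := by
    rw [← hD, Gd, avT]
    congr 1
    exact integral_congr_ae (Eventually.of_forall fun z => by
      show exp (m * smo m (L - t) F (x + √t * z)) * _ = U (fun w => exp (m * F w)) √(L - t) (x + √t * z) * _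
      rw [h.exp_smo, Cvx.U_mass])
  rw [e]
  simp only [zero_pow two_ne_zero, mul_zero, integral_zero, sub_zero]
  field_simp

lemma avT_zero (_h : Cvx F f1 f2) (m : ℝ) (P : ℝ → ℝ) (x : ℝ) : avT m 0 F P x = P x := by
  simp [avT, mass]

lemma smo_zero (m : ℝ) (F : ℝ → ℝ) (x : ℝ) : smo m 0 F x = F x := by
  rcases eq_or_ne m 0 with rfl | hm0 <;> simp [smo, mass, *]

lemma Gs_start (h : Cvx F f1 f2) {m L : ℝ} (hm : 0 ≤ m) (hm1 : m ≤ 1) (hL : 0 ≤ L) (x : ℝ) :
    Gs m L F f1 x 0 = avT m L F f1 x ^ 2 := by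
  rw [Gs, sub_zero, avT_zero (cvx_step h hm hm1 hL)]

lemma Gs_end (h : Cvx F f1 f2) (m L x : ℝ) :
    Gs m L F f1 x L = avT m L F (fun y => f1 y ^ 2) x := by
  rw [Gs, sub_self, funext (smo_zero m F)]
  congr 1
  funext y
  rw [avT_zero h]

/-- slope can close its deficit at most exponentially fast -/
theorem step_sq_le (h : Cvx F f1 f2) {m L : ℝ} (hm : 0 ≤ m) (hm1 : m ≤ 1) (hL : 0 ≤ L) (x : ℝ) :
    (1 - avT m L F f1 x ^ 2) * exp (-L) ≤ 1 - avT m L F (fun y => f1 y ^ 2) x := by
  obtain ⟨hc, hd⟩ := gs_deriv h hm hm1 hL x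
  have hk : ∀ t ∈ Set.Ioo 0 L, 0 ≤ 1 - Gs m L F f1 x t - Gd m L F f1 f2 x t := fun t ht => by
    have h' := cvx_step h hm hm1 (d := L - t) (by linarith [ht.2])
    have hA : ∀ y, |avT m (L - t) F f1 y ^ 2| ≤ 1 := fun y => by rw [abs_sq]; exact h'.sq1 y
    have hle : Gd m L F f1 f2 x t ≤ avT m t (smo m (L - t) F) (fun y => 1 - avT m (L - t) F f1 y ^ 2) x := by
      refine avT_mono h' m t x (h'.cont2.pow 2) (B := 1) (fun y => ?_) (continuous_const.sub (h'.cont1.pow 2))
        (B' := 1) (fun y => ?_) fun y => ?_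
      · show |vS m (L - t) F f1 f2 y ^ 2| ≤ 1
        rw [abs_pow]; exact pow_le_one₀ (abs_nonneg _) (h'.abs2 y)
      · rw [abs_of_nonneg (by linarith [h'.sq1 y])]; linarith [sq_nonneg (avT m (L - t) F f1 y)]
      · exact (sq_le (h'.nonneg2 y) (le_of_abs_le (h'.abs2 y))).trans (h'.le2 y)
    rw [avT_sub h' m t x (P := fun _ => (1:ℝ)) (Q := fun y => avT m (L - t) F f1 y ^ 2) continuous_const
      (fun _ => le_of_eq abs_one) (h'.cont1.pow 2) hA, avT_const h'] at hle
    rw [Gs]
    linarith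
  have hmono : MonotoneOn (fun t => (1 - Gs m L F f1 x t) * exp t) (Set.Icc 0 L) := by
    refine monotoneOn_of_hasDerivWithinAt_nonneg (convex_Icc 0 L)
      ((continuousOn_const.sub hc).mul continuous_exp.continuousOn)
      (f' := fun t => (1 - Gs m L F f1 x t - Gd m L F f1 f2 x t) * exp t) (fun t ht => ?_) fun t ht => ?_
    · rw [interior_Icc] at ht
      exact ((((hd t ht).const_sub 1).fun_mul (hasDerivAt_exp t)).congr_deriv (by ring)).hasDerivWithinAt
    · rw [interior_Icc] at ht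
      exact mul_nonneg (hk t ht) (exp_pos _).le
  have := hmono (Set.left_mem_Icc.2 hL) (Set.right_mem_Icc.2 hL) hL
  simp only [exp_zero, mul_one, Gs_start h hm hm1 hL, Gs_end h] at this
  calc (1 - avT m L F f1 x ^ 2) * exp (-L)
      ≤ (1 - avT m L F (fun y => f1 y ^ 2) x) * exp L * exp (-L) := mul_le_mul_of_nonneg_right this (exp_pos _).le
    _ = 1 - avT m L F (fun y => f1 y ^ 2) x := by rw [mul_assoc, ← exp_add]; simp
where
  sq_le {v : ℝ} (h0 : 0 ≤ v) (h1 : v ≤ 1) : v ^ 2 ≤ v := by nlinarith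

/-- the variance gained in one step is at most the length times the squared curvature -/
theorem step_var_le (h : Cvx F f1 f2) {m L M : ℝ} (hm : 0 ≤ m) (hm1 : m ≤ 1) (hL : 0 ≤ L)
    (hM : ∀ d ∈ Set.Icc 0 L, ∀ y, vS m d F f1 f2 y ≤ M) (x : ℝ) :
    avT m L F (fun y => f1 y ^ 2) x - avT m L F f1 x ^ 2 ≤ L * M ^ 2 := by
  obtain ⟨hc, hd⟩ := gs_deriv h hm hm1 hL x
  have := Convex.image_sub_le_mul_sub_of_deriv_le (convex_Icc 0 L) hc
    (fun t ht => by
      rw [interior_Icc] at ht
      exact (hd t ht).differentiableAt.differentiableWithinAt)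
    (C := M ^ 2) (fun t ht => by
      rw [interior_Icc] at ht
      rw [(hd t ht).deriv]
      have hdt : 0 ≤ L - t := by linarith [ht.2]
      have h' := cvx_step h hm hm1 hdt
      have hle : ∀ y, vS m (L - t) F f1 f2 y ^ 2 ≤ M ^ 2 := fun y =>
        pow_le_pow_left₀ (h'.nonneg2 y) (hM _ ⟨hdt, by linarith [ht.1]⟩ y) 2
      rw [Gd, ← avT_const h' m t x (M ^ 2)]
      refine avT_mono h' m t x (h'.cont2.pow 2) (B := 1) (fun y => ?_) continuous_const (fun _ => le_rfl) hle
      show |vS m (L - t) F f1 f2 y ^ 2| ≤ 1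
      rw [abs_pow]; exact pow_le_one₀ (abs_nonneg _) (h'.abs2 y))
    0 (Set.left_mem_Icc.2 hL) L (Set.right_mem_Icc.2 hL) hL
  rw [Gs_start h hm hm1 hL, Gs_end h, sub_zero] at this
  linarith

end Vale.Agent.P146.Lower.Marg
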