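import Vale.Agent.P146.Lower.Marg.Bounds

/-! P146, polynomial lower bound: increments of the correlations along the levels. -/

open MeasureTheory ProbabilityTheory Real Finset Filter
open Vale.Agent.P168.MP (lin)
open Vale.Agent.P157.Par (Prof Vn tlN)

noncomputable section

namespace Vale.Agent.P146.Lower.Marg

set_option linter.unusedVariables false

variable {F f1 f2 : ℝ → ℝ}

/-- continuous and bounded -/
def Bc (P : ℝ → ℝ) : Prop := Continuous P ∧ ∃ B, ∀ y, |P y| ≤ B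

namespace Bc

variable {P Q : ℝ → ℝ}

lemma const (a : ℝ) : Bc fun _ => a := ⟨continuous_const, |a|, fun _ => le_rfl⟩

lemma add (hP : Bc P) (hQ : Bc Q) : Bc fun y => P y + Q y := by
  obtain ⟨hc, B, hB⟩ := hP
  obtain ⟨hc', B', hB'⟩ := hQ
  exact ⟨hc.add hc', B + B', fun y => (abs_add_le _ _).trans (add_le_add (hB y) (hB' y))⟩

lemma mul (hP : Bc P) (hQ : Bc Q) : Bc fun y => P y * Q y := by
  obtain ⟨hc, B, hB⟩ := hP
  obtain ⟨hc', B', hB'⟩ := hQ
  refine ⟨hc.mul hc', B * B', fun y => ?_⟩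
  rw [abs_mul]
  exact mul_le_mul (hB y) (hB' y) (abs_nonneg _) ((abs_nonneg _).trans (hB y))

lemma cmul (hP : Bc P) (a : ℝ) : Bc fun y => a * P y := (Bc.const a).mul hP

lemma sub (hP : Bc P) (hQ : Bc Q) : Bc fun y => P y - Q y := by
  simpa [sub_eq_add_neg] using hP.add (hQ.cmul (-1))

lemma pow (hP : Bc P) : ∀ n : ℕ, Bc fun y => P y ^ n
  | 0 => by simpa using Bc.const 1
  | n + 1 => by simpa only [pow_succ] using (pow hP n).mul hP

lemma avT (hP : Bc P) (h : Cvx F f1 f2) (m d : ℝ) : Bc (avT m d F P) := by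
  obtain ⟨hc, B, hB⟩ := hP
  exact ⟨continuous_avT h m d hc hB, B, fun y => avT_abs_le h m d y hc hB⟩

end Bc

lemma Cvx.bc1 (h : Cvx F f1 f2) : Bc f1 := ⟨h.cont1, 1, h.abs1⟩
lemma Cvx.bc2 (h : Cvx F f1 f2) : Bc f2 := ⟨h.cont2, 1, h.abs2⟩

/-! ### linearity with the conditions bundled -/

section avT

variable (h : Cvx F f1 f2) (m d x : ℝ) {P Q : ℝ → ℝ}
include h

lemma avT_add' (hP : Bc P) (hQ : Bc Q) :
    avT m d F (fun y => P y + Q y) x = avT m d F P x + avT m d F Q x := by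
  obtain ⟨hc, B, hB⟩ := hP
  obtain ⟨hc', B', hB'⟩ := hQ
  exact avT_add h m d x hc hB hc' hB'

lemma avT_sub' (hP : Bc P) (hQ : Bc Q) :
    avT m d F (fun y => P y - Q y) x = avT m d F P x - avT m d F Q x := by
  obtain ⟨hc, B, hB⟩ := hP
  obtain ⟨hc', B', hB'⟩ := hQ
  exact avT_sub h m d x hc hB hc' hB'

lemma avT_mono' (hP : Bc P) (hQ : Bc Q) (hle : ∀ y, P y ≤ Q y) : avT m d F P x ≤ avT m d F Q x := by
  obtain ⟨hc, B, hB⟩ := hP
  obtain ⟨hc', B', hB'⟩ := hQ
  exact avT_mono h m d x hc hB hc' hB' hle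

lemma sq_avT_le' (hP : Bc P) : avT m d F P x ^ 2 ≤ avT m d F (fun y => P y ^ 2) x := by
  obtain ⟨hc, B, hB⟩ := hP
  exact sq_avT_le h m d x hc hB

lemma four_avT_le (hP : Bc P) : avT m d F P x ^ 4 ≤ avT m d F (fun y => P y ^ 4) x := by
  have h1 := sq_avT_le' h m d x hP
  have h2 := sq_avT_le' h m d x (hP.pow 2)
  rw [show (fun y => (P y ^ 2) ^ 2) = fun y => P y ^ 4 from funext fun y => by ring] at h2
  refine le_trans ?_ h2
  calc avT m d F P x ^ 4 = (avT m d F P x ^ 2) ^ 2 := by ring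
    _ ≤ _ := pow_le_pow_left₀ (sq_nonneg _) h1 2

end avT

/-! ### one step, pointwise -/

section step

variable (h : Cvx F f1 f2) {m L t : ℝ} (hm : 0 ≤ m) (hm1 : m ≤ 1) (x : ℝ)
include h hm hm1

/-- variance carried along a step -/
lemma mid_var (ht : 0 ≤ t) (htL : t ≤ L) :
    0 ≤ avT m t (smo m (L - t) F) (vS m (L - t) F f1 f2) x ∧
    avT m t (smo m (L - t) F) (vS m (L - t) F f1 f2) x =
      vS m L F f1 f2 x - m * (Gs m L F f1 x t - avT m L F f1 x ^ 2) := by
  have hd : 0 ≤ L - t := sub_nonneg.2 htL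
  have hK := cvx_step h hm hm1 hd
  refine ⟨avT_nonneg hK m t x hK.nonneg2, ?_⟩
  set K := smo m (L - t) F
  set u := avT m (L - t) F f1
  set v := vS m (L - t) F f1 f2
  have hq := (h.bc1.pow 2).cmul m
  have hu := (hK.bc1.pow 2).cmul m
  have e : (fun y => v y + m * u y ^ 2) = avT m (L - t) F fun y => f2 y + m * f1 y ^ 2 :=
    funext fun y => by rw [avT_add' h m _ y h.bc2 hq, avT_const_mul]; simp only [v, u, vS]; ring
  have e2 : avT m t K (fun y => v y + m * u y ^ 2) x = avT m L F (fun y => f2 y + m * f1 y ^ 2) x := by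
    obtain ⟨hc, B, hB⟩ := h.bc2.add hq
    rw [e, avT_tower_at h ht hd hc hB x, add_sub_cancel]
  rw [avT_add' hK m t x hK.bc2 hu, avT_const_mul, avT_add' h m L x h.bc2 hq, avT_const_mul] at e2
  simp only [vS, Gs] at e2 ⊢
  linarith

lemma Gd_bounds (htL : t ≤ L) :
    avT m t (smo m (L - t) F) (vS m (L - t) F f1 f2) x ^ 2 ≤ Gd m L F f1 f2 x t ∧
      0 ≤ Gd m L F f1 f2 x t ∧ Gd m L F f1 f2 x t ≤ 1 := by
  have hK := cvx_step h hm hm1 (sub_nonneg.2 htL)
  refine ⟨sq_avT_le' hK m t x hK.bc2, avT_nonneg hK m t x fun y => sq_nonneg _, ?_⟩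
  rw [Gd, ← avT_const hK m t x 1]
  exact avT_mono' hK m t x (hK.bc2.pow 2) (Bc.const 1) fun y => by
    rw [← sq_abs]; exact pow_le_one₀ (abs_nonneg _) (hK.abs2 y)

lemma carried_bounds (hL : 0 ≤ L) (ht : t ∈ Set.Icc 0 L) :
    0 ≤ Gs m L F f1 x t - avT m L F f1 x ^ 2 ∧ Gs m L F f1 x t - avT m L F f1 x ^ 2 ≤ t := by
  obtain ⟨hc, hd⟩ := gs_deriv h hm hm1 hL x
  have hdiff : DifferentiableOn ℝ (Gs m L F f1 x) (interior (Set.Icc 0 L)) := by
    rw [interior_Icc]
    exact fun s hs => (hd s hs).differentiableAt.differentiableWithinAt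
  have hb : ∀ s ∈ interior (Set.Icc 0 L), 0 ≤ deriv (Gs m L F f1 x) s ∧ deriv (Gs m L F f1 x) s ≤ 1 := by
    intro s hs
    rw [interior_Icc] at hs
    rw [(hd s hs).deriv]
    exact (Gd_bounds h hm hm1 x hs.2.le).2
  have h1 := (convex_Icc 0 L).mul_sub_le_image_sub_of_le_deriv hc hdiff (fun s hs => (hb s hs).1)
    0 (Set.left_mem_Icc.2 hL) t ht ht.1
  have h2 := (convex_Icc 0 L).image_sub_le_mul_sub_of_deriv_le hc hdiff (fun s hs => (hb s hs).2)
    0 (Set.left_mem_Icc.2 hL) t ht ht.1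
  rw [Gs_start h hm hm1 hL] at h1 h2
  exact ⟨by linarith, by linarith⟩

/-- the variance gained is at least the length times the squared curvature, up to second order -/
theorem step_ge (hL : 0 ≤ L) :
    L * vS m L F f1 f2 x ^ 2 - 2 * m * L ^ 2 ≤ avT m L F (fun y => f1 y ^ 2) x - avT m L F f1 x ^ 2 := by
  obtain ⟨hc, hd⟩ := gs_deriv h hm hm1 hL x
  have hW := cvx_step h hm hm1 hL
  have hW0 := hW.nonneg2 x
  have hW1 : vS m L F f1 f2 x ≤ 1 := le_of_abs_le (hW.abs2 x)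
  have := (convex_Icc 0 L).mul_sub_le_image_sub_of_le_deriv hc
    (fun t ht => by
      rw [interior_Icc] at ht
      exact (hd t ht).differentiableAt.differentiableWithinAt)
    (C := vS m L F f1 f2 x ^ 2 - 2 * m * L) (fun t ht => by
      rw [interior_Icc] at ht
      rw [(hd t ht).deriv]
      obtain ⟨hX0, hX⟩ := carried_bounds h hm hm1 x hL ⟨ht.1.le, ht.2.le⟩
      set X := Gs m L F f1 x t - avT m L F f1 x ^ 2
      have hA := (Gd_bounds h hm hm1 x ht.2.le).1
      rw [(mid_var h hm hm1 x ht.1.le ht.2.le).2] at hA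
      have h1 : m * X * vS m L F f1 f2 x ≤ m * L :=
        (mul_le_of_le_one_right (mul_nonneg hm hX0) hW1).trans
          (mul_le_mul_of_nonneg_left (hX.trans ht.2.le) hm)
      nlinarith [sq_nonneg (m * X)])
    0 (Set.left_mem_Icc.2 hL) L (Set.right_mem_Icc.2 hL) hL
  rw [Gs_start h hm hm1 hL, Gs_end h, sub_zero] at this
  linarith

/-- and at most that, with a second order saving, up to the spread of the curvature -/
theorem step_le (hL : 0 ≤ L) {E : ℝ} (hE : 0 ≤ E)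
    (hvar : ∀ t ∈ Set.Ioo 0 L,
      Gd m L F f1 f2 x t ≤ avT m t (smo m (L - t) F) (vS m (L - t) F f1 f2) x ^ 2 + E) :
    avT m L F (fun y => f1 y ^ 2) x - avT m L F f1 x ^ 2 +
        m * vS m L F f1 f2 x * (avT m L F (fun y => f1 y ^ 2) x - avT m L F f1 x ^ 2) ^ 2 ≤
      L * (vS m L F f1 f2 x ^ 2 + 3 * L ^ 2 + 3 * E) := by
  obtain ⟨hc, hd⟩ := gs_deriv h hm hm1 hL x
  set U := avT m L F f1 x
  set W := vS m L F f1 f2 x
  have hW := cvx_step h hm hm1 hL
  have hW0 : 0 ≤ W := hW.nonneg2 x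
  have hW1 : W ≤ 1 := le_of_abs_le (hW.abs2 x)
  have hcX : ContinuousOn (fun t => Gs m L F f1 x t - U ^ 2) (Set.Icc 0 L) := hc.sub continuousOn_const
  have hdp : ∀ t ∈ Set.Ioo 0 L, HasDerivAt (fun t => (Gs m L F f1 x t - U ^ 2) +
      m * W * (Gs m L F f1 x t - U ^ 2) ^ 2)
      (Gd m L F f1 f2 x t * (1 + 2 * (m * W * (Gs m L F f1 x t - U ^ 2)))) t := fun t ht => by
    have h1 := (hd t ht).sub_const (U ^ 2)
    exact (h1.fun_add ((h1.fun_pow 2).const_mul (m * W))).congr_deriv (by push_cast; ring)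
  have := (convex_Icc 0 L).image_sub_le_mul_sub_of_deriv_le
    (hcX.add (continuousOn_const.mul (hcX.pow 2)))
    (fun t ht => by
      rw [interior_Icc] at ht
      exact (hdp t ht).differentiableAt.differentiableWithinAt)
    (C := W ^ 2 + 3 * L ^ 2 + 3 * E) (fun t ht => by
      rw [interior_Icc] at ht
      refine le_of_eq_of_le (hdp t ht).deriv ?_
      obtain ⟨hX0, hX⟩ := carried_bounds h hm hm1 x hL ⟨ht.1.le, ht.2.le⟩
      obtain ⟨hA0, hA⟩ := mid_var h hm hm1 x ht.1.le ht.2.le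
      have hv := hvar t ht
      rw [hA] at hA0 hv
      set X := Gs m L F f1 x t - U ^ 2
      set p := m * X
      have hp : 0 ≤ p := mul_nonneg hm hX0
      have hpW : W * p ≤ 1 := mul_le_one₀ hW1 hp (by linarith)
      have hpL : p ^ 2 ≤ L ^ 2 :=
        pow_le_pow_left₀ hp ((mul_le_of_le_one_left hX0 hm1).trans (hX.trans ht.2.le)) 2
      have h1 : (W - p) ^ 2 * (1 + 2 * (W * p)) ≤ W ^ 2 + 3 * p ^ 2 := by
        have e : (W - p) ^ 2 * (1 + 2 * (W * p)) =
            W ^ 2 - 2 * (W * p) * (1 - W ^ 2) + p ^ 2 * (1 - 4 * W ^ 2) + 2 * p ^ 2 * (W * p) := by ring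
        rw [e]
        have : 0 ≤ 2 * (W * p) * (1 - W ^ 2) :=
          mul_nonneg (by positivity) (sub_nonneg.2 (pow_le_one₀ hW0 hW1))
        nlinarith [mul_nonneg (sq_nonneg p) (sq_nonneg W), mul_nonneg (sq_nonneg p) (sub_nonneg.2 hpW)]
      have hnn : 0 ≤ 1 + 2 * (W * p) := by positivity
      calc Gd m L F f1 f2 x t * (1 + 2 * (m * W * X))
          = Gd m L F f1 f2 x t * (1 + 2 * (W * p)) := by simp only [p]; ring
        _ ≤ ((W - p) ^ 2 + E) * (1 + 2 * (W * p)) := mul_le_mul_of_nonneg_right hv hnn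
        _ = (W - p) ^ 2 * (1 + 2 * (W * p)) + E * (1 + 2 * (W * p)) := by ring
        _ ≤ W ^ 2 + 3 * L ^ 2 + 3 * E := by
          linarith [mul_le_mul_of_nonneg_left (show 1 + 2 * (W * p) ≤ 3 by linarith) hE])
    0 (Set.left_mem_Icc.2 hL) L (Set.right_mem_Icc.2 hL) hL
  simp only [Gs_start h hm hm1 hL, Gs_end h, sub_zero, Pi.add_apply, Pi.mul_apply, Pi.pow_apply] at this
  simp only [U, W] at this ⊢
  nlinarith

/-- fourth power of the slope over one step -/
theorem step_four (hL : 0 ≤ L) {D : ℝ} (hLD : L ≤ D) :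
    avT m L F (fun y => f1 y ^ 4) x ≤
      avT m L F f1 x ^ 4 + 8 * L * avT m L F f1 x ^ 2 + 768 * Kz √D * L ^ 2 := by
  set a := avT m L F f1 x
  set b := f1 x
  have hf := h.bc1
  have hD := hf.sub (Bc.const a)
  have hb := hf.sub (Bc.const b)
  have hX : avT m L F (fun y => f1 y ^ 2) x - a ^ 2 ≤ L := by
    simpa using step_var_le h hm hm1 hL (M := 1)
      (fun d hd y => le_of_abs_le ((cvx_step h hm hm1 hd.1).abs2 y)) x
  have hb4 : avT m L F (fun y => (f1 y - b) ^ 4) x ≤ 16 * L ^ 2 * Kz √D := by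
    refine le_of_abs_le (tl_abs_le h hm hm1 (sqrt_le_sqrt hLD) x (G := fun z => (f1 (x + √L * z) - b) ^ 4)
      ?_ (K := 16 * L ^ 2) fun z => ?_)
    · obtain ⟨hc, B, hB⟩ := hb.pow 4
      exact Gr.bdd (hc.comp (by fun_prop)) fun z => hB _
    · have h1 := abs_sub_le_of_deriv h.d1 h.abs2 x (x + √L * z)
      rw [one_mul, add_sub_cancel_left, abs_mul, abs_of_nonneg (sqrt_nonneg L)] at h1
      have h2 : |z| ≤ 2 * exp (|z| / 2) := by linarith [add_one_le_exp (|z| / 2)]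
      rw [abs_pow]
      refine (pow_le_pow_left₀ (abs_nonneg _)
        (h1.trans (mul_le_mul_of_nonneg_left h2 (sqrt_nonneg L))) 4).trans_eq ?_
      rw [mul_pow, mul_pow, ← exp_nat_mul, show √L ^ 4 = L ^ 2 by
        rw [show √L ^ 4 = (√L ^ 2) ^ 2 by ring, sq_sqrt hL]]
      ring_nf
  have hab : (b - a) ^ 4 ≤ avT m L F (fun y => (f1 y - b) ^ 4) x := by
    refine le_of_eq_of_le ?_ (four_avT_le h m L x hb)
    rw [avT_sub' h m L x hf (Bc.const b), avT_const h]
    ring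
  have hsq : avT m L F (fun y => (f1 y - a) ^ 2) x = avT m L F (fun y => f1 y ^ 2) x - a ^ 2 := by
    rw [show (fun y => (f1 y - a) ^ 2) = fun y => f1 y ^ 2 + (-2 * a * f1 y + a ^ 2) from
      funext fun y => by ring, avT_add' h m L x (hf.pow 2) ((hf.cmul _).add (Bc.const _)),
      avT_add' h m L x (hf.cmul _) (Bc.const _), avT_const_mul, avT_const h]
    simp only [a]
    ring
  have h4 : avT m L F (fun y => (f1 y - a) ^ 4) x ≤ 256 * L ^ 2 * Kz √D := by
    have := avT_mono' h m L x (hD.pow 4) (((hb.pow 4).cmul 8).add (Bc.const (8 * (b - a) ^ 4)))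
      fun y => by
        nlinarith [sq_nonneg (f1 y - b - (b - a)), sq_nonneg ((f1 y - b) ^ 2 - (b - a) ^ 2),
          sq_nonneg (f1 y - a)]
    rw [avT_add' h m L x ((hb.pow 4).cmul 8) (Bc.const _), avT_const_mul, avT_const h] at this
    linarith
  have := avT_mono' h m L x (hf.pow 4)
    ((Bc.const (a ^ 4)).add (((hD.cmul (4 * a ^ 3)).add ((hD.pow 2).cmul (8 * a ^ 2))).add ((hD.pow 4).cmul 3)))
    fun y => by
      nlinarith [sq_nonneg ((f1 y - a) * (f1 y - a - a))]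
  rw [avT_add' h m L x (Bc.const _) (((hD.cmul _).add ((hD.pow 2).cmul _)).add ((hD.pow 4).cmul 3)),
    avT_add' h m L x ((hD.cmul _).add ((hD.pow 2).cmul _)) ((hD.pow 4).cmul 3),
    avT_add' h m L x (hD.cmul _) ((hD.pow 2).cmul _), avT_const h, avT_const_mul, avT_const_mul,
    avT_const_mul, avT_sub' h m L x hf (Bc.const a), avT_const h, hsq] at this
  have h8 := mul_le_mul_of_nonneg_left hX (show 0 ≤ 8 * a ^ 2 by positivity)
  simp only [a, sub_self, mul_zero, zero_add] at this h8 h4 ⊢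
  linarith

end step

/-- on a curvature that is positive at the origin, the drop is controlled by the squared slope -/
lemma curv_drop {m₀ : ℝ} (h : Inv F f1 f2 m₀) {B c : ℝ} (hB : 0 ≤ B) (hq : ∀ y, |f2 y - f2 0| ≤ B * y ^ 2)
    (hc : 0 < c) (hc0 : c ≤ f2 0) (y : ℝ) : f2 0 - f2 y ≤ 8 * (B + 1) / c ^ 3 * f1 y ^ 2 := by
  have h1 : f1 0 = 0 := h.toCvx.zero1
  have hc1 : c ≤ 1 := hc0.trans (le_of_abs_le (h.toCvx.abs2 0))
  have key : ∀ y, 0 ≤ y → f2 0 - f2 y ≤ 8 * (B + 1) / c ^ 3 * f1 y ^ 2 := by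
    intro y hy
    set δ := √(c / (2 * (B + 1)))
    have hδ : δ ^ 2 = c / (2 * (B + 1)) := sq_sqrt (by positivity)
    have hδ0 : 0 ≤ δ := sqrt_nonneg _
    have hlow : ∀ s, 0 ≤ s → s ≤ δ → c / 2 * s ≤ f1 s := by
      intro s hs hsδ
      have := (convex_Icc 0 s).mul_sub_le_image_sub_of_le_deriv h.toCvx.cont1.continuousOn
        (fun z _ => (h.d1 z).differentiableAt.differentiableWithinAt) (C := c / 2) (fun z hz => by
          rw [interior_Icc] at hz
          rw [(h.d1 z).deriv]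
          have := (abs_le.1 (hq z)).1
          have : z ^ 2 ≤ δ ^ 2 := pow_le_pow_left₀ hz.1.le (hz.2.le.trans hsδ) 2
          have e : (B + 1) * δ ^ 2 = c / 2 := by rw [hδ]; field_simp
          nlinarith)
        0 (Set.left_mem_Icc.2 hs) s (Set.right_mem_Icc.2 hs) hs
      rw [h1] at this
      linarith
    have hmono : Monotone f1 :=
      monotone_of_deriv_nonneg (fun z => (h.d1 z).differentiableAt) fun z => by
        rw [(h.d1 z).deriv]; exact h.nonneg2 z
    rcases le_total y δ with hyδ | hyδ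
    · have hu : (c / 2 * y) ^ 2 ≤ f1 y ^ 2 := pow_le_pow_left₀ (by positivity) (hlow y hy hyδ) 2
      have hd := neg_le_of_abs_le (hq y)
      calc f2 0 - f2 y ≤ B * y ^ 2 := by linarith
        _ ≤ 2 * (B + 1) / c * y ^ 2 := by
            refine mul_le_mul_of_nonneg_right ?_ (sq_nonneg y)
            rw [le_div_iff₀ hc]; nlinarith
        _ = 8 * (B + 1) / c ^ 3 * (c / 2 * y) ^ 2 := by field_simp; ring
        _ ≤ _ := mul_le_mul_of_nonneg_left hu (by positivity)
    · have hu : (c / 2 * δ) ^ 2 ≤ f1 y ^ 2 :=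
        pow_le_pow_left₀ (by positivity) ((hlow δ hδ0 le_rfl).trans (hmono hyδ)) 2
      calc f2 0 - f2 y ≤ 1 := by linarith [le_of_abs_le (h.toCvx.abs2 0), h.nonneg2 y]
        _ = 8 * (B + 1) / c ^ 3 * (c / 2 * δ) ^ 2 := by rw [mul_pow, hδ]; field_simp; ring
        _ ≤ _ := mul_le_mul_of_nonneg_left hu (by positivity)
  rcases le_total 0 y with hy | hy
  · exact key y hy
  · have := key (-y) (by linarith)
    rwa [h.toCvx.f2_neg, h.toCvx.f1_neg, neg_sq] at this

lemma Jet.quad {f3 f4 : ℝ → ℝ} {B₃ B₄ : ℝ} (h : Jet F f1 f2 f3 f4 B₃ B₄) (y : ℝ) :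
    |f2 y - f2 0| ≤ B₄ * y ^ 2 := by
  have h3 : f3 0 = 0 := by
    have h1 := (h.d2 (-0)).comp (0:ℝ) (hasDerivAt_neg (0:ℝ))
    rw [show f2 ∘ Neg.neg = f2 from funext h.toCvx.f2_neg, neg_zero] at h1
    linarith [h1.unique (h.d2 0)]
  have hb : ∀ z, |f3 z| ≤ B₄ * |z| := fun z => by
    simpa [h3] using abs_sub_le_of_deriv h.d3 h.b4 0 z
  have hB : 0 ≤ B₄ := (abs_nonneg _).trans (h.b4 0)
  have := (convex_uIcc (0:ℝ) y).norm_image_sub_le_of_norm_hasDerivWithin_le
    (fun z _ => (h.d2 z).hasDerivWithinAt) (C := B₄ * |y|) (fun z hz => by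
      refine (hb z).trans (mul_le_mul_of_nonneg_left ?_ hB)
      simpa using Set.abs_sub_left_of_mem_uIcc hz)
    Set.left_mem_uIcc Set.right_mem_uIcc
  refine this.trans_eq ?_
  rw [Real.norm_eq_abs, sub_zero, mul_assoc, abs_mul_abs_self, sq]

/-! ### along the levels -/

variable {β : ℝ} {R : ℕ} {r : ℕ → ℝ} {V : ℝ}

/-- susceptibility seen at level `l` -/
def suc (β : ℝ) (R : ℕ) (r : ℕ → ℝ) (l : ℕ) : ℝ :=
  wbar β R r - (∑ i ∈ range l, (Gm β R r l - Gm β R r i)) / R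

section OP

variable {P Q : ℝ → ℝ} {k : ℕ}

lemma OP_mono' (hr : Prof R r V) (hk : k ≤ R) (hP : Bc P) (hQ : Bc Q) (hle : ∀ y, P y ≤ Q y) :
    OP β R r k P ≤ OP β R r k Q := by
  obtain ⟨hc, B, hB⟩ := hP
  obtain ⟨hc', B', hB'⟩ := hQ
  exact OP_le hr hc hc' (B := max B B') (fun y => (hB y).trans (le_max_left _ _))
    (fun y => (hB' y).trans (le_max_right _ _)) hk hle

lemma OP_add' (hr : Prof R r V) (hk : k ≤ R) (hP : Bc P) (hQ : Bc Q) :
    OP β R r k (fun y => P y + Q y) = OP β R r k P + OP β R r k Q := by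
  obtain ⟨hc, B, hB⟩ := hP
  obtain ⟨hc', B', hB'⟩ := hQ
  exact OP_add hr hc hc' (B := max B B') (fun y => (hB y).trans (le_max_left _ _))
    (fun y => (hB' y).trans (le_max_right _ _)) hk

lemma OP_aff (hr : Prof R r V) (hk : k ≤ R) (hP : Bc P) (a b : ℝ) :
    OP β R r k (fun y => a + b * P y) = a + b * OP β R r k P := by
  obtain ⟨hc, B, hB⟩ := hP
  exact OP_affine hr hc hB hk a b

lemma OP_mul' (hr : Prof R r V) (hk : k ≤ R) (hP : Bc P) (b : ℝ) :
    OP β R r k (fun y => b * P y) = b * OP β R r k P := by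
  simpa using OP_aff (β := β) hr hk hP 0 b

lemma OP_sub' (hr : Prof R r V) (hk : k ≤ R) (hP : Bc P) (hQ : Bc Q) :
    OP β R r k (fun y => P y - Q y) = OP β R r k P - OP β R r k Q := by
  rw [show (fun y => P y - Q y) = fun y => P y + (-1) * Q y from funext fun y => by ring,
    OP_add' hr hk hP (hQ.cmul _), OP_mul' hr hk hQ]
  ring

lemma OP_sq_le (hr : Prof R r V) (hk : k ≤ R) (hP : Bc P) :
    OP β R r k P ^ 2 ≤ OP β R r k fun y => P y ^ 2 := by
  set a := OP β R r k P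
  have h := OP_mono' (β := β) hr hk ((Bc.const (-a ^ 2)).add (hP.cmul (2 * a))) (hP.pow 2) fun y => by
    nlinarith [sq_nonneg (P y - a)]
  rw [OP_aff hr hk hP] at h
  linarith

end OP

lemma Gm_le_lin (hr : Prof R r V) {l : ℕ} (hl : l ≤ R) : Gm β R r l ≤ β ^ 2 * r l := by
  linarith [Gm_le_exp (β := β) hr hl, add_one_le_exp (-(β ^ 2 * r l))]

lemma Gm_nonneg' (hr : Prof R r V) {l : ℕ} (hl : l ≤ R) : 0 ≤ Gm β R r l := by
  have hc := cvx_all (β := β) hr (R - l) (by omega)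
  rw [Gm_eq hl, ← OP_const (β := β) hr 0 (k := R - l) (by omega)]
  exact OP_mono' hr (by omega) (Bc.const 0) (hc.bc1.pow 2) fun y => sq_nonneg _

theorem suc_eq {β : ℝ} {R : ℕ} {r : ℕ → ℝ} (hR : 1 ≤ R) (hr : Prof R r 1) {l : ℕ} (hl : l ≤ R) :
    suc β R r l = OP β R r (R - l) (WL β R r (R - l)) := by
  have h := WL_mean (β := β) hR hr (R - l) (by omega)
  rw [show R - (R - l) = l by omega, lin, if_pos hl] at h
  rw [suc, wbar_eq hR hr, sum_sub_distrib, sum_const, card_range, nsmul_eq_mul,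
    ← sum_range_add_sum_Ico _ hl, add_div, sub_div, mul_div_right_comm]
  linarith

theorem suc_nonneg {β : ℝ} {R : ℕ} {r : ℕ → ℝ} (hR : 1 ≤ R) (hr : Prof R r 1) {l : ℕ} (hl : l ≤ R) :
    0 ≤ suc β R r l := by
  have hc := cvx_all (β := β) hr (R - l) (by omega)
  rw [suc_eq hR hr hl, ← OP_const (β := β) hr 0 (k := R - l) (by omega)]
  exact OP_mono' hr (by omega) (Bc.const 0) hc.bc2 hc.nonneg2

theorem incr_zero {β : ℝ} {R : ℕ} {r : ℕ → ℝ} (hR : 1 ≤ R) (hr : Prof R r 1) :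
    β ^ 2 * r 0 * wbar β R r ^ 2 ≤ Gm β R r 0 := by
  have hc := cvx_all (β := β) hr R le_rfl
  have hd : 0 ≤ β ^ 2 * r 0 := mul_nonneg (sq_nonneg β) hr.zero
  have h := step_ge hc le_rfl zero_le_one 0 hd
  rw [(cvx_step hc le_rfl zero_le_one hd).zero1] at h
  simp only [Gm_eq (Nat.zero_le R), wbar, OP, Nat.sub_zero, Nat.sub_self, tlN]
  simp only [vS, zero_mul, mul_zero, add_zero, sub_zero, zero_pow two_ne_zero] at h
  exact h

/-- one step, averaged down to the root -/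
lemma incr_eq (hr : Prof R r V) {k l : ℕ} (hkl : k + (l + 1) = R) :
    Gm β R r (l + 1) - Gm β R r l = OP β R r (k + 1) fun y =>
      avT (lin R (R - k)) (dd β R r k) (FL β R r k) (fun z => UL β R r k z ^ 2) y - UL β R r (k + 1) y ^ 2 := by
  have hk : k < R := by omega
  have hc := cvx_all (β := β) hr k hk.le
  have hc1 := cvx_all (β := β) hr (k + 1) hk
  rw [Gm_eq (show l + 1 ≤ R by omega), Gm_eq (show l ≤ R by omega), show R - (l + 1) = k by omega,
    show R - l = k + 1 by omega, ← OP_step hk]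
  exact (OP_sub' hr hk ((hc.bc1.pow 2).avT hc _ _) (hc1.bc1.pow 2)).symm

theorem incr_ge {β : ℝ} {R : ℕ} {r : ℕ → ℝ} (hR : 1 ≤ R) (hr : Prof R r 1) {l : ℕ} (hl : l < R) :
    β ^ 2 * (r (l + 1) - r l) * suc β R r l ^ 2 -
        2 * (((l : ℝ) + 1) / R) * (β ^ 2 * (r (l + 1) - r l)) ^ 2 ≤
      Gm β R r (l + 1) - Gm β R r l := by
  obtain ⟨k, hkl⟩ : ∃ k, k + (l + 1) = R := ⟨R - (l + 1), by omega⟩
  have hk : k < R := by omega
  have hm := lin_mem (R := R) (k := R - k) (by omega)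
  have hd := dd_nonneg (β := β) hr hk
  have hc := cvx_all (β := β) hr k hk.le
  have hc1 := cvx_all (β := β) hr (k + 1) hk
  have hm' : lin R (R - k) = ((l : ℝ) + 1) / R := by
    rw [lin, if_pos (by omega), show R - k = l + 1 by omega]; push_cast; rfl
  have hdd : dd β R r k = β ^ 2 * (r (l + 1) - r l) := by
    rw [dd, show R - k = l + 1 by omega, show R - (k + 1) = l by omega]
  have h := OP_mono' (β := β) hr hk
    ((Bc.const (-(2 * lin R (R - k) * dd β R r k ^ 2))).add ((hc1.bc2.pow 2).cmul (dd β R r k)))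
    (((hc.bc1.pow 2).avT hc (lin R (R - k)) (dd β R r k)).sub (hc1.bc1.pow 2)) fun y => by
      have e : WL β R r (k + 1) y =
          vS (lin R (R - k)) (dd β R r k) (FL β R r k) (UL β R r k) (WL β R r k) y := rfl
      rw [UL_succ hk, e]
      linarith [step_ge hc hm.1 hm.2 y hd]
  rw [← incr_eq hr hkl, OP_aff hr hk (hc1.bc2.pow 2)] at h
  have hs := mul_le_mul_of_nonneg_left (OP_sq_le (β := β) hr hk hc1.bc2) hd
  rw [suc_eq hR hr hl.le, show R - l = k + 1 by omega, ← hdd, ← hm']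
  linarith

/-- mean fourth power of the slope at a level -/
theorem four_le (β : ℝ) : ∃ C : ℝ, 0 ≤ C ∧ ∀ (R : ℕ) (r : ℕ → ℝ), Prof R r 1 → ∀ l ≤ R,
    OP β R r (R - l) (fun y => UL β R r (R - l) y ^ 4) ≤ C * r l ^ 2 := by
  set c := β ^ 2
  have hc0 : 0 ≤ c := sq_nonneg β
  set K := 768 * Kz √c
  have hK : 0 ≤ K := mul_nonneg (by norm_num) (Kz_nonneg _)
  refine ⟨c ^ 2 * (4 + K), by positivity, fun R r hr l hl => ?_⟩
  induction l with
  | zero =>
    have hc := cvx_all (β := β) hr R le_rfl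
    have hu := hr.upper (Nat.zero_le R)
    have hd : 0 ≤ c * r 0 := mul_nonneg hc0 hu.1
    have h := step_four hc le_rfl zero_le_one 0 hd (mul_le_of_le_one_right hc0 hu.2)
    rw [(cvx_step hc le_rfl zero_le_one hd).zero1] at h
    simp only [OP, Nat.sub_zero, Nat.sub_self, tlN]
    refine h.trans ?_
    have : 0 ≤ c ^ 2 * r 0 ^ 2 := by positivity
    linarith
  | succ l ih =>
    obtain ⟨k, hkl⟩ : ∃ k, k + (l + 1) = R := ⟨R - (l + 1), by omega⟩
    have hk : k < R := by omega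
    have ih' := ih (by omega)
    rw [show R - l = k + 1 by omega] at ih'
    rw [show R - (l + 1) = k by omega]
    have hm := lin_mem (R := R) (k := R - k) (by omega)
    have hd := dd_nonneg (β := β) hr hk
    have hc := cvx_all (β := β) hr k hk.le
    have hc1 := cvx_all (β := β) hr (k + 1) hk
    have hu := hr.upper (show l ≤ R by omega)
    have hu' := hr.upper hl
    have hdd : dd β R r k = c * (r (l + 1) - r l) := by
      rw [dd, show R - k = l + 1 by omega, show R - (k + 1) = l by omega]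
    have hdc : dd β R r k ≤ c := hdd.trans_le (mul_le_of_le_one_right hc0 (by linarith [hu.1, hu'.2]))
    rw [← OP_step hk]
    set d := dd β R r k
    refine (OP_mono' hr hk ((hc.bc1.pow 4).avT hc _ _)
      ((Bc.const (K * d ^ 2)).add (((hc1.bc1.pow 4).add ((hc1.bc1.pow 2).cmul (8 * d))).cmul 1))
      fun y => ?_).trans ?_
    · have h := step_four hc hm.1 hm.2 y hd hdc
      rw [← UL_succ hk] at h
      linarith
    · rw [OP_aff hr hk ((hc1.bc1.pow 4).add ((hc1.bc1.pow 2).cmul _)),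
        OP_add' hr hk (hc1.bc1.pow 4) ((hc1.bc1.pow 2).cmul _), OP_mul' hr hk (hc1.bc1.pow 2)]
      have hg : OP β R r (k + 1) (fun y => UL β R r (k + 1) y ^ 2) ≤ c * r l := by
        have h := Gm_le_lin (β := β) hr (show l ≤ R by omega)
        rwa [Gm_eq (by omega), show R - l = k + 1 by omega] at h
      have h8 := mul_le_mul_of_nonneg_left hg (show 0 ≤ 8 * d by linarith)
      have hdr : 0 ≤ r (l + 1) - r l := by linarith [hr.mono l (by omega)]
      rw [hdd] at h8 ⊢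
      nlinarith [mul_nonneg (mul_nonneg (sq_nonneg c) hK) (mul_nonneg hu.1 hdr),
        mul_nonneg (sq_nonneg c) (mul_nonneg hdr hdr)]

/-- drop of the curvature and the bound on one step -/
lemma incr_pt (β : ℝ) (hβ : 1 ≤ β) : ∃ K ρ : ℝ, 0 ≤ K ∧ 0 < ρ ∧ ∀ (R : ℕ) (r : ℕ → ℝ) (k l : ℕ),
    l + 1 < R → Prof R r 1 → r (l + 1) ≤ ρ → 1 / (2 * β) ≤ wbar β R r → k + (l + 1) = R →
    (∀ y, WL β R r (k + 1) 0 - WL β R r (k + 1) y ≤ K * UL β R r (k + 1) y ^ 2) ∧
    ∀ y, (avT (lin R (R - k)) (dd β R r k) (FL β R r k) (fun z => UL β R r k z ^ 2) y -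
          UL β R r (k + 1) y ^ 2) +
      lin R (R - k) * (WL β R r (k + 1) y *
        (avT (lin R (R - k)) (dd β R r k) (FL β R r k) (fun z => UL β R r k z ^ 2) y -
          UL β R r (k + 1) y ^ 2) ^ 2) ≤
      3 * dd β R r k ^ 3 + dd β R r k * (WL β R r (k + 1) y ^ 2 + 3 * K ^ 2 *
        avT (lin R (R - k)) (dd β R r k) (FL β R r k) (fun z => UL β R r k z ^ 4) y) := by
  obtain ⟨C₀, hC₀, hlev⟩ := levels_close β
  obtain ⟨M₃, M₄, hM₃, hM₄, hjet⟩ := jets_all β
  obtain ⟨Cj, hCj, hstep⟩ := jet_step (β ^ 2)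
  set c := β ^ 2
  have hc0 : 0 ≤ c := sq_nonneg β
  set B := M₄ * exp (Cj * M₃ ^ 2 * c)
  have hB : 0 ≤ B := by positivity
  set w := 1 / (4 * β)
  have hw : 0 < w := by positivity
  set K := 8 * (B + 1) / w ^ 3
  have hK : 0 ≤ K := by positivity
  refine ⟨K, w / (C₀ * (1 + c) + 1), hK, by positivity, fun R r k l hl hr hρ hwb hkl => ?_⟩
  have hk : k < R := by omega
  have hk1 : 1 ≤ k := by omega
  have hR : 1 ≤ R := by omega
  obtain ⟨hmove, hclose⟩ := hlev R r hR hr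
  obtain ⟨hm, hm1⟩ := lin_mem (R := R) (k := R - k) (by omega)
  have hd := dd_nonneg (β := β) hr hk
  have hc := cvx_all (β := β) hr k hk.le
  have hc1 := cvx_all (β := β) hr (k + 1) hk
  have hI : Inv (FL β R r k) (UL β R r k) (WL β R r k) (lin R (R - k)) := inv_all hr k hk.le
  have hu := hr.upper (show l ≤ R by omega)
  have hu' := hr.upper (show l + 1 ≤ R by omega)
  have hΔ : 0 ≤ r (l + 1) - r l := by linarith [hr.mono l (by omega)]
  have hdd : dd β R r k = c * (r (l + 1) - r l) := by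
    rw [dd, show R - k = l + 1 by omega, show R - (k + 1) = l by omega]
  have hdr : dd β R r k ≤ c * r (l + 1) := hdd.trans_le (mul_le_mul_of_nonneg_left (by linarith [hu.1]) hc0)
  set F := FL β R r k
  set U := UL β R r k
  set W := WL β R r k
  set L := dd β R r k
  set m := lin R (R - k)
  -- the curvature drops at most like the squared slope
  have hsmall : C₀ * (1 + c) * r (l + 1) ≤ w := by
    have := mul_le_mul_of_nonneg_left hρ (show 0 ≤ C₀ * (1 + c) + 1 by positivity)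
    rw [mul_div_cancel₀ _ (by positivity)] at this
    linarith [hu'.1]
  have hdrop : ∀ d ∈ Set.Icc 0 L, ∀ y,
      vS m d F U W 0 - vS m d F U W y ≤ K * avT m d F U y ^ 2 := by
    intro d hd'
    have hdc : d ≤ c := (hd'.2.trans hdr).trans (mul_le_of_le_one_right hc0 hu'.2)
    refine curv_drop (inv_step hI hm1 hm le_rfl hd'.1) hB ?_ hw ?_
    · obtain ⟨g3, g4, hj⟩ := hjet R r hR hr k hk1 hk.le
      obtain ⟨⟨g3', g4', hn⟩, -⟩ := hstep _ _ _ _ _ _ _ m d hj hM₃ hM₄ hm hm1 hd'.1 hdc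
      intro y
      refine (hn.quad y).trans (mul_le_mul_of_nonneg_right ?_ (sq_nonneg y))
      exact mul_le_mul_of_nonneg_left (exp_le_exp.2 (mul_le_mul_of_nonneg_left hdc (by positivity))) (by positivity)
    · have h1 := neg_le_of_abs_le (hmove k hk1 hk.le d ⟨hd'.1, hdc⟩ m hm hm1)
      have h2 := le_of_abs_le (hclose k hk1 hk.le)
      rw [show R - k = l + 1 by omega] at h2
      have h3 := mul_le_mul_of_nonneg_left (hd'.2.trans hdr) hC₀
      have e : 1 / (2 * β) = 2 * w := by simp only [w]; field_simp; ring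
      linarith
  -- pointwise bound
  set Q := fun y => avT m L F (fun z => U z ^ 4) y
  have hQ : Bc Q := (hc.bc1.pow 4).avT hc m L
  refine ⟨fun y => ?_, fun y => ?_⟩
  · have h := hdrop L ⟨hd, le_rfl⟩ y
    rw [← UL_succ hk] at h
    exact h
  · have hQ0 : 0 ≤ Q y := avT_nonneg hc m L y fun z => by positivity
    have hstep := step_le hc hm hm1 y hd (E := K ^ 2 * Q y) (by positivity) fun t ht => by
      have hdt : 0 ≤ L - t := sub_nonneg.2 ht.2.le
      have hK' := cvx_step hc hm hm1 hdt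
      set v := vS m (L - t) F U W
      set u := avT m (L - t) F U
      set T := smo m (L - t) F
      have hv : Bc v := hK'.bc2
      have hU4 : Bc (avT m (L - t) F fun z => U z ^ 4) := (hc.bc1.pow 4).avT hc _ _
      have e : avT m t T (fun z => (v 0 - v z) ^ 2) y =
          v 0 ^ 2 - 2 * v 0 * avT m t T v y + avT m t T (fun z => v z ^ 2) y := by
        rw [show (fun z => (v 0 - v z) ^ 2) = fun z => (v 0 ^ 2 + -2 * v 0 * v z) + v z ^ 2 from
          funext fun z => by ring, avT_add' hK' m t y ((Bc.const _).add (hv.cmul _)) (hv.pow 2),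
          avT_add' hK' m t y (Bc.const _) (hv.cmul _), avT_const hK', avT_const_mul]
        ring
      have h4 : avT m t T (fun z => (v 0 - v z) ^ 2) y ≤ K ^ 2 * Q y := by
        refine (avT_mono' hK' m t y (((Bc.const _).sub hv).pow 2) (hU4.cmul (K ^ 2)) fun z => ?_).trans_eq ?_
        · have h0 : 0 ≤ v 0 - v z :=
            sub_nonneg.2 ((inv_step hI hm1 hm le_rfl hdt).le_zero z)
          refine (pow_le_pow_left₀ h0 (hdrop _ ⟨hdt, by linarith [ht.1]⟩ z) 2).trans ?_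
          rw [mul_pow, ← pow_mul]
          exact mul_le_mul_of_nonneg_left (four_avT_le hc m _ z hc.bc1) (sq_nonneg K)
        · obtain ⟨hcont, B', hB'⟩ := hc.bc1.pow 4
          rw [avT_const_mul, avT_tower_at hc ht.1.le hdt hcont hB' y, add_sub_cancel]
      show avT m t T (fun z => v z ^ 2) y ≤ _
      nlinarith [sq_nonneg (v 0 - avT m t T v y)]
    rw [UL_succ hk]
    show _ + m * (vS m L F U W y * _) ≤ _
    simp only [WL] at hstep ⊢
    linarith

theorem incr_le (β : ℝ) (hβ : 1 ≤ β) : ∃ C ρ : ℝ, 0 ≤ C ∧ 0 < ρ ∧ ∀ (R : ℕ) (r : ℕ → ℝ) (l : ℕ),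
    l + 1 < R → Prof R r 1 → r (l + 1) ≤ ρ → 1 / (2 * β) ≤ wbar β R r →
      Gm β R r (l + 1) - Gm β R r l +
          ((l : ℝ) + 1) / R * suc β R r l * (Gm β R r (l + 1) - Gm β R r l) ^ 2 ≤
        β ^ 2 * (r (l + 1) - r l) * suc β R r l ^ 2 + C * (r (l + 1) - r l) * r (l + 1) ^ 2 := by
  obtain ⟨C₄, hC₄, hfour⟩ := four_le β
  obtain ⟨K, ρ, hK, hρ0, hpoint⟩ := incr_pt β hβ
  set c := β ^ 2
  have hc0 : 0 ≤ c := sq_nonneg β
  refine ⟨c * (3 * c ^ 2 + 4 * (K ^ 2 * C₄)) + c ^ 3 * K, ρ, by positivity, hρ0,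
    fun R r l hl hr hρ hwb => ?_⟩
  obtain ⟨k, hkl⟩ : ∃ k, k + (l + 1) = R := ⟨R - (l + 1), by omega⟩
  obtain ⟨hW, hpt⟩ := hpoint R r k l hl hr hρ hwb hkl
  have hk : k < R := by omega
  have hR : 1 ≤ R := by omega
  obtain ⟨hm, hm1⟩ := lin_mem (R := R) (k := R - k) (by omega)
  have hd := dd_nonneg (β := β) hr hk
  have hc := cvx_all (β := β) hr k hk.le
  have hc1 := cvx_all (β := β) hr (k + 1) hk
  have hu := hr.upper (show l ≤ R by omega)
  have hu' := hr.upper (show l + 1 ≤ R by omega)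
  have hΔ : 0 ≤ r (l + 1) - r l := by linarith [hr.mono l (by omega)]
  have hdd : dd β R r k = c * (r (l + 1) - r l) := by
    rw [dd, show R - k = l + 1 by omega, show R - (k + 1) = l by omega]
  have hdr : dd β R r k ≤ c * r (l + 1) := hdd.trans_le (mul_le_mul_of_nonneg_left (by linarith [hu.1]) hc0)
  set F := FL β R r k
  set U := UL β R r k
  set L := dd β R r k
  set m := lin R (R - k)
  have hm' : m = ((l : ℝ) + 1) / R := by
    simp only [m, lin, show R - k = l + 1 by omega, if_pos (show l + 1 ≤ R by omega)]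
    push_cast; rfl
  set Q := fun y => avT m L F (fun z => U z ^ 4) y
  have hQ : Bc Q := (hc.bc1.pow 4).avT hc m L
  -- averaging
  set U' := UL β R r (k + 1)
  set W' := WL β R r (k + 1)
  set X := fun y => avT m L F (fun z => U z ^ 2) y - U' y ^ 2
  have hX : Bc X := ((hc.bc1.pow 2).avT hc m L).sub (hc1.bc1.pow 2)
  have hWX : Bc fun y => W' y * X y ^ 2 := hc1.bc2.mul (hX.pow 2)
  have e0 := incr_eq (β := β) hr hkl
  have main := OP_mono' (β := β) hr hk (hX.add (hWX.cmul m))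
    ((Bc.const (3 * L ^ 3)).add (((hc1.bc2.pow 2).add (hQ.cmul (3 * K ^ 2))).cmul L)) hpt
  rw [OP_add' hr hk hX (hWX.cmul m), OP_mul' hr hk hWX, OP_aff hr hk ((hc1.bc2.pow 2).add (hQ.cmul _)),
    OP_add' hr hk (hc1.bc2.pow 2) (hQ.cmul _), OP_mul' hr hk hQ] at main
  set ΔG := OP β R r (k + 1) X
  have hs : suc β R r l = OP β R r (k + 1) W' := by
    rw [suc_eq hR hr (by omega), show R - l = k + 1 by omega]
  have hs0 : suc β R r l ≤ W' 0 := by
    rw [hs, ← OP_const (β := β) hr (W' 0) hk]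
    exact OP_mono' hr hk hc1.bc2 (Bc.const _) (inv_all hr (k + 1) hk).le_zero
  have hsn := suc_nonneg (β := β) hR hr (show l ≤ R by omega)
  have q4 : OP β R r (k + 1) (fun y => U' y ^ 4) ≤ C₄ * r l ^ 2 := by
    have h := hfour R r hr l (by omega)
    rwa [show R - l = k + 1 by omega] at h
  have q4' : OP β R r (k + 1) Q ≤ C₄ * r (l + 1) ^ 2 := by
    have h := hfour R r hr (l + 1) (by omega)
    rw [show R - (l + 1) = k by omega, ← OP_step hk] at h
    exact h
  have q2 : OP β R r (k + 1) (fun y => U' y ^ 2) ≤ c * r l := by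
    have h := Gm_le_lin (β := β) hr (show l ≤ R by omega)
    rwa [Gm_eq (by omega), show R - l = k + 1 by omega] at h
  have hWsq : OP β R r (k + 1) (fun y => W' y ^ 2) ≤ suc β R r l ^ 2 + K ^ 2 * (C₄ * r l ^ 2) := by
    have h := OP_mono' (β := β) hr hk (hc1.bc2.pow 2)
      ((((Bc.const (-(W' 0 ^ 2))).add (hc1.bc2.cmul (2 * W' 0)))).add ((hc1.bc1.pow 4).cmul (K ^ 2)))
      fun y => by
        have h0 : 0 ≤ W' 0 - W' y := sub_nonneg.2 ((inv_all hr (k + 1) hk).le_zero y)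
        have := pow_le_pow_left₀ h0 (hW y) 2
        nlinarith
    rw [OP_add' hr hk ((Bc.const _).add (hc1.bc2.cmul _)) ((hc1.bc1.pow 4).cmul _), OP_aff hr hk hc1.bc2,
      OP_mul' hr hk (hc1.bc1.pow 4), ← hs] at h
    nlinarith [sq_nonneg (W' 0 - suc β R r l), mul_le_mul_of_nonneg_left q4 (sq_nonneg K)]
  have hXb : ∀ y, 0 ≤ X y ∧ X y ≤ L := fun y => by
    have h := carried_bounds hc hm hm1 y hd (t := L) ⟨hd, le_rfl⟩
    rw [Gs_end hc, ← UL_succ hk] at h
    exact h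
  have hWX' : suc β R r l * ΔG ^ 2 - K * L ^ 2 * (c * r l) ≤ OP β R r (k + 1) fun y => W' y * X y ^ 2 := by
    refine le_trans ?_ (OP_mono' (β := β) hr hk
      (((hX.pow 2).cmul (suc β R r l)).sub ((hc1.bc1.pow 2).cmul (K * L ^ 2))) hWX fun y => ?_)
    · rw [OP_sub' hr hk ((hX.pow 2).cmul _) ((hc1.bc1.pow 2).cmul _), OP_mul' hr hk (hX.pow 2),
        OP_mul' hr hk (hc1.bc1.pow 2)]
      exact sub_le_sub (mul_le_mul_of_nonneg_left (OP_sq_le hr hk hX) hsn)
        (mul_le_mul_of_nonneg_left q2 (by positivity))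
    · obtain ⟨h0, h1⟩ := hXb y
      have hsW : suc β R r l - W' y ≤ K * U' y ^ 2 := by linarith [hW y]
      have h2 := mul_le_mul_of_nonneg_right hsW (sq_nonneg (X y))
      have h3 := mul_le_mul_of_nonneg_left (pow_le_pow_left₀ h0 h1 2)
        (show 0 ≤ K * U' y ^ 2 by positivity)
      linarith
  rw [e0, ← hm', ← hdd]
  have h1 := mul_le_mul_of_nonneg_left hWsq hd
  have h2 := mul_le_mul_of_nonneg_left (mul_le_mul_of_nonneg_left q4' (show 0 ≤ 3 * K ^ 2 by positivity)) hd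
  have h3 := mul_le_mul_of_nonneg_left hWX' hm
  have hrr : r l ≤ r (l + 1) := by linarith
  have h4 : L * (K ^ 2 * (C₄ * r l ^ 2)) ≤ L * (K ^ 2 * (C₄ * r (l + 1) ^ 2)) := by gcongr; exact hu.1
  have h5 : m * (K * L ^ 2 * (c * r l)) ≤ K * L * (c * r (l + 1)) * (c * r (l + 1)) := by
    refine (mul_le_of_le_one_left (mul_nonneg (by positivity) (mul_nonneg hc0 hu.1)) hm1).trans ?_
    calc K * L ^ 2 * (c * r l) = K * L * L * (c * r l) := by ring
      _ ≤ _ := mul_le_mul (mul_le_mul_of_nonneg_left hdr (by positivity))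
          (mul_le_mul_of_nonneg_left hrr hc0) (mul_nonneg hc0 hu.1) (mul_nonneg (by positivity) (mul_nonneg hc0 hu'.1))
  have h6 : 3 * L ^ 3 ≤ 3 * L * (c * r (l + 1)) ^ 2 := by
    rw [show 3 * L ^ 3 = 3 * L * L ^ 2 by ring]; gcongr
  have e1 : c * (r (l + 1) - r l) = L := hdd.symm
  calc ΔG + m * suc β R r l * ΔG ^ 2
      ≤ L * suc β R r l ^ 2 + L * ((3 * c ^ 2 + 4 * (K ^ 2 * C₄) + c ^ 2 * K) * r (l + 1) ^ 2) := by linarith
    _ = _ := by rw [← e1]; ring

end Vale.Agent.P146.Lower.Marg
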