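import Vale.Agent.P146.Lower.Marg.Ghs

/-! P146 marginality: the invariants `Inv` hold for `log cosh` and pass through one step with a smaller exponent. -/

open MeasureTheory ProbabilityTheory Real Set Filter

noncomputable section

namespace Vale.Agent.P146.Lower.Marg

variable {F f1 f2 : ℝ → ℝ}

theorem inv_lc : Inv lc (fun x => sinh x / cosh x) (fun x => 1 / cosh x ^ 2) 1 := by
  have hc : ∀ x, cosh x ≠ 0 := fun x => (cosh_pos x).ne'
  have h2 : ∀ x, 1 - (sinh x / cosh x) ^ 2 = 1 / cosh x ^ 2 := fun x => by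
    have := hc x; have h := cosh_sq_sub_sinh_sq x; field_simp; linarith
  refine ⟨⟨fun x => ((hasDerivAt_cosh x).log (hc x)), fun x => ?_, ?_, fun x => by simp [lc],
    fun x => by positivity, fun x => le_of_eq (h2 x).symm⟩, ?_, by simp, fun x => le_of_eq (by rw [one_mul, h2])⟩
  · refine ((hasDerivAt_sinh x).div (hasDerivAt_cosh x) (hc x)).congr_deriv ?_
    have h := cosh_sq_sub_sinh_sq x
    have := hc x
    field_simp
    linarith
  · exact Continuous.div continuous_const (continuous_cosh.pow 2) fun x => pow_ne_zero _ (hc x)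
  · intro u hu v hv huv
    refine one_div_le_one_div_of_le (pow_pos (cosh_pos u) 2) (pow_le_pow_left₀ (cosh_pos u).le ?_ 2)
    exact cosh_le_cosh.2 (by rwa [abs_of_nonneg (mem_Ici.1 hu), abs_of_nonneg (mem_Ici.1 hv)])

/-- translation of the standard Gaussian -/
lemma gauss_shift (G : ℝ → ℝ) (h : ℝ) :
    ∫ z, G (z + h) ∂(gaussianReal 0 1) = exp (-(h ^ 2) / 2) * ∫ w, G w * exp (h * w) ∂(gaussianReal 0 1) := by
  have e := gaussianReal_map_add_const (μ := (0:ℝ)) (v := 1) h
  rw [zero_add] at e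
  have h1 : ∫ z, G (z + h) ∂(gaussianReal 0 1) = ∫ w, G w ∂gaussianReal h 1 := by
    rw [← e]
    exact (MeasureTheory.integral_map_equiv (MeasurableEquiv.addRight h) G).symm
  rw [h1, integral_gaussianReal_eq_integral_smul one_ne_zero, gauss_integral, ← integral_const_mul,
    ← integral_const_mul]
  refine integral_congr_ae (Eventually.of_forall fun w => ?_)
  simp only [gaussianPDFReal_def, gw, NNReal.coe_one, mul_one, smul_eq_mul]
  rw [show -(w - h) ^ 2 / (2:ℝ) = -(h ^ 2) / 2 + (-(w ^ 2) / 2 + h * w) by ring, exp_add, exp_add]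
  ring

lemma vS_var (hF : Cvx F f1 f2) {m d : ℝ} (hd : 0 < d) (x : ℝ) :
    m * d * vS m d F f1 f2 x =
      mom (fun w => m * F (√d * w)) 2 (x / √d) / mom (fun w => m * F (√d * w)) 0 (x / √d) -
        (mom (fun w => m * F (√d * w)) 1 (x / √d) / mom (fun w => m * F (√d * w)) 0 (x / √d)) ^ 2 - 1 := by
  set s := √d
  have hs : 0 < s := sqrt_pos.2 hd
  have hs2 : s ^ 2 = d := sq_sqrt hd.le
  set h := x / s
  have hxs : x = s * h := by simp only [h]; field_simp
  set V : ℝ → ℝ := fun w => m * F (s * w)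
  set e : ℝ → ℝ := fun z => exp (m * F (x + s * z))
  have Ge : Gr e := hF.gr_tilt m d x
  have hsh : ∀ z : ℝ, HasDerivAt (fun z => x + s * z) s z := fun z => by
    simpa using ((hasDerivAt_id' z).const_mul s).const_add x
  set e1 : ℝ → ℝ := fun z => m * s * (e z * f1 (x + s * z))
  have de : ∀ z, HasDerivAt e (e1 z) z := fun z =>
    ((((hF.d0 _).comp z (hsh z))).const_mul m).exp.congr_deriv (by simp only [e1, e, Function.comp_apply]; ring)
  have Gf1 : Gr fun z => f1 (x + s * z) := Gr.bdd (hF.cont1.comp (by fun_prop)) fun _ => hF.abs1 _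
  have Gf2 : Gr fun z => f2 (x + s * z) := Gr.bdd (hF.cont2.comp (by fun_prop)) fun _ => hF.abs2 _
  have G1 : Gr e1 := (Gr.const _).mul (Ge.mul Gf1)
  have hm0 : mass m d F x = ∫ z, e z ∂(gaussianReal 0 1) := rfl
  have hpos : 0 < ∫ z, e z ∂(gaussianReal 0 1) := hm0 ▸ hF.mass_pos m d x
  have t1 : ∫ z, z * e z ∂(gaussianReal 0 1) = m * s * (avT m d F f1 x * ∫ z, e z ∂(gaussianReal 0 1)) := by
    rw [Gr.ibp de Ge G1, integral_const_mul, avT, hm0, div_mul_cancel₀ _ hpos.ne']
  have t2 : ∫ z, z * (z * e z) ∂(gaussianReal 0 1) = (∫ z, e z ∂(gaussianReal 0 1)) *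
      (1 + m * d * (avT m d F f2 x + m * avT m d F (fun y => f1 y ^ 2) x)) := by
    have k1 : ∫ z, z * e1 z ∂(gaussianReal 0 1) = m * s * (m * s * ∫ z, e z * f1 (x + s * z) ^ 2 ∂(gaussianReal 0 1) +
        s * ∫ z, e z * f2 (x + s * z) ∂(gaussianReal 0 1)) := by
      have i : ∫ z, z * (e z * f1 (x + s * z)) ∂(gaussianReal 0 1) =
          m * s * ∫ z, e z * f1 (x + s * z) ^ 2 ∂(gaussianReal 0 1) + s * ∫ z, e z * f2 (x + s * z) ∂(gaussianReal 0 1) := by
        rw [Gr.ibp (f := fun z => e z * f1 (x + s * z))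
          (f' := fun z => m * s * (e z * f1 (x + s * z) ^ 2) + s * (e z * f2 (x + s * z)))
          (fun z => ((de z).mul ((hF.d1 _).comp z (hsh z))).congr_deriv
            (by simp only [e1, Function.comp_apply]; ring))
          (Ge.mul Gf1) (((Gr.const _).mul (Ge.mul Gf1.sq)).add ((Gr.const _).mul (Ge.mul Gf2))),
          integral_add ((Gr.const _).mul (Ge.mul Gf1.sq)).integrable ((Gr.const _).mul (Ge.mul Gf2)).integrable,
          integral_const_mul, integral_const_mul]
      rw [← i, ← integral_const_mul]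
      exact integral_congr_ae (Eventually.of_forall fun z => by simp only [e1]; ring)
    rw [Gr.ibp (f := fun z => z * e z) (f' := fun z => e z + z * e1 z)
      (fun z => ((hasDerivAt_id' z).mul (de z)).congr_deriv (by simp))
      (Gr.id.mul Ge) (Ge.add (Gr.id.mul G1)), integral_add Ge.integrable (Gr.id.mul G1).integrable, k1]
    simp only [avT, hm0]
    have e2 : (fun z => exp (m * F (x + √d * z)) * f2 (x + √d * z)) = fun z => e z * f2 (x + s * z) := rfl
    have e3 : (fun z => exp (m * F (x + √d * z)) * f1 (x + √d * z) ^ 2) =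
        fun z => e z * f1 (x + s * z) ^ 2 := rfl
    rw [e2, e3, ← hs2]
    field_simp
    ring
  -- translate
  have tr : ∀ P : ℝ → ℝ, ∫ z, P (z + h) * e z ∂(gaussianReal 0 1) = exp (-(h ^ 2) / 2) * ∫ w, P w * exp (V w + h * w) ∂(gaussianReal 0 1) := by
    intro P
    have := gauss_shift (fun w => P w * exp (V w)) h
    simp only [mul_assoc, ← exp_add] at this
    rw [← this]
    refine integral_congr_ae (Eventually.of_forall fun z => ?_)
    simp only [e, V, hxs]; ring_nf
  have m0 : ∫ z, e z ∂(gaussianReal 0 1) = exp (-(h ^ 2) / 2) * mom V 0 h := by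
    have := tr fun _ => 1; simpa [mom] using this
  have m1 : ∫ z, z * e z ∂(gaussianReal 0 1) + h * ∫ z, e z ∂(gaussianReal 0 1) = exp (-(h ^ 2) / 2) * mom V 1 h := by
    have := tr fun w => w
    simp only [mom, pow_one]
    rw [← this, ← integral_const_mul, ← integral_add (Gr.id.mul Ge).integrable ((Gr.const h).mul Ge).integrable]
    exact integral_congr_ae (Eventually.of_forall fun z => by ring)
  have m2 : ∫ z, z * (z * e z) ∂(gaussianReal 0 1) + (2 * h * ∫ z, z * e z ∂(gaussianReal 0 1) + h ^ 2 * ∫ z, e z ∂(gaussianReal 0 1)) =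
      exp (-(h ^ 2) / 2) * mom V 2 h := by
    have := tr fun w => w ^ 2
    simp only [mom]
    rw [← this, ← integral_const_mul, ← integral_const_mul,
      ← integral_add ((Gr.const _).mul (Gr.id.mul Ge)).integrable ((Gr.const _).mul Ge).integrable,
      ← integral_add (Gr.id.mul (Gr.id.mul Ge)).integrable
        (((Gr.const _).mul (Gr.id.mul Ge)).add ((Gr.const _).mul Ge)).integrable]
    exact integral_congr_ae (Eventually.of_forall fun z => by ring)
  have hE : exp (-(h ^ 2) / 2) ≠ 0 := (exp_pos _).ne'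
  set c := ∫ z, e z ∂(gaussianReal 0 1)
  set E := exp (-(h ^ 2) / 2)
  have q : ∀ k, mom V k h / mom V 0 h = (E * mom V k h) / c := fun k => by
    rw [m0, mul_div_mul_left _ _ hE]
  rw [q 2, q 1, ← m1, ← m2, t1, t2]
  unfold vS
  rw [← hs2]
  have := hpos.ne'
  field_simp
  ring

lemma conv_anti {g : ℝ → ℝ} (hg : Continuous g) {B : ℝ} (hB : ∀ y, |g y| ≤ B) (he : ∀ y, g (-y) = g y)
    (hanti : AntitoneOn g (Ici 0)) : AntitoneOn (fun h => ∫ z, g (z + h) ∂(gaussianReal 0 1)) (Ici 0) := by
  intro a ha b hb hab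
  simp only [mem_Ici] at ha hb
  have Ge : ∀ k : ℝ, Gr fun w => exp (k * w) := fun k =>
    ⟨by fun_prop, 1, |k|, abs_nonneg k, fun w => by
      rw [abs_exp, one_mul, ← abs_mul]; exact exp_le_exp.2 (le_abs_self _)⟩
  have Gc : ∀ k : ℝ, Gr fun w => cosh (k * w) := fun k => by
    have h := ((Ge k).add (Ge (-k))).mul (Gr.const (2:ℝ)⁻¹)
    simpa [cosh_eq, div_eq_mul_inv] using h
  have Gg : Gr g := Gr.bdd hg hB
  have sh : ∀ k, ∫ z, g (z + k) ∂(gaussianReal 0 1) = exp (-(k ^ 2) / 2) * ∫ w, g w * cosh (k * w) ∂(gaussianReal 0 1) := fun k => by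
    rw [gauss_shift]
    congr 1
    have e2 : ∫ w, g w * exp (-(k * w)) ∂(gaussianReal 0 1) = ∫ w, g w * exp (k * w) ∂(gaussianReal 0 1) := by
      rw [← integral_gauss_neg fun w => g w * exp (k * w)]
      exact integral_congr_ae (Eventually.of_forall fun w => by simp [he])
    have h : ∫ w, g w * cosh (k * w) ∂(gaussianReal 0 1) =
        (∫ w, g w * exp (k * w) ∂(gaussianReal 0 1) + ∫ w, g w * exp (-(k * w)) ∂(gaussianReal 0 1)) / 2 := by
      have k2 : Gr fun w => g w * exp (-(k * w)) := by simpa using Gg.mul (Ge (-k))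
      rw [← integral_add (Gg.mul (Ge k)).integrable k2.integrable, ← integral_div]
      exact integral_congr_ae (Eventually.of_forall fun w => by simp only [cosh_eq]; ring)
    rw [h, e2]; ring
  have one : ∀ k, (1:ℝ) = exp (-(k ^ 2) / 2) * ∫ w, cosh (k * w) ∂(gaussianReal 0 1) := fun k => by
    have h := gauss_shift (fun _ => (1:ℝ)) k
    simp only [integral_const, probReal_univ, one_smul, one_mul] at h
    have e2 : ∫ w, exp (-(k * w)) ∂(gaussianReal 0 1) = ∫ w, exp (k * w) ∂(gaussianReal 0 1) := by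
      rw [← integral_gauss_neg fun w => exp (k * w)]; simp
    have h3 : ∫ w, cosh (k * w) ∂(gaussianReal 0 1) = ∫ w, exp (k * w) ∂(gaussianReal 0 1) := by
      have k2 : Gr fun w => exp (-(k * w)) := by simpa using Ge (-k)
      simp only [cosh_eq]
      rw [integral_div, integral_add (Ge k).integrable k2.integrable, e2]; ring
    rw [h3]; exact h
  have hI : ∀ w w' : ℝ, (g w - g w') * (cosh (b * w) * cosh (a * w') - cosh (b * w') * cosh (a * w)) ≤ 0 := by
    have habs : ∀ y, g y = g |y| := fun y => by rcases abs_choice y with h | h <;> simp [h, he]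
    intro w w'
    rcases le_total |w'| |w| with h | h
    · exact mul_nonpos_of_nonpos_of_nonneg (by
        rw [habs w, habs w']; linarith [hanti (mem_Ici.2 (abs_nonneg w')) (mem_Ici.2 (abs_nonneg w)) h])
        (sub_nonneg.2 (cosh_cross_abs ha hab h))
    · exact mul_nonpos_of_nonneg_of_nonpos (by
        rw [habs w, habs w']; linarith [hanti (mem_Ici.2 (abs_nonneg w)) (mem_Ici.2 (abs_nonneg w')) h])
        (sub_nonpos.2 (cosh_cross_abs ha hab h))
  set ν := ((gaussianReal 0 1)).prod (gaussianReal 0 1)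
  have gb := (Gg.mul (Gc b)).integrable
  have ga := (Gg.mul (Gc a)).integrable
  have cb := (Gc b).integrable
  have ca := (Gc a).integrable
  have h0 : ∫ p : ℝ × ℝ, (g p.1 * cosh (b * p.1) * cosh (a * p.2) - g p.1 * cosh (a * p.1) * cosh (b * p.2) +
      (cosh (a * p.1) * (g p.2 * cosh (b * p.2)) - cosh (b * p.1) * (g p.2 * cosh (a * p.2)))) ∂ν ≤ 0 :=
    integral_nonpos fun p => by have := hI p.1 p.2; simp only [Pi.zero_apply]; linarith
  rw [integral_add (f := fun p : ℝ × ℝ => g p.1 * cosh (b * p.1) * cosh (a * p.2) -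
      g p.1 * cosh (a * p.1) * cosh (b * p.2))
      (g := fun p : ℝ × ℝ => cosh (a * p.1) * (g p.2 * cosh (b * p.2)) - cosh (b * p.1) * (g p.2 * cosh (a * p.2)))
      ((gb.mul_prod ca).sub (ga.mul_prod cb)) ((ca.mul_prod gb).sub (cb.mul_prod ga)),
    integral_sub (gb.mul_prod ca) (ga.mul_prod cb), integral_sub (ca.mul_prod gb) (cb.mul_prod ga),
    integral_prod_mul (fun w => g w * cosh (b * w)) fun w => cosh (a * w),
    integral_prod_mul (fun w => g w * cosh (a * w)) fun w => cosh (b * w),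
    integral_prod_mul (fun w => cosh (a * w)) fun w => g w * cosh (b * w),
    integral_prod_mul (fun w => cosh (b * w)) fun w => g w * cosh (a * w)] at h0
  have oa := one a
  have ob := one b
  show ∫ z, g (z + b) ∂(gaussianReal 0 1) ≤ ∫ z, g (z + a) ∂(gaussianReal 0 1)
  rw [sh, sh]
  set A := exp (-(a ^ 2) / 2)
  set B' := exp (-(b ^ 2) / 2)
  set P := ∫ w, g w * cosh (a * w) ∂(gaussianReal 0 1)
  set Q := ∫ w, g w * cosh (b * w) ∂(gaussianReal 0 1)
  set p := ∫ w, cosh (a * w) ∂(gaussianReal 0 1)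
  set q := ∫ w, cosh (b * w) ∂(gaussianReal 0 1)
  have hle : Q * p ≤ P * q := by linarith
  calc B' * Q = A * B' * (Q * p) := by linear_combination (B' * Q) * oa
    _ ≤ A * B' * (P * q) := mul_le_mul_of_nonneg_left hle (by positivity)
    _ = A * P := by linear_combination (-(A * P)) * ob

theorem inv_step {m₀ m d : ℝ} (h : Inv F f1 f2 m₀) (hm₀ : m₀ ≤ 1) (hm : 0 ≤ m) (hmm : m ≤ m₀) (hd : 0 ≤ d) :
    Inv (smo m d F) (avT m d F f1) (vS m d F f1 f2) m := by
  have hC := h.toCvx
  refine ⟨cvx_step hC hm (hmm.trans hm₀) hd, ?_, ?_, fun x => ?_⟩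
  · rcases eq_or_lt_of_le hd with rfl | hd
    · have e : vS m 0 F f1 f2 = f2 := funext fun x => by
        simp [vS, avT, mass, sq]
      rw [e]; exact h.anti
    have hs : 0 < √d := sqrt_pos.2 hd
    intro u hu v hv huv
    simp only [mem_Ici] at hu hv
    rcases eq_or_lt_of_le hm with rfl | hm'
    · have e : ∀ x, vS 0 d F f1 f2 x = ∫ z, f2 (√d * (z + x / √d)) ∂(gaussianReal 0 1) := fun x => by
        simp only [vS, avT, mass, zero_mul, exp_zero, one_mul, add_zero, integral_const, probReal_univ, one_smul,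
          div_one]
        exact integral_congr_ae (Eventually.of_forall fun z => by
          show f2 _ = f2 _
          congr 1; field_simp; ring)
      rw [e, e]
      exact conv_anti (g := fun w => f2 (√d * w)) (hC.cont2.comp (by fun_prop)) (fun w => hC.abs2 _)
        (fun w => by simp only [mul_neg, hC.f2_neg])
        (fun a ha b hb hab => h.anti (mem_Ici.2 (mul_nonneg hs.le ha)) (mem_Ici.2 (mul_nonneg hs.le hb))
          (mul_le_mul_of_nonneg_left hab hs.le))
        (mem_Ici.2 (div_nonneg hu hs.le)) (mem_Ici.2 (div_nonneg hv hs.le))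
        (div_le_div_of_nonneg_right huv hs.le)
    · have hl : ∀ w : ℝ, HasDerivAt (fun w => √d * w) √d w := fun w => by
        simpa using (hasDerivAt_id' w).const_mul √d
      have hV : Gr fun w => exp (m * F (√d * w)) := by simpa using hC.gr_tilt m d 0
      have := ghs (V := fun w => m * F (√d * w)) (V1 := fun w => m * √d * f1 (√d * w))
        (V2 := fun w => m * d * f2 (√d * w))
        (fun w => (((hC.d0 _).comp w (hl w)).const_mul m).congr_deriv (by ring))
        (fun w => (((hC.d1 _).comp w (hl w)).const_mul (m * √d)).congr_deriv (by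
          rw [mul_comm (f2 _) √d, ← mul_assoc, mul_assoc m, mul_self_sqrt hd.le]))
        (fun w => by simp only [mul_neg, h.even])
        (fun a ha b hb hab => mul_le_mul_of_nonneg_left (h.anti (mem_Ici.2 (mul_nonneg hs.le ha))
          (mem_Ici.2 (mul_nonneg hs.le hb)) (mul_le_mul_of_nonneg_left hab hs.le)) (mul_pos hm' hd).le)
        hV (div_nonneg hu hs.le) (div_le_div_of_nonneg_right huv hs.le)
      have e1 := vS_var hC (m := m) hd u
      have e2 := vS_var hC (m := m) hd v
      exact le_of_mul_le_mul_left (by linarith) (mul_pos hm' hd)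
  · have h1 : 0 < avT m d F f2 0 := by
      refine div_pos (lt_of_le_of_ne (integral_nonneg fun z => mul_nonneg (exp_pos _).le (h.nonneg2 _)) fun h0 => ?_)
        (hC.mass_pos m d 0)
      have := eq_zero_of_gauss ((hC.gr_tilt m d 0).mul (Gr.bdd (hC.cont2.comp (by fun_prop)) fun _ => hC.abs2 _))
        (fun z => mul_nonneg (exp_pos _).le (h.nonneg2 _)) h0.symm 0
      simp only [Function.comp_apply, mul_zero, add_zero, mul_eq_zero, (exp_pos _).ne', false_or] at this
      exact h.pos.ne' this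
    exact add_pos_of_pos_of_nonneg h1 (mul_nonneg hm (sub_nonneg.2 (sq_avT_le hC m d 0 hC.cont1 hC.abs1)))
  · have hsq : ∀ y, |f1 y ^ 2| ≤ 1 := fun y => by rw [abs_of_nonneg (sq_nonneg _)]; exact hC.sq1 y
    have hms : ∀ y, |m * f1 y ^ 2| ≤ m := fun y => by
      rw [abs_mul, abs_of_nonneg hm]; exact mul_le_of_le_one_right hm (hsq y)
    have h1 : m ≤ avT m d F f2 x + m * avT m d F (fun y => f1 y ^ 2) x := by
      rw [← avT_const_mul, ← avT_add hC m d x (Q := fun y => m * f1 y ^ 2) hC.cont2 hC.abs2 (continuous_const.mul (hC.cont1.pow 2)) hms]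
      conv_lhs => rw [← avT_const hC m d x m]
      refine avT_mono hC m d x continuous_const (fun _ => le_rfl)
        (hC.cont2.add (continuous_const.mul (hC.cont1.pow 2)))
        (Q := fun y => f2 y + m * f1 y ^ 2) (B' := 1 + m) (fun y => (abs_add_le _ _).trans (add_le_add (hC.abs2 y) (hms y))) fun y => ?_
      have : m * (1 - f1 y ^ 2) ≤ m₀ * (1 - f1 y ^ 2) :=
        mul_le_mul_of_nonneg_right hmm (sub_nonneg.2 (hC.sq1 y))
      linarith [h.low y]
    unfold vS; linarith

end Vale.Agent.P146.Lower.Marg
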