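import Vale.Agent.P146.Lower.Marg.StepBase
import Vale.Agent.P146.Lower.Marg.Core
import Vale.Agent.P146.Lower.Marg.Inv
import Vale.Agent.P157.Par.Borel.Spin

/-! P146 marginality: on a gap starting at zero the self-consistency deficit crosses zero upwards only. -/

open MeasureTheory ProbabilityTheory Real Filter

noncomputable section

namespace Vale.Agent.P146.Lower.Marg

variable {F f1 f2 : ℝ → ℝ}

/-! ### two steps are one -/

lemma exp_smo (h : Cvx F f1 f2) (m d x : ℝ) : exp (m * smo m d F x) = mass m d F x := by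
  unfold smo
  split_ifs with hm
  · subst hm; simp [mass]
  · rw [mul_div_cancel₀ _ hm, exp_log (h.mass_pos m d x)]

lemma avT_tower_at (h : Cvx F f1 f2) {m t d : ℝ} (ht : 0 ≤ t) (hd : 0 ≤ d) {P : ℝ → ℝ} (hP : Continuous P)
    {B : ℝ} (hB : ∀ y, |P y| ≤ B) (x : ℝ) :
    avT m t (smo m d F) (avT m d F P) x = avT m (t + d) F P x := by
  have two : ∀ (Q : ℝ → ℝ) (B : ℝ), Continuous Q → (∀ y, |Q y| ≤ B) →
      ∫ z, ∫ w, exp (m * F (x + √t * z + √d * w)) * Q (x + √t * z + √d * w) ∂(gaussianReal 0 1) ∂(gaussianReal 0 1) =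
        ∫ z, exp (m * F (x + √(t + d) * z)) * Q (x + √(t + d) * z) ∂(gaussianReal 0 1) := by
    intro Q B hQ hQB
    have hG : Continuous fun y => exp (m * F y) * Q y :=
      (continuous_exp.comp (continuous_const.mul h.cont0)).mul hQ
    have hi : Integrable (fun p : ℝ × ℝ => exp (m * F (x + √t * p.1 + √d * p.2)) * Q (x + √t * p.1 + √d * p.2))
        (((gaussianReal 0 1)).prod (gaussianReal 0 1)) := by
      refine (((gauss_exp_abs (|m| * √t)).mul_prod (gauss_exp_abs (|m| * √d))).const_mul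
        (exp (|m| * |F x|) * B)).mono' (hG.comp (by fun_prop)).aestronglyMeasurable (Eventually.of_forall fun p => ?_)
      rw [Real.norm_eq_abs, abs_mul, abs_exp, ← exp_add, mul_right_comm _ B, ← exp_add]
      refine mul_le_mul (exp_le_exp.2 ((le_abs_self _).trans ?_)) (hQB _) (abs_nonneg _) (exp_pos _).le
      rw [abs_mul, mul_assoc, mul_assoc, ← mul_add, ← mul_add]
      refine mul_le_mul_of_nonneg_left ?_ (abs_nonneg m)
      have h1 := h.lip x (√t * p.1 + √d * p.2)
      have h2 := abs_add_le (√t * p.1) (√d * p.2)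
      rw [abs_mul, abs_mul, abs_of_nonneg (sqrt_nonneg t), abs_of_nonneg (sqrt_nonneg d)] at h2
      rw [← add_assoc] at h1
      linarith [abs_sub_abs_le_abs_sub (F (x + √t * p.1 + √d * p.2)) (F x)]
    have e := Vale.Agent.P157.Par.Borel.gauss_two hG.measurable √t √d x hi
    simpa only [sq_sqrt ht, sq_sqrt hd] using e
  have e1 : ∀ z : ℝ, exp (m * smo m d F (x + √t * z)) * avT m d F P (x + √t * z) =
      ∫ w, exp (m * F (x + √t * z + √d * w)) * P (x + √t * z + √d * w) ∂(gaussianReal 0 1) := fun z => by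
    rw [exp_smo h, avT, mul_div_cancel₀ _ (h.mass_pos m d _).ne']
  have e2 : mass m t (smo m d F) x = mass m (t + d) F x := by
    have := two (fun _ => 1) 1 continuous_const fun _ => by simp
    simp only [mul_one] at this
    simp only [mass]
    rw [← this]
    exact integral_congr_ae (Eventually.of_forall fun z => exp_smo h m d _)
  rw [avT, avT, e2]
  simp only [e1, two P B hP hB]

lemma avT_tower (h : Cvx F f1 f2) {m t d : ℝ} (ht : 0 ≤ t) (hd : 0 ≤ d) {P : ℝ → ℝ} (hP : Continuous P)
    {B : ℝ} (hB : ∀ y, |P y| ≤ B) :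
    avT m t (smo m d F) (avT m d F P) 0 = avT m (t + d) F P 0 :=
  avT_tower_at h ht hd hP hB 0

/-- at a gap above an atom of mass `m` at zero, the deficit can only increase through zero -/
theorem key {m L t : ℝ} (h : Inv F f1 f2 m) (hm : 0 < m) (hm1 : m ≤ 1) (ht : 0 < t) (htL : t ≤ L)
    (hG : t * vS m L F f1 f2 0 ^ 2 ≤ Gs m L F f1 0 t) :
    Gs m L F f1 0 t < t * Gd m L F f1 f2 0 t := by
  have hd : 0 ≤ L - t := sub_nonneg.2 htL
  have hI := inv_step h hm1 hm.le le_rfl hd
  have hC := h.toCvx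
  have hK := hI.toCvx
  set K := smo m (L - t) F with hKd
  set u := avT m (L - t) F f1 with hud
  set v := vS m (L - t) F f1 f2 with hvd
  have hsq : ∀ y, |f1 y ^ 2| ≤ 1 := fun y => by rw [abs_of_nonneg (sq_nonneg _)]; exact hC.sq1 y
  have hsq' : ∀ y, |m * f1 y ^ 2| ≤ 1 := fun y => by
    rw [abs_mul, abs_of_nonneg hm.le]; exact mul_le_one₀ hm1 (abs_nonneg _) (hsq y)
  have cq : Continuous fun y => m * f1 y ^ 2 := continuous_const.mul (hC.cont1.pow 2)
  -- mean curvature of the whole step
  have split : ∀ d x, avT m d F (fun y => f2 y + m * f1 y ^ 2) x =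
      avT m d F f2 x + m * avT m d F (fun y => f1 y ^ 2) x := fun d x => by
    rw [avT_add hC m d x hC.cont2 hC.abs2 cq hsq', avT_const_mul]
  have hc : avT m t K (fun y => v y + m * u y ^ 2) 0 = vS m L F f1 f2 0 := by
    have o : avT m L F f1 0 = 0 := by
      have := (cvx_step hC hm.le hm1 (ht.le.trans htL)).f1_neg 0
      rw [neg_zero] at this; linarith
    have e : (fun y => v y + m * u y ^ 2) = avT m (L - t) F fun y => f2 y + m * f1 y ^ 2 :=
      funext fun y => by rw [split, hvd, hud, vS]; ring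
    rw [e, hKd, avT_tower hC ht.le hd (P := fun y => f2 y + m * f1 y ^ 2) (hC.cont2.add cq) (B := 2) fun y => by
      linarith [abs_add_le (f2 y) (m * f1 y ^ 2), hC.abs2 y, hsq' y], add_sub_cancel, split, vS, o]
    ring
  -- the same for the last step alone
  have hsqu : ∀ y, |m * u y ^ 2| ≤ 1 := fun y => by
    rw [abs_mul, abs_of_nonneg hm.le, abs_of_nonneg (sq_nonneg _)]; exact mul_le_one₀ hm1 (sq_nonneg _) (hK.sq1 y)
  have hc' : vS m t K u v 0 = vS m L F f1 f2 0 := by
    have o : avT m t K u 0 = 0 := by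
      have := (cvx_step hK hm.le hm1 ht.le).f1_neg 0
      rw [neg_zero] at this; linarith
    rw [← hc, avT_add hK m t 0 (Q := fun y => m * u y ^ 2) hK.cont2 hK.abs2 (continuous_const.mul (hK.cont1.pow 2)) hsqu, avT_const_mul,
      vS, o]
    ring
  exact core_step hI hm ht (hc'.symm ▸ hG)

end Vale.Agent.P146.Lower.Marg
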