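import Vale.Agent.P146.Lower.Marg.Defs
import Vale.Agent.P146.Lower.Upper
import Vale.Agent.P157.Full.PhiTaylor

/-! P146 marginality: the nested functional as iterated steps, and first order conditions of a regularised
near-minimiser under single-level moves. -/

open MeasureTheory ProbabilityTheory Real Finset Filter
open scoped Topology
open Vale.Agent.P168.MP (lin)
open Vale.Agent.P157.Par (Prof Phi Gamma Vn tlN dist1)

noncomputable section

namespace Vale.Agent.P146.Lower.Marg

set_option linter.unusedVariables false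

theorem log_Vn_succ {β : ℝ} {R : ℕ} {q : ℕ → ℝ} (hR : 1 ≤ R) {k : ℕ} (hk : k < R) :
    (fun y => log (Vn cosh R (lin R) (fun l => β ^ 2 * q l) (k + 1) y)) =
      smo (lin R (R - k)) (β ^ 2 * (q (R - k) - q (R - (k + 1))))
        fun y => log (Vn cosh R (lin R) (fun l => β ^ 2 * q l) k y) := by
  have hm := Vale.Agent.P157.Par.ex_lin R
  have hM : 0 < lin R (R - k) := (hm.mem hk).1
  obtain ⟨A, hA⟩ := Vale.Agent.P157.Par.Vn_adm Vale.Agent.P157.Par.adm_cosh hm (fun l => β ^ 2 * q l) k hk.le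
  obtain ⟨A', hV⟩ := Vale.Agent.P157.Par.limS_adm Vale.Agent.P157.Par.adm_cosh hm (fun l => β ^ 2 * q l) hk
  funext y
  have e : ∀ x, exp (lin R (R - k) * log (Vn cosh R (lin R) (fun l => β ^ 2 * q l) k x)) =
      Vn cosh R (lin R) (fun l => β ^ 2 * q l) k x ^ lin R (R - k) := fun x => by
    rw [rpow_def_of_pos (hA.a_pos.trans_le (hA.lb x)), mul_comm]
  rw [smo, if_neg hM.ne', Vn, mul_sub]
  simp only [mass, e]
  have hI := hV.int_pos (√(β ^ 2 * q (R - k) - β ^ 2 * q (R - (k + 1)))) y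
  simp only [Vale.Agent.P157.Par.limS] at hI
  rw [log_rpow (one_pos.trans_le hI), one_div_mul_eq_div]

theorem tlN_eq_avT {β : ℝ} {R : ℕ} {q : ℕ → ℝ} (hR : 1 ≤ R) {k j : ℕ} (hk : k + j < R) (P : ℝ → ℝ) :
    tlN cosh R (lin R) (fun l => β ^ 2 * q l) k (j + 1) P =
      avT (lin R (R - (k + j))) (β ^ 2 * (q (R - (k + j)) - q (R - (k + j + 1))))
        (fun y => log (Vn cosh R (lin R) (fun l => β ^ 2 * q l) (k + j) y))
        (tlN cosh R (lin R) (fun l => β ^ 2 * q l) k j P) := by
  obtain ⟨A, hA⟩ := Vale.Agent.P157.Par.Vn_adm Vale.Agent.P157.Par.adm_cosh (Vale.Agent.P157.Par.ex_lin R)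
    (fun l => β ^ 2 * q l) (k + j) hk.le
  funext y
  have e : ∀ x, exp (lin R (R - (k + j)) * log (Vn cosh R (lin R) (fun l => β ^ 2 * q l) (k + j) x)) =
      Vn cosh R (lin R) (fun l => β ^ 2 * q l) (k + j) x ^ lin R (R - (k + j)) := fun x => by
    rw [rpow_def_of_pos (hA.a_pos.trans_le (hA.lb x)), mul_comm]
  simp only [tlN, Vale.Agent.P157.Par.tl, avT, mass, e, mul_sub]

/-- self-consistency deficit at level `l` -/
def gap (β : ℝ) (R : ℕ) (q : ℕ → ℝ) (l : ℕ) : ℝ :=
  Gamma cosh (fun x => sinh x / cosh x) R (lin R) (fun i => β ^ 2 * q i) l - q l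

lemma prof_update {R : ℕ} {r : ℕ → ℝ} (hr : Prof R r 1) {l : ℕ} (hl : l < R) {v : ℝ}
    (hlo : ∀ i < l, r i ≤ v) (h0 : 0 ≤ v) (hhi : v ≤ r (l + 1)) : Prof R (Function.update r l v) 1 := by
  refine ⟨?_, fun i hi => ?_, ?_⟩
  · rcases eq_or_ne l 0 with rfl | h
    · simpa using h0
    · rw [Function.update_of_ne (Ne.symm h)]; exact hr.zero
  · rcases eq_or_ne i l with rfl | h
    · rw [Function.update_self, Function.update_of_ne (by omega)]; exact hhi
    rw [Function.update_of_ne h]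
    rcases eq_or_ne (i + 1) l with rfl | h'
    · rw [Function.update_self]; exact hlo i (Nat.lt_succ_self i)
    · rw [Function.update_of_ne h']; exact hr.mono i hi
  · rw [Function.update_of_ne (by omega)]; exact hr.top

lemma vsk_lip (β : ℝ) : ∃ L : ℝ, 0 ≤ L ∧ ∀ (R : ℕ) (a b : ℕ → ℝ), 1 ≤ R → Prof R a 1 → Prof R b 1 →
    |Vsk β R a - Vsk β R b| ≤ L * dist1 R a b := by
  obtain ⟨K, hK, h⟩ := Vale.Agent.P157.Par.Phi_lip Vale.Agent.P157.Par.sm_logcosh (β ^ 2 * 1)
  refine ⟨K * β ^ 2 + β ^ 2, by positivity, fun R a b hR ha hb => ?_⟩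
  have h1 := (h R _ _ hR (ha.scale (sq_nonneg β)) (hb.scale (sq_nonneg β))).1
  rw [Vale.Agent.P157.Par.cosh_eq_exp] at h1
  have e : (∑ l ∈ range R, |β ^ 2 * a l - β ^ 2 * b l|) / R + |β ^ 2 * a R - β ^ 2 * b R| =
      β ^ 2 * dist1 R a b := by
    simp only [← mul_sub, abs_mul, abs_of_nonneg (sq_nonneg β), dist1, ← mul_sum]
    ring
  rw [e] at h1
  have hb2 : ∀ l ≤ R, |a l ^ 2 - b l ^ 2| ≤ 2 * |a l - b l| := fun l hl => by
    rw [sq_sub_sq, abs_mul]
    refine mul_le_mul_of_nonneg_right (abs_le.2 ⟨?_, ?_⟩) (abs_nonneg _) <;>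
      linarith [(ha.bd hl).1, (ha.bd hl).2, (hb.bd hl).1, (hb.bd hl).2]
  have h2 : |∑ l ∈ range (R + 1), Vale.Agent.P157.Par.coef R l * a l ^ 2 -
      ∑ l ∈ range (R + 1), Vale.Agent.P157.Par.coef R l * b l ^ 2| ≤ 2 * dist1 R a b := by
    rw [← sum_sub_distrib]
    refine (abs_sum_le_sum_abs _ _).trans ?_
    rw [sum_range_succ, dist1, mul_add, ← mul_div_assoc, mul_sum, sum_div]
    refine add_le_add (sum_le_sum fun l hl => ?_) ?_
    · rw [Vale.Agent.P157.Par.coef_lt (mem_range.1 hl), ← mul_sub, abs_mul, abs_neg,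
        abs_of_nonneg (show (0 : ℝ) ≤ 1 / R by positivity), one_div_mul_eq_div]
      exact div_le_div_of_nonneg_right (hb2 l (mem_range.1 hl).le) (Nat.cast_nonneg R)
    · rw [Vale.Agent.P157.Par.coef_top hR, one_mul, one_mul]; exact hb2 R le_rfl
  have hd := Vale.Agent.P157.Par.dist1_nonneg R a b
  have h3 := mul_le_mul_of_nonneg_left h2 (show (0 : ℝ) ≤ β ^ 2 / 4 by positivity)
  rw [Vsk, Vsk]
  calc _ = |(Phi cosh R (lin R) (fun l => β ^ 2 * a l) - Phi cosh R (lin R) fun l => β ^ 2 * b l) -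
        β ^ 2 / 4 * (∑ l ∈ range (R + 1), Vale.Agent.P157.Par.coef R l * a l ^ 2 -
          ∑ l ∈ range (R + 1), Vale.Agent.P157.Par.coef R l * b l ^ 2)| := by ring_nf
    _ ≤ K * (β ^ 2 * dist1 R a b) + β ^ 2 / 4 * (2 * dist1 R a b) := by
      refine (abs_sub _ _).trans (add_le_add h1 ?_)
      rwa [abs_mul, abs_of_nonneg (show (0 : ℝ) ≤ β ^ 2 / 4 by positivity)]
    _ ≤ _ := by nlinarith [mul_nonneg (sq_nonneg β) hd]

/-- the derivative in one level value, with a quadratic error -/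
lemma vsk_move (β : ℝ) : ∃ K : ℝ, 0 ≤ K ∧ ∀ (R : ℕ) (r : ℕ → ℝ) (l : ℕ) (v : ℝ), 1 ≤ R → Prof R r 1 →
    l < R → Prof R (Function.update r l v) 1 →
    |Vsk β R (Function.update r l v) - Vsk β R r + β ^ 2 / (2 * R) * gap β R r l * (v - r l)| ≤
      K / R * (v - r l) ^ 2 := by
  obtain ⟨K, hK, h⟩ := Vale.Agent.P157.Full.phi_taylor Vale.Agent.P157.Par.sm_logcosh (β ^ 2 * 1)
  refine ⟨K * (2 * β ^ 4) + β ^ 2 / 4, by positivity, fun R r l v hR hr hl hr' => ?_⟩
  have h1 := h R (fun i => β ^ 2 * r i) (fun i => β ^ 2 * Function.update r l v i) hR (hr.scale (sq_nonneg β))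
    (hr'.scale (sq_nonneg β)) (by simp [Function.update_of_ne (show R ≠ l by omega)])
  rw [Vale.Agent.P157.Par.cosh_eq_exp] at h1
  have hl' : l ∈ range R := mem_range.2 hl
  have hne : ∀ i, i ≠ l → Function.update r l v i = r i := fun i hi => Function.update_of_ne hi v r
  simp only [← mul_sub, abs_mul, abs_of_nonneg (sq_nonneg β)] at h1
  rw [sum_eq_single_of_mem l hl' (fun i _ hi => by rw [hne i hi, sub_self, mul_zero, mul_zero]),
    sum_eq_single_of_mem l hl' (fun i _ hi => by rw [hne i hi, sub_self, abs_zero, mul_zero, zero_mul]),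
    sum_eq_single_of_mem l hl' (fun i _ hi => by rw [hne i hi, sub_self, abs_zero, mul_zero]),
    Function.update_self] at h1
  have hR' : (0 : ℝ) < R := by exact_mod_cast hR
  have hs : ∑ i ∈ range (R + 1), Vale.Agent.P157.Par.coef R i * Function.update r l v i ^ 2 =
      ∑ i ∈ range (R + 1), Vale.Agent.P157.Par.coef R i * r i ^ 2 + -(1 / (R : ℝ)) * (v ^ 2 - r l ^ 2) := by
    rw [← sub_eq_iff_eq_add', ← sum_sub_distrib, sum_eq_single_of_mem l (mem_range.2 (by omega))
      (fun i _ hi => by rw [hne i hi, sub_self]), Function.update_self, Vale.Agent.P157.Par.coef_lt hl]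
    ring
  set d := v - r l with hd
  set G := Gamma cosh (fun x => sinh x / cosh x) R (lin R) (fun i => β ^ 2 * r i) l with hG
  rw [Vsk, Vsk, hs, gap]
  rw [show Phi cosh R (lin R) (fun i => β ^ 2 * Function.update r l v i) - β ^ 2 / 4 *
      (∑ i ∈ range (R + 1), Vale.Agent.P157.Par.coef R i * r i ^ 2 + -(1 / (R : ℝ)) * (v ^ 2 - r l ^ 2)) -
      (Phi cosh R (lin R) (fun i => β ^ 2 * r i) -
        β ^ 2 / 4 * ∑ i ∈ range (R + 1), Vale.Agent.P157.Par.coef R i * r i ^ 2) +
      β ^ 2 / (2 * R) * (G - r l) * d =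
      (Phi cosh R (lin R) (fun i => β ^ 2 * Function.update r l v i) -
        Phi cosh R (lin R) (fun i => β ^ 2 * r i) + 1 / (2 * R) * (G * (β ^ 2 * d))) +
      β ^ 2 / (4 * R) * d ^ 2 by rw [show v = r l + d by rw [hd]; ring]; field_simp; ring]
  refine ((abs_add_le _ _).trans (add_le_add h1 le_rfl)).trans ?_
  rw [abs_of_nonneg (show (0 : ℝ) ≤ β ^ 2 / (4 * R) * d ^ 2 by positivity)]
  have hx : β ^ 2 * |d| / R ≤ β ^ 2 * |d| := div_le_self (by positivity) (by exact_mod_cast hR)
  calc K / R * (β ^ 2 * |d| * (β ^ 2 * |d| + β ^ 2 * |d| / R)) + β ^ 2 / (4 * R) * d ^ 2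
      ≤ K / R * (β ^ 2 * |d| * (β ^ 2 * |d| + β ^ 2 * |d|)) + β ^ 2 / (4 * R) * d ^ 2 := by gcongr
    _ = _ := by
      rw [show β ^ 2 * |d| * (β ^ 2 * |d| + β ^ 2 * |d|) = 2 * β ^ 4 * |d| ^ 2 by ring, sq_abs]
      field_simp

lemma bddBelow_skValues {β : ℝ} (hβ : 0 ≤ β) : BddBelow (skValues β) := by
  refine ⟨∫ g : Edge 1 → ℝ, log (partition β g / 2 ^ 1) ∂Vale.Agent.P150.gauss (Edge 1), fun v hv => ?_⟩
  obtain ⟨R, q, hR, hq, h1, rfl⟩ := hv
  simpa using sk_upper hβ hR hq h1 (n := 1) le_rfl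

/-- a profile from its values on the levels -/
def ofVals (R : ℕ) (x : Fin (R + 1) → ℝ) (l : ℕ) : ℝ := if h : l ≤ R then x ⟨l, by omega⟩ else 1

/-- the regularised near-minimiser -/
lemma exists_min {β : ℝ} (hβ : 0 ≤ β) {ε : ℝ} (hε : 0 < ε) {R : ℕ} {q : ℕ → ℝ} (hR : 1 ≤ R)
    (hq : Prof R q 1) (h1 : q R = 1) (hv : Vsk β R q ≤ sInf (skValues β) + ε) :
    ∃ r : ℕ → ℝ, Prof R r 1 ∧ r R = 1 ∧ dist1 R q r ≤ √ε ∧
      ∀ l < R, ∀ v, Prof R (Function.update r l v) 1 →
        Vsk β R r ≤ Vsk β R (Function.update r l v) + √ε * |v - r l| / R := by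
  set X : Set (Fin (R + 1) → ℝ) := {x | (∀ i, x i ∈ Set.Icc (0 : ℝ) 1) ∧ Monotone x ∧ x (Fin.last R) = 1}
  have hX : IsCompact X := by
    refine (isCompact_univ_pi fun _ => isCompact_Icc (a := (0 : ℝ)) (b := 1)).of_isClosed_subset ?_
      fun x hx i _ => hx.1 i
    simp only [X, Set.ofPred_and, Set.ofPred_forall, Monotone]
    exact (isClosed_iInter fun i => isClosed_Icc.preimage (continuous_apply i)).inter
      ((isClosed_iInter fun i => isClosed_iInter fun j => isClosed_iInter fun _ =>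
        isClosed_le (continuous_apply i) (continuous_apply j)).inter
          (isClosed_eq (continuous_apply _) continuous_const))
  have hP : ∀ x ∈ X, Prof R (ofVals R x) 1 ∧ ofVals R x R = 1 := fun x hx => by
    have ht : ofVals R x R = 1 := by simpa [ofVals, Fin.last] using hx.2.2
    refine ⟨⟨?_, fun l hl => ?_, ht.le⟩, ht⟩
    · simp only [ofVals, Nat.zero_le, dif_pos]; exact (hx.1 _).1
    · simp only [ofVals, hl.le, show l + 1 ≤ R from hl, dif_pos]
      exact hx.2.1 (Fin.mk_le_mk.2 (Nat.le_succ l))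
  obtain ⟨L, hL, hlip⟩ := vsk_lip β
  have hcoord : ∀ l, Continuous fun x : X => ofVals R x.1 l := fun l => by
    unfold ofVals
    split_ifs
    · exact (continuous_apply _).comp continuous_subtype_val
    · exact continuous_const
  have hc : ContinuousOn (fun x => Vsk β R (ofVals R x) + √ε * dist1 R q (ofVals R x)) X := by
    rw [continuousOn_iff_continuous_domRestrict]
    refine ((Vale.Agent.P157.Par.cont_functional hR hL (F := Vsk β R) (fun a b ha hb => hlip R a b hR ha hb)
      (q := fun x : X => ofVals R x.1) (fun x => (hP x.1 x.2).1) hcoord).1).add (continuous_const.mul ?_)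
    unfold dist1
    fun_prop
  have hmem : ∀ {b : ℕ → ℝ}, Prof R b 1 → b R = 1 → (fun i : Fin (R + 1) => b i) ∈ X := fun {b} hb hbR =>
    ⟨fun i => hb.bd (Nat.lt_succ_iff.1 i.2), fun i j hij => hb.le_of_le (Fin.le_def.1 hij)
      (Nat.lt_succ_iff.1 j.2), by simpa using hbR⟩
  have hd0 : ∀ b : ℕ → ℝ, dist1 R b (ofVals R fun i => b i) = 0 := fun b => by
    have e : ∀ i ≤ R, ofVals R (fun i : Fin (R + 1) => b i) i = b i := fun i hi => by simp [ofVals, hi]
    simp only [dist1, e R le_rfl, sub_self, abs_zero, add_zero]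
    rw [sum_eq_zero fun i hi => by rw [e i (mem_range.1 hi).le, sub_self, abs_zero], zero_div]
  obtain ⟨x₀, hx₀, hmin⟩ := hX.exists_isMinOn ⟨_, hmem hq h1⟩ hc
  obtain ⟨hr, hr1⟩ := hP x₀ hx₀
  set r := ofVals R x₀
  have hcmp : ∀ {b : ℕ → ℝ}, Prof R b 1 → b R = 1 →
      Vsk β R r + √ε * dist1 R q r ≤ Vsk β R b + √ε * dist1 R q b := fun {b} hb hbR => by
    have h := isMinOn_iff.1 hmin _ (hmem hb hbR)
    have e : ∀ i ≤ R, ofVals R (fun i : Fin (R + 1) => b i) i = b i := fun i hi => by simp [ofVals, hi]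
    have e2 : dist1 R q (ofVals R fun i : Fin (R + 1) => b i) = dist1 R q b := by
      simp only [dist1, e R le_rfl]
      rw [sum_congr rfl fun i hi => by rw [e i (mem_range.1 hi).le]]
    have e3 := hlip R b _ hR hb (hP _ (hmem hb hbR)).1
    rw [hd0 b, mul_zero, abs_nonpos_iff, sub_eq_zero] at e3
    simpa only [e2, ← e3] using h
  refine ⟨r, hr, hr1, ?_, fun l hl v hv' => ?_⟩
  · have h := hcmp hq h1
    have hinf := csInf_le (bddBelow_skValues hβ) ⟨R, r, hR, hr, hr1, rfl⟩
    rw [show dist1 R q q = 0 by simp [dist1], mul_zero, add_zero] at h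
    refine le_of_mul_le_mul_left ?_ (Real.sqrt_pos.2 hε)
    rw [Real.mul_self_sqrt hε.le]
    linarith
  · have h := hcmp hv' (by rw [Function.update_of_ne (by omega)]; exact hr1)
    have hR' : (0 : ℝ) < R := by exact_mod_cast hR
    have hd : dist1 R q (Function.update r l v) ≤ dist1 R q r + |v - r l| / R := by
      simp only [dist1, Function.update_of_ne (show R ≠ l by omega)]
      have h2 : ∑ i ∈ range R, |q i - Function.update r l v i| ≤ ∑ i ∈ range R, |q i - r i| + |v - r l| := by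
        rw [← add_sum_erase _ _ (mem_range.2 hl), ← add_sum_erase _ _ (mem_range.2 hl), Function.update_self,
          sum_congr rfl fun i hi => by rw [Function.update_of_ne (ne_of_mem_erase hi)]]
        linarith [abs_sub_le (q l) (r l) v, abs_sub_comm (r l) v]
      rw [add_right_comm, ← add_div]
      exact add_le_add (div_le_div_of_nonneg_right h2 hR'.le) le_rfl
    have := mul_le_mul_of_nonneg_left hd (Real.sqrt_nonneg ε)
    rw [mul_div_assoc]
    linarith

lemma le_of_small {X S K δ₀ : ℝ} (hδ : 0 < δ₀) (hK : 0 ≤ K) (h : ∀ δ, 0 < δ → δ ≤ δ₀ → X ≤ S + K * δ) :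
    X ≤ S :=
  le_of_forall_pos_le_add fun η hη => (h _ (lt_min hδ (div_pos hη (by linarith : 0 < K + 1)))
    (min_le_left _ _)).trans (add_le_add le_rfl ((mul_le_mul_of_nonneg_left (min_le_right _ _) hK).trans (by
      rw [← mul_div_assoc, div_le_iff₀ (by linarith)]; nlinarith)))

/-- first order conditions of a regularised near-minimiser -/
theorem first_order {β : ℝ} (hβ : 1 ≤ β) {ε : ℝ} (hε : 0 < ε) {R : ℕ} {q : ℕ → ℝ} (hR : 1 ≤ R)
    (hq : Prof R q 1) (h1 : q R = 1) (hv : Vsk β R q ≤ sInf (skValues β) + ε) :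
    ∃ r : ℕ → ℝ, Prof R r 1 ∧ r R = 1 ∧ dist1 R q r ≤ √ε ∧
      (∀ l < R, -(4 * √ε) ≤ gap β R r l) ∧ (∀ l < R, r l < 1 → gap β R r l ≤ 4 * √ε) ∧
      ∀ l < R, ∀ c : ℝ, (∀ i < l, r i ≤ c) → 0 ≤ c → c ≤ r (l + 1) →
        ∫ v in r l..c, gap β R (Function.update r l v) l ≤ 4 * √ε * |c - r l| := by
  obtain ⟨r, hr, hr1, hd, hmin⟩ := exists_min (zero_le_one.trans hβ) hε hR hq h1 hv
  obtain ⟨K, hK, hmove⟩ := vsk_move β
  obtain ⟨L, hL, hlip⟩ := vsk_lip β
  refine ⟨r, hr, hr1, hd, ?_⟩
  have hb : (1 : ℝ) ≤ β ^ 2 := one_le_pow₀ hβ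
  have hR' : (0 : ℝ) < R := by exact_mod_cast hR
  have hs := Real.sqrt_nonneg ε
  -- monotonicity of the correlations
  have hΓ : Prof R (fun l => Gamma cosh (fun x => sinh x / cosh x) R (lin R) (fun i => β ^ 2 * r i) l) (2 ^ 2) := by
    simpa [Vale.Agent.P157.Par.cosh_eq_exp] using
      Vale.Agent.P157.Par.Gamma_prof Vale.Agent.P157.Par.sm_logcosh hR (hr.scale (sq_nonneg β))
        (fun w hw => Vale.Agent.P168.MP.ok_lin hR hw)
  have hm1 : ∀ l < R, ∀ v, Prof R (Function.update r l v) 1 →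
      β ^ 2 / 2 * gap β R r l * (v - r l) ≤ √ε * |v - r l| + K * (v - r l) ^ 2 := fun l hl v hp => by
    have := (abs_le.1 (hmove R r l v hR hr hl hp)).2
    have := hmin l hl v hp
    refine le_of_mul_le_mul_left ?_ (inv_pos.2 hR')
    calc (R : ℝ)⁻¹ * (β ^ 2 / 2 * gap β R r l * (v - r l)) = β ^ 2 / (2 * R) * gap β R r l * (v - r l) := by ring
      _ ≤ √ε * |v - r l| / R + K / R * (v - r l) ^ 2 := by linarith
      _ = _ := by ring
  have hdiv : ∀ {x : ℝ}, β ^ 2 / 2 * x ≤ √ε → x ≤ 4 * √ε := fun {x} hx => by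
    rcases le_or_gt x 0 with h | h
    · linarith
    · nlinarith [mul_le_mul_of_nonneg_right hb h.le]
  refine ⟨fun l hl => ?_, fun l hl hl1 => ?_, fun l hl c hlo hc0 hhi => ?_⟩
  · -- the bottom of a run moves down
    have hex : ∃ i, r l ≤ r i := ⟨l, le_rfl⟩
    set a := Nat.find hex
    have hal : a ≤ l := Nat.find_min' hex le_rfl
    have hra : r a = r l := le_antisymm (hr.le_of_le hal hl.le) (Nat.find_spec hex)
    have hga : gap β R r a ≤ gap β R r l := by
      simp only [gap, hra]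
      exact sub_le_sub_right (hΓ.le_of_le hal hl.le) _
    have hlow : ∀ i < a, r i < r a := fun i hi => hra ▸ not_le.1 (Nat.find_min hex hi)
    rcases (hr.bd (hal.trans hl.le)).1.eq_or_lt with h0 | h0
    · have : 0 ≤ gap β R r a := by
        simp only [gap, ← h0, sub_zero]; exact (hΓ.bd (hal.trans hl.le)).1
      linarith
    obtain ⟨lo, hlo0, hloa, hlo⟩ : ∃ lo, 0 ≤ lo ∧ lo < r a ∧ ∀ i < a, r i ≤ lo := by
      rcases Nat.eq_zero_or_pos a with ha | ha
      · exact ⟨0, le_rfl, h0, fun i hi => by omega⟩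
      · exact ⟨r (a - 1), (hr.bd (by omega)).1, hlow _ (by omega),
          fun i hi => hr.le_of_le (by omega) (by omega)⟩
    have hkey : β ^ 2 / 2 * (-gap β R r a) ≤ √ε :=
      le_of_small (δ₀ := r a - lo) (sub_pos.2 hloa) hK fun δ h0 hδ => by
        have h := hm1 a (by omega) (r a - δ) (prof_update hr (by omega) (fun i hi => by linarith [hlo i hi])
          (by linarith) (by linarith [hr.mono a (by omega)]))
        rw [show r a - δ - r a = -δ by ring, abs_neg, abs_of_pos h0, neg_sq] at h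
        refine le_of_mul_le_mul_left ?_ h0
        linarith
    linarith [hdiv hkey]
  · -- the top of a run moves up
    have hex : ∃ i, l < i ∧ r l < r i := ⟨R, hl, by rw [hr1]; exact hl1⟩
    set j := Nat.find hex
    obtain ⟨hlj, hrj⟩ := Nat.find_spec hex
    have hjR : j ≤ R := Nat.find_min' hex ⟨hl, by rw [hr1]; exact hl1⟩
    obtain ⟨b, hb'⟩ : ∃ b, j = b + 1 := ⟨j - 1, by omega⟩
    have hrb : r b = r l := by
      refine le_antisymm ?_ (hr.le_of_le (by omega) (by omega))
      rcases (show l ≤ b by omega).eq_or_lt with h | h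
      · rw [h]
      · exact not_lt.1 fun h' => Nat.find_min hex (show b < j by omega) ⟨h, h'⟩
    have hgb : gap β R r l ≤ gap β R r b := by
      simp only [gap, hrb]
      exact sub_le_sub_right (hΓ.le_of_le (show l ≤ b by omega) (by omega)) _
    have hkey : β ^ 2 / 2 * gap β R r b ≤ √ε :=
      le_of_small (δ₀ := r j - r b) (by rw [hrb]; linarith) hK fun δ h0 hδ => by
        have h := hm1 b (by omega) (r b + δ) (prof_update hr (by omega)
          (fun i hi => by linarith [hr.le_of_le hi.le (show b ≤ R by omega)])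
          (by linarith [(hr.bd (show b ≤ R by omega)).1]) (by rw [← hb']; linarith))
        rw [show r b + δ - r b = δ by ring, abs_of_pos h0] at h
        refine le_of_mul_le_mul_left ?_ h0
        linarith
    linarith [hdiv hkey]
  · -- a move of one level
    set F := fun v => Vsk β R (Function.update r l v)
    set g := fun v => gap β R (Function.update r l v) l
    set B := β ^ 2 / (2 * (R : ℝ)) with hBdef
    have hB : 0 < B := by positivity
    have hP : ∀ v ∈ Set.uIcc (r l) c, Prof R (Function.update r l v) 1 := fun v hv => by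
      obtain ⟨ha, hb⟩ := hv
      exact prof_update hr hl (fun i hi => (le_inf (hr.le_of_le hi.le hl.le) (hlo i hi)).trans ha)
        ((le_inf (hr.bd hl.le).1 hc0).trans ha) (hb.trans (sup_le (hr.mono l hl) hhi))
    have hT : ∀ x ∈ Set.uIcc (r l) c, ∀ y ∈ Set.uIcc (r l) c,
        |F y - F x + B * g x * (y - x)| ≤ K / R * (y - x) ^ 2 := fun x hx y hy => by
      have h := hmove R (Function.update r l x) l y hR (hP x hx) hl
        (by rw [Function.update_idem]; exact hP y hy)
      rwa [Function.update_idem, Function.update_self] at h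
    have hg : ContinuousOn g (Set.uIcc (r l) c) := by
      have hC : (0 : ℝ) ≤ 2 * (K / R) / B := by positivity
      refine (LipschitzOnWith.of_dist_le_mul (K := (2 * (K / R) / B).toNNReal) fun x hx y hy => ?_).continuousOn
      rw [Real.coe_toNNReal _ hC, Real.dist_eq, Real.dist_eq]
      rcases eq_or_ne x y with rfl | hne
      · simp
      have h2 : |B * (g x - g y) * (y - x)| ≤ 2 * (K / R) * (y - x) ^ 2 := by
        rw [show B * (g x - g y) * (y - x) =
          (F y - F x + B * g x * (y - x)) + (F x - F y + B * g y * (x - y)) by ring]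
        refine (abs_add_le _ _).trans ((add_le_add (hT x hx y hy) (hT y hy x hx)).trans_eq ?_)
        ring
      rw [abs_mul, abs_mul, abs_of_pos hB, ← sq_abs (y - x), abs_sub_comm y x] at h2
      rw [div_mul_eq_mul_div, le_div_iff₀ hB]
      refine le_of_mul_le_mul_right ?_ (abs_pos.2 (sub_ne_zero.2 hne))
      linarith
    have hF : ContinuousOn F (Set.uIcc (r l) c) := by
      refine (LipschitzOnWith.of_dist_le_mul (K := (L / R).toNNReal) fun x hx y hy => ?_).continuousOn
      rw [Real.coe_toNNReal _ (by positivity), Real.dist_eq, Real.dist_eq]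
      refine (hlip R _ _ hR (hP x hx) (hP y hy)).trans_eq ?_
      rw [dist1, sum_eq_single_of_mem l (mem_range.2 hl) (fun i _ hi => by
        rw [Function.update_of_ne hi, Function.update_of_ne hi, sub_self, abs_zero])]
      simp [Function.update_of_ne (show R ≠ l by omega)]
      ring
    have hder : ∀ x ∈ Set.Ioo (min (r l) c) (max (r l) c), HasDerivAt F (-(B * g x)) x := fun x hx => by
      rw [hasDerivAt_iff_tendsto_slope, tendsto_iff_norm_sub_tendsto_zero]
      refine squeeze_zero' (g := fun y => K / R * |y - x|) (Eventually.of_forall fun _ => norm_nonneg _) ?_ ?_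
      · filter_upwards [nhdsWithin_le_nhds (Ioo_mem_nhds hx.1 hx.2), self_mem_nhdsWithin] with y hy hne
        have h := hT x ⟨hx.1.le, hx.2.le⟩ y ⟨hy.1.le, hy.2.le⟩
        have hne' : y - x ≠ 0 := sub_ne_zero.2 hne
        rw [Real.norm_eq_abs, slope_def_field,
          show (F y - F x) / (y - x) - -(B * g x) = (F y - F x + B * g x * (y - x)) / (y - x) by field_simp; ring,
          abs_div, div_le_iff₀ (abs_pos.2 hne'), mul_assoc (K / (R : ℝ)), ← sq, sq_abs]
        exact h
      · have h : Continuous fun y => K / R * |y - x| := by fun_prop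
        simpa using (h.tendsto x).mono_left nhdsWithin_le_nhds
    have hint : IntervalIntegrable (fun v => -(B * g v)) volume (r l) c :=
      ((continuousOn_const.mul hg).neg).intervalIntegrable
    have hftc := intervalIntegral.integral_eq_sub_of_hasDeriv_right hF
      (fun x hx => (hder x hx).hasDerivWithinAt) hint
    rw [intervalIntegral.integral_neg, intervalIntegral.integral_const_mul] at hftc
    have hend := hmin l hl c (hP c Set.right_mem_uIcc)
    have h3 : B * ∫ v in r l..c, g v ≤ √ε * |c - r l| / R := by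
      simp only [F, Function.update_eq_self] at hftc
      linarith
    refine le_of_mul_le_mul_left (h3.trans ?_) hB
    have h4 := mul_le_mul_of_nonneg_right hb (mul_nonneg hs (abs_nonneg (c - r l)))
    rw [hBdef, show β ^ 2 / (2 * (R : ℝ)) * (4 * √ε * |c - r l|) = 2 * (β ^ 2 * (√ε * |c - r l|)) / R by ring]
    refine div_le_div_of_nonneg_right ?_ hR'.le
    nlinarith [mul_nonneg hs (abs_nonneg (c - r l))]

end Vale.Agent.P146.Lower.Marg
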