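import Vale.Agent.P146.Lower.Marg.Step
import Vale.Agent.P146.Lower.Marg.Vary
import Vale.Agent.P146.Lower.Marg.Inv
import Vale.Agent.P146.Lower.Marg.Key
import Vale.Agent.P146.Lower.Marg.Heat
import Vale.Agent.P146.Lower.Marg.StepBase
import Vale.Agent.P157.Par.Close
import Vale.Agent.P157.Par.Upper
import Vale.Agent.P157.Par.Bridge
import Vale.Agent.P157.Par.Taylor

/-! P146 lower bound, marginality: the levels of the nested functional as one-step transforms. -/

open MeasureTheory ProbabilityTheory Real Finset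
open Vale.Agent.P168.MP (lin)
open Vale.Agent.P157.Par (Prof Phi Gamma Vn tl tlN adm_cosh ex_lin tlN_prop)
open Vale.Agent.P157.Par.Br (tlN_shift smooth_cosh)

noncomputable section

namespace Vale.Agent.P146.Lower.Marg

variable {F f1 f2 : ℝ → ℝ}

/-- slope of `log cosh` -/
def th (x : ℝ) : ℝ := sinh x / cosh x

/-- curvature of `log cosh` -/
def sc (x : ℝ) : ℝ := 1 / cosh x ^ 2

lemma th_sq_add_sc (x : ℝ) : sc x + th x ^ 2 = 1 := by
  have := cosh_pos x
  simp only [th, sc]; field_simp
  linarith [cosh_sq x]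

lemma continuous_th : Continuous th := continuous_sinh.div continuous_cosh fun x => (cosh_pos x).ne'
lemma continuous_sc : Continuous sc :=
  continuous_const.div (continuous_cosh.pow 2) fun x => (pow_pos (cosh_pos x) 2).ne'

lemma abs_th (x : ℝ) : |th x| ≤ 1 := abs_le_one_iff_mul_self_le_one.2 (by
  have := th_sq_add_sc x
  have : 0 ≤ sc x := by unfold sc; positivity
  nlinarith)

/-! ### facts about one step -/

lemma sq_cont {f : ℝ → ℝ} (h : Continuous f) : Continuous fun y => f y ^ 2 := h.pow 2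

lemma Cvx.zero1 (h : Cvx F f1 f2) : f1 0 = 0 := by
  have := h.f1_neg 0
  simp only [neg_zero] at this
  linarith

lemma avT_affine (h : Cvx F f1 f2) {m : ℝ} (_hm : 0 ≤ m) (_hm1 : m ≤ 1) (d x : ℝ) {P : ℝ → ℝ}
    (hP : Continuous P) {B : ℝ} (hB : ∀ y, |P y| ≤ B) (a b : ℝ) :
    avT m d F (fun y => a + b * P y) x = a + b * avT m d F P x := by
  rw [avT_add h m d x (P := fun _ => a) (Q := fun y => b * P y) continuous_const (B := |a|) (fun _ => le_rfl)
    (continuous_const.mul hP) (B' := |b| * B) (fun y => by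
      rw [abs_mul]; exact mul_le_mul_of_nonneg_left (hB y) (abs_nonneg _)), avT_const h, avT_const_mul]

lemma avT_le (h : Cvx F f1 f2) {m : ℝ} (_hm : 0 ≤ m) (_hm1 : m ≤ 1) (d x : ℝ) {P Q : ℝ → ℝ}
    (hP : Continuous P) (hQ : Continuous Q) {B : ℝ} (hB : ∀ y, |P y| ≤ B) (hB' : ∀ y, |Q y| ≤ B)
    (hle : ∀ y, P y ≤ Q y) : avT m d F P x ≤ avT m d F Q x := avT_mono h m d x hP hB hQ hB' hle

@[simp] lemma mass_zero (m : ℝ) (F : ℝ → ℝ) (x : ℝ) : mass m 0 F x = exp (m * F x) := by simp [mass]

@[simp] lemma avT_at_zero (m : ℝ) (F P : ℝ → ℝ) (x : ℝ) : avT m 0 F P x = P x := by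
  simp [avT]

@[simp] lemma vS_zero (m : ℝ) (F f1 f2 : ℝ → ℝ) (x : ℝ) : vS m 0 F f1 f2 x = f2 x := by simp [vS]

@[simp] lemma smo_at_zero (m : ℝ) (F : ℝ → ℝ) (x : ℝ) : smo m 0 F x = F x := by
  by_cases hm : m = 0
  · simp [smo, hm]
  · simp [smo, hm]

/-! ### the levels -/

variable (β : ℝ) (R : ℕ) (r : ℕ → ℝ)

/-- variance of step `k` -/
def dd (k : ℕ) : ℝ := β ^ 2 * (r (R - k) - r (R - (k + 1)))

/-- logarithm of the value `k` levels below the top -/
def FL (k : ℕ) (y : ℝ) : ℝ := log (Vn cosh R (lin R) (fun l => β ^ 2 * r l) k y)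

/-- its slope -/
def UL (k : ℕ) : ℝ → ℝ := tlN cosh R (lin R) (fun l => β ^ 2 * r l) 0 k th

/-- its curvature -/
def WL : ℕ → ℝ → ℝ
  | 0 => sc
  | k + 1 => vS (lin R (R - k)) (dd β R r k) (FL β R r k) (UL β R r k) (WL k)

/-- composite mean down to the root -/
def OP (k : ℕ) (P : ℝ → ℝ) : ℝ :=
  avT 0 (β ^ 2 * r 0) (FL β R r R) (tlN cosh R (lin R) (fun l => β ^ 2 * r l) k (R - k) P) 0

/-- correlation of level `l` -/
def Gm (l : ℕ) : ℝ :=
  Vale.Agent.P157.Par.Gamma cosh (fun x => sinh x / cosh x) R (lin R) (fun i => β ^ 2 * r i) l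

/-- curvature at the root -/
def wbar : ℝ := OP β R r R (WL β R r R)

variable {β R r}

lemma gap_eq (l : ℕ) : gap β R r l = Gm β R r l - r l := rfl

lemma Gm_eq {l : ℕ} (hl : l ≤ R) :
    Gm β R r l = OP β R r (R - l) fun y => UL β R r (R - l) y ^ 2 := by
  simp only [Gm, Vale.Agent.P157.Par.Gamma, OP, show R - (R - l) = l by omega, avT, mass, zero_mul, exp_zero, one_mul,
    integral_const, probReal_univ, one_smul, div_one, zero_add]
  rfl

lemma FL_zero : FL β R r 0 = lc := rfl
lemma UL_zero : UL β R r 0 = th := rfl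

lemma lin_mem {k : ℕ} (hk : k ≤ R) : 0 ≤ lin R k ∧ lin R k ≤ 1 := by
  simp only [lin, if_pos hk]
  exact ⟨by positivity, div_le_one_of_le₀ (by exact_mod_cast hk) (Nat.cast_nonneg R)⟩

variable {V : ℝ}

lemma dd_nonneg (hr : Prof R r V) {k : ℕ} (hk : k < R) : 0 ≤ dd β R r k := by
  have := hr.mono (R - (k + 1)) (by omega)
  rw [show R - (k + 1) + 1 = R - k by omega] at this
  exact mul_nonneg (sq_nonneg β) (by linarith)

lemma FL_succ {k : ℕ} (hk : k < R) :
    FL β R r (k + 1) = smo (lin R (R - k)) (dd β R r k) (FL β R r k) :=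
  log_Vn_succ (by omega) hk

lemma UL_succ {k : ℕ} (hk : k < R) :
    UL β R r (k + 1) = avT (lin R (R - k)) (dd β R r k) (FL β R r k) (UL β R r k) := by
  have h := tlN_eq_avT (β := β) (q := r) (R := R) (k := 0) (j := k) (by omega) (by omega) th
  simp only [zero_add] at h
  exact h

lemma cvx_all (hr : Prof R r V) : ∀ k, k ≤ R → Cvx (FL β R r k) (UL β R r k) (WL β R r k)
  | 0, _ => by rw [FL_zero, UL_zero]; exact jet_lc.toCvx
  | k + 1, hk => by
    rw [FL_succ hk, UL_succ hk]
    exact cvx_step (cvx_all hr k (by omega)) (lin_mem (by omega)).1 (lin_mem (by omega)).2 (dd_nonneg hr hk)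

lemma OP_step {k : ℕ} (hk : k < R) (P : ℝ → ℝ) :
    OP β R r (k + 1) (avT (lin R (R - k)) (dd β R r k) (FL β R r k) P) = OP β R r k P := by
  obtain ⟨j, hj⟩ : ∃ j, R - k = j + 1 := ⟨R - k - 1, by omega⟩
  have h := tlN_eq_avT (β := β) (q := r) (R := R) (k := k) (j := 0) (by omega) (by omega) P
  simp only [add_zero, tlN] at h
  have hd : dd β R r k = β ^ 2 * (r (R - k) - r (R - (k + 1))) := rfl
  simp only [OP, hj, tlN_shift, show R - (k + 1) = j by omega]
  congr 2
  rw [show lin R (j + 1) = lin R (R - k) by rw [hj], hd]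
  exact h.symm

lemma tlN_nice {k j : ℕ} (hj : k + j ≤ R) {P : ℝ → ℝ} (hc : Continuous P) {B : ℝ} (hB : ∀ y, |P y| ≤ B) :
    Continuous (tlN cosh R (lin R) (fun l => β ^ 2 * r l) k j P) ∧
      ∀ y, |tlN cosh R (lin R) (fun l => β ^ 2 * r l) k j P y| ≤ B :=
  tlN_prop adm_cosh (ex_lin R) _ k hc hB j hj

lemma OP_le (hr : Prof R r V) {P Q : ℝ → ℝ} (hP : Continuous P) (hQ : Continuous Q) {B : ℝ}
    (hB : ∀ y, |P y| ≤ B) (hB' : ∀ y, |Q y| ≤ B) {k : ℕ} (hk : k ≤ R) (hle : ∀ y, P y ≤ Q y) :
    OP β R r k P ≤ OP β R r k Q := by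
  have key : ∀ j, k + j ≤ R → ∀ y, tlN cosh R (lin R) (fun l => β ^ 2 * r l) k j P y ≤
      tlN cosh R (lin R) (fun l => β ^ 2 * r l) k j Q y := by
    intro j
    induction j with
    | zero => exact fun _ => hle
    | succ j ih =>
      intro hj y
      rw [tlN_eq_avT (by omega) (by omega), tlN_eq_avT (by omega) (by omega)]
      exact avT_le (cvx_all hr _ (by omega)) (lin_mem (by omega)).1 (lin_mem (by omega)).2 _ _
        (tlN_nice (by omega) hP hB).1 (tlN_nice (by omega) hQ hB').1 (tlN_nice (by omega) hP hB).2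
        (tlN_nice (by omega) hQ hB').2 (ih (by omega))
  exact avT_le (cvx_all hr R le_rfl) le_rfl zero_le_one _ _ (tlN_nice (by omega) hP hB).1
    (tlN_nice (by omega) hQ hB').1 (tlN_nice (by omega) hP hB).2 (tlN_nice (by omega) hQ hB').2
    (key (R - k) (by omega))

lemma OP_affine (hr : Prof R r V) {P : ℝ → ℝ} (hP : Continuous P) {B : ℝ}
    (hB : ∀ y, |P y| ≤ B) {k : ℕ} (hk : k ≤ R) (a b : ℝ) :
    OP β R r k (fun y => a + b * P y) = a + b * OP β R r k P := by
  have key : ∀ j, k + j ≤ R → tlN cosh R (lin R) (fun l => β ^ 2 * r l) k j (fun y => a + b * P y) =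
      fun y => a + b * tlN cosh R (lin R) (fun l => β ^ 2 * r l) k j P y := by
    intro j
    induction j with
    | zero => intro _; rfl
    | succ j ih =>
      intro hj
      funext y
      rw [tlN_eq_avT (by omega) (by omega), tlN_eq_avT (by omega) (by omega), ih (by omega)]
      exact avT_affine (cvx_all hr _ (by omega)) (lin_mem (by omega)).1 (lin_mem (by omega)).2 _ _
        (tlN_nice (by omega) hP hB).1 (tlN_nice (by omega) hP hB).2 a b
  simp only [OP, key (R - k) (by omega)]
  exact avT_affine (cvx_all hr R le_rfl) le_rfl zero_le_one _ _ (tlN_nice (by omega) hP hB).1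
    (tlN_nice (by omega) hP hB).2 a b

lemma OP_add (hr : Prof R r V) {P Q : ℝ → ℝ} (hP : Continuous P) (hQ : Continuous Q) {B : ℝ}
    (hB : ∀ y, |P y| ≤ B) (hB' : ∀ y, |Q y| ≤ B) {k : ℕ} (hk : k ≤ R) :
    OP β R r k (fun y => P y + Q y) = OP β R r k P + OP β R r k Q := by
  have key : ∀ j, k + j ≤ R → tlN cosh R (lin R) (fun l => β ^ 2 * r l) k j (fun y => P y + Q y) =
      fun y => tlN cosh R (lin R) (fun l => β ^ 2 * r l) k j P y +
        tlN cosh R (lin R) (fun l => β ^ 2 * r l) k j Q y := by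
    intro j
    induction j with
    | zero => intro _; rfl
    | succ j ih =>
      intro hj
      funext y
      rw [tlN_eq_avT (by omega) (by omega), tlN_eq_avT (by omega) (by omega),
        tlN_eq_avT (by omega) (by omega), ih (by omega)]
      exact avT_add (cvx_all hr _ (by omega)) _ _ _
        (tlN_nice (by omega) hP hB).1 (tlN_nice (by omega) hP hB).2 (tlN_nice (by omega) hQ hB').1
        (tlN_nice (by omega) hQ hB').2
  simp only [OP, key (R - k) (by omega)]
  exact avT_add (cvx_all hr R le_rfl) _ _ _ (tlN_nice (by omega) hP hB).1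
    (tlN_nice (by omega) hP hB).2 (tlN_nice (by omega) hQ hB').1 (tlN_nice (by omega) hQ hB').2

lemma OP_const (hr : Prof R r V) (a : ℝ) {k : ℕ} (hk : k ≤ R) : OP β R r k (fun _ => a) = a := by
  simpa using OP_affine hr (β := β) (P := fun _ => 0) continuous_const (B := 0) (by simp) hk a 0

/-! ### the identity and the two bounds -/

/-- mean curvature seen at each level -/
lemma WL_mean (hR : 1 ≤ R) (hr : Prof R r V) : ∀ k, k ≤ R →
    OP β R r k (WL β R r k) + lin R (R - k) * Gm β R r (R - k) =
      1 - (∑ i ∈ Ico (R - k) R, Gm β R r i) / R := by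
  have hR0 : (R:ℝ) ≠ 0 := Nat.cast_ne_zero.2 (by omega)
  have key : ∀ k, k ≤ R → OP β R r k (WL β R r k) + lin R (R - k) * Gm β R r (R - k) =
      1 - (∑ i ∈ Ico (R - k) R, Gm β R r i) / R := by
    intro k
    induction k with
    | zero =>
      intro _
      rw [Nat.sub_zero, Gm_eq le_rfl, Nat.sub_self, Ico_self, sum_empty, zero_div, sub_zero,
        show lin R R = 1 by rw [lin, if_pos le_rfl, div_self hR0], one_mul, UL_zero]
      show OP β R r 0 sc + OP β R r 0 (fun y => th y ^ 2) = 1
      rw [← OP_add hr continuous_sc (sq_cont continuous_th) (B := 1) (fun y => jet_lc.toCvx.abs2 y)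
        (fun y => by rw [abs_pow]; exact pow_le_one₀ (abs_nonneg _) (abs_th y)) (Nat.zero_le R),
        show (fun y => sc y + th y ^ 2) = fun _ => (1:ℝ) from funext th_sq_add_sc, OP_const hr 1 (Nat.zero_le R)]
    | succ k ih =>
      intro hk
      have ih' := ih (by omega)
      obtain ⟨j, hj⟩ : ∃ j, R - k = j + 1 := ⟨R - k - 1, by omega⟩
      have hj' : R - (k + 1) = j := by omega
      have hc := cvx_all (β := β) hr k (by omega)
      have hc1 := cvx_all (β := β) hr (k + 1) hk
      set m := lin R (R - k)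
      set d := dd β R r k
      have hd := OP_step (β := β) (r := r) hk
      have hsq : Continuous fun y => avT m d (FL β R r k) (fun z => UL β R r k z ^ 2) y := by
        have h := (tlN_nice (β := β) (r := r) (k := k) (j := 1) (by omega) (sq_cont hc.cont1) (B := 1)
          fun y => by rw [abs_pow]; exact pow_le_one₀ (abs_nonneg _) (hc.abs1 y))
        rw [tlN_eq_avT (by omega) (by omega)] at h
        simp only [tlN, add_zero] at h
        exact h.1
      have hw : Continuous fun y => avT m d (FL β R r k) (WL β R r k) y := by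
        have h := (tlN_nice (β := β) (r := r) (k := k) (j := 1) (by omega) hc.cont2 (B := 1) hc.abs2)
        rw [tlN_eq_avT (by omega) (by omega)] at h
        simp only [tlN, add_zero] at h
        exact h.1
      have hb : ∀ (P : ℝ → ℝ), Continuous P → (∀ y, |P y| ≤ 1) → ∀ y, |avT m d (FL β R r k) P y| ≤ 1 := by
        intro P hP hPb y
        have h := (tlN_nice (β := β) (r := r) (k := k) (j := 1) (by omega) hP (B := 1) hPb)
        rw [tlN_eq_avT (by omega) (by omega)] at h
        simp only [tlN, add_zero] at h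
        exact h.2 y
      have hU2 : ∀ y, |UL β R r k y ^ 2| ≤ 1 := fun y => by
        rw [abs_pow]; exact pow_le_one₀ (abs_nonneg _) (hc.abs1 y)
      have e : OP β R r (k + 1) (WL β R r (k + 1)) = OP β R r k (WL β R r k) +
          m * (Gm β R r (R - k) - Gm β R r (R - (k + 1))) := by
        rw [Gm_eq (by omega), Gm_eq (by omega), show R - (R - k) = k by omega,
          show R - (R - (k + 1)) = k + 1 by omega, ← hd (WL β R r k), ← hd fun y => UL β R r k y ^ 2]
        set P := fun y => avT m d (FL β R r k) (WL β R r k) y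
        set Q := fun y => avT m d (FL β R r k) (fun z => UL β R r k z ^ 2) y
        set N := fun y => UL β R r (k + 1) y ^ 2
        have eW : WL β R r (k + 1) = fun y => P y + (m * Q y + (-m) * N y) := funext fun y => by
          show vS m d _ _ _ y = _
          simp only [vS, P, Q, N, UL_succ hk]
          ring
        have hm' := lin_mem (R := R) (k := R - k) (by omega)
        have hN : ∀ y, |N y| ≤ 1 := fun y => by
          simp only [N]; rw [abs_pow]; exact pow_le_one₀ (abs_nonneg _) (hc1.abs1 y)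
        have hQ : ∀ y, |m * Q y| ≤ 1 := fun y => by
          rw [abs_mul, abs_of_nonneg hm'.1]
          exact mul_le_one₀ hm'.2 (abs_nonneg _) (hb _ (sq_cont hc.cont1) hU2 y)
        have hN' : ∀ y, |(-m) * N y| ≤ 1 := fun y => by
          rw [abs_mul, abs_neg, abs_of_nonneg hm'.1]
          exact mul_le_one₀ hm'.2 (abs_nonneg _) (hN y)
        have c1 : Continuous fun y => m * Q y := continuous_const.mul hsq
        have c2 : Continuous fun y => (-m) * N y := continuous_const.mul (sq_cont hc1.cont1)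
        have c3 : Continuous fun y => m * Q y + (-m) * N y := c1.add c2
        rw [eW, OP_add hr hw c3 (B := 2)
          (fun y => (hb _ hc.cont2 hc.abs2 y).trans (by norm_num))
          (fun y => (abs_add_le _ _).trans (by linarith [hQ y, hN' y])) hk,
          OP_add hr c1 c2 hQ hN' hk]
        have a1 := OP_affine hr (β := β) hsq (B := 1) (hb _ (sq_cont hc.cont1) hU2) hk 0 m
        have a2 := OP_affine hr (β := β) (sq_cont hc1.cont1) (B := 1) hN hk 0 (-m)
        simp only [zero_add] at a1 a2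
        change OP β R r (k + 1) P + (OP β R r (k + 1) (fun y => m * Q y) + OP β R r (k + 1) fun y => (-m) * N y) =
          OP β R r (k + 1) P + m * (OP β R r (k + 1) Q - OP β R r (k + 1) N)
        rw [a1, a2]; ring
      have hl : lin R (R - (k + 1)) = m - 1 / R := by
        simp only [m, lin, hj, hj', if_pos (show j + 1 ≤ R by omega), if_pos (show j ≤ R by omega)]
        push_cast; ring
      rw [e, hl, hj', sum_eq_sum_Ico_succ_bot (show j < R by omega), ← hj]
      have : (∑ i ∈ Ico (R - k) R, Gm β R r i) / (R:ℝ) + 1 / R * Gm β R r j =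
          (Gm β R r j + ∑ i ∈ Ico (R - k) R, Gm β R r i) / R := by ring
      linarith
  exact key

/-- the root curvature is one minus the mean correlation -/
lemma wbar_eq (hR : 1 ≤ R) (hr : Prof R r V) :
    wbar β R r = 1 - (∑ i ∈ range R, Gm β R r i) / R := by
  have h := WL_mean (β := β) hR hr R le_rfl
  rw [Nat.sub_self, show lin R 0 = 0 by simp [lin], zero_mul, add_zero, ← range_eq_Ico] at h
  exact h

/-- correlations never exceed `1 - exp (-β² r)` -/
lemma Gm_le_exp (hr : Prof R r V) {l : ℕ} (hl : l ≤ R) :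
    Gm β R r l ≤ 1 - exp (-(β ^ 2 * r l)) := by
  have key : ∀ j, j ≤ l → OP β R r (R - l) (fun y => UL β R r (R - l) y ^ 2) ≤
      OP β R r (R - l + j) fun y => 1 + (-exp (-(β ^ 2 * (r l - r (l - j))))) * (1 - UL β R r (R - l + j) y ^ 2) := by
    intro j
    induction j with
    | zero => intro _; simp
    | succ j ih =>
      intro hj
      set k := R - l + j with hk
      have hk' : k < R := by omega
      have hc := cvx_all (β := β) hr k hk'.le
      have hc1 := cvx_all (β := β) hr (k + 1) hk'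
      have hm := lin_mem (R := R) (k := R - k) (by omega)
      set E := exp (-(β ^ 2 * (r l - r (l - j))))
      have hP : Continuous fun y => 1 - UL β R r k y ^ 2 := continuous_const.sub (sq_cont hc.cont1)
      have hPb : ∀ y, |1 - UL β R r k y ^ 2| ≤ 1 := fun y => by
        rw [abs_of_nonneg (by nlinarith [hc.le2 y, hc.nonneg2 y])]
        linarith [sq_nonneg (UL β R r k y)]
      have hE : ∀ (u : ℝ), |u| ≤ 1 → ∀ (x : ℝ), 0 ≤ x → |1 + (-x) * u| ≤ 1 + x := fun u hu x hx => by
        refine (abs_add_le _ _).trans ?_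
        rw [abs_one, abs_mul, abs_neg, abs_of_nonneg hx]
        linarith [mul_le_of_le_one_right hx hu]
      refine (ih (by omega)).trans ?_
      rw [show R - l + (j + 1) = k + 1 by omega, ← OP_step hk']
      set E' := exp (-(β ^ 2 * (r l - r (l - (j + 1)))))
      have hEE : E' = E * exp (-dd β R r k) := by
        simp only [E, E', ← exp_add, dd, show R - k = l - j by omega, show R - (k + 1) = l - (j + 1) by omega]
        congr 1
        ring
      have hP1b : ∀ y, |1 - UL β R r (k + 1) y ^ 2| ≤ 1 := fun y => by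
        rw [abs_of_nonneg (by nlinarith [hc1.le2 y, hc1.nonneg2 y])]
        linarith [sq_nonneg (UL β R r (k + 1) y)]
      have hcts := (tlN_nice (β := β) (R := R) (r := r) (k := k) (j := 1) (P := fun y => 1 + -E * (1 - UL β R r k y ^ 2))
        (by omega) (continuous_const.add (continuous_const.mul hP)) (B := 2 + E + E')
        fun y => (hE _ (hPb y) E (exp_pos _).le).trans (by linarith [exp_pos (-(β ^ 2 * (r l - r (l - (j + 1)))))]))
      rw [tlN_eq_avT (R := R) (k := k) (j := 0) (by omega) (by omega)] at hcts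
      simp only [tlN, add_zero] at hcts
      refine OP_le hr hcts.1 (continuous_const.add (continuous_const.mul (continuous_const.sub (sq_cont hc1.cont1))))
        hcts.2 (fun y => (hE _ (hP1b y) E' (exp_pos _).le).trans (by linarith [exp_pos (-(β ^ 2 * (r l - r (l - j))))]))
        hk' fun y => ?_
      show avT (lin R (R - k)) (dd β R r k) (FL β R r k) (fun y => 1 + -E * (1 - UL β R r k y ^ 2)) y ≤ _
      rw [avT_affine hc hm.1 hm.2 _ _ hP hPb, hEE]
      have h := step_sq_le hc hm.1 hm.2 (dd_nonneg (β := β) hr hk') y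
      rw [← UL_succ hk'] at h
      have e : avT (lin R (R - k)) (dd β R r k) (FL β R r k) (fun y => 1 - UL β R r k y ^ 2) y =
          1 - avT (lin R (R - k)) (dd β R r k) (FL β R r k) (fun y => UL β R r k y ^ 2) y := by
        have := avT_affine hc hm.1 hm.2 (dd β R r k) y (P := fun y => UL β R r k y ^ 2) (sq_cont hc.cont1) (B := 1)
          (fun y => by rw [abs_pow]; exact pow_le_one₀ (abs_nonneg _) (hc.abs1 y)) 1 (-1)
        simpa [sub_eq_add_neg] using this
      rw [e]
      have := mul_le_mul_of_nonneg_left h (show 0 ≤ E from (exp_pos _).le)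
      simp only [Pi.add_apply, Pi.mul_apply, Pi.sub_apply]
      linarith
  rw [Gm_eq hl]
  refine (key l le_rfl).trans ?_
  rw [show R - l + l = R by omega, Nat.sub_self]
  set E := exp (-(β ^ 2 * (r l - r 0)))
  have hc := cvx_all (β := β) hr R le_rfl
  have hd : 0 ≤ β ^ 2 * r 0 := mul_nonneg (sq_nonneg β) hr.zero
  have hPb : ∀ y, |UL β R r R y ^ 2| ≤ 1 := fun y => by
    rw [abs_pow]; exact pow_le_one₀ (abs_nonneg _) (hc.abs1 y)
  have h := step_sq_le hc le_rfl zero_le_one hd 0
  have h0 : avT 0 (β ^ 2 * r 0) (FL β R r R) (UL β R r R) 0 = 0 :=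
    (cvx_step hc le_rfl zero_le_one hd).zero1
  rw [h0] at h
  have e : OP β R r R (fun y => 1 + -E * (1 - UL β R r R y ^ 2)) =
      1 + -E * (1 - avT 0 (β ^ 2 * r 0) (FL β R r R) (fun y => UL β R r R y ^ 2) 0) := by
    have := OP_affine hr (β := β) (sq_cont hc.cont1) (B := 1) hPb le_rfl (1 - E) E
    rw [show (fun y => 1 + -E * (1 - UL β R r R y ^ 2)) = fun y => (1 - E) + E * UL β R r R y ^ 2 from
      funext fun y => by ring, this]
    simp only [OP, Nat.sub_self, tlN]
    ring
  rw [e]
  have : E * exp (-(β ^ 2 * r 0)) = exp (-(β ^ 2 * r l)) := by rw [← exp_add]; congr 1; ring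
  have := mul_le_mul_of_nonneg_left h (show 0 ≤ E from (exp_pos _).le)
  linarith

end Vale.Agent.P146.Lower.Marg
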