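import Vale.Agent.P146.Lower.Marginal
import Vale.Agent.P146.Lower.Marg.Incr

/-! P146 polynomial lower bound: near-minimisers are marginal and spread away from zero, with polynomial constants. -/

open MeasureTheory ProbabilityTheory Real Finset
open Vale.Agent.P168.MP (lin)
open Vale.Agent.P157.Par (Prof dist1)

noncomputable section

namespace Vale.Agent.P146.Lower.Marg

variable {β : ℝ} {R : ℕ} {r p : ℕ → ℝ}

lemma Gm_mono (hR : 1 ≤ R) (hr : Prof R r 1) {i l : ℕ} (hil : i ≤ l) (hl : l ≤ R) :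
    Gm β R r i ≤ Gm β R r l := by
  have h : Prof R (fun l => Vale.Agent.P157.Par.Gamma cosh (fun x => sinh x / cosh x) R (lin R)
      (fun i => β ^ 2 * r i) l) (2 ^ 2) := by
    simpa [Vale.Agent.P157.Par.cosh_eq_exp] using
      Vale.Agent.P157.Par.Gamma_prof Vale.Agent.P157.Par.sm_logcosh hR (hr.scale (sq_nonneg β))
        (fun w hw => Vale.Agent.P168.MP.ok_lin hR hw)
  exact h.le_of_le hil hl

lemma suc_le_wbar (hR : 1 ≤ R) (hr : Prof R r 1) {l : ℕ} (hl : l ≤ R) : suc β R r l ≤ wbar β R r := by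
  have : 0 ≤ (∑ i ∈ range l, (Gm β R r l - Gm β R r i)) / R :=
    div_nonneg (sum_nonneg fun i hi => sub_nonneg.2 (Gm_mono hR hr (mem_range.1 hi).le hl)) (Nat.cast_nonneg R)
  simp only [suc]; linarith

lemma le_suc (hR : 1 ≤ R) (hr : Prof R r 1) {l : ℕ} (hl : l ≤ R) :
    wbar β R r - Gm β R r l ≤ suc β R r l := by
  have hG := Gm_nonneg (β := β) hr hl
  have : (∑ i ∈ range l, (Gm β R r l - Gm β R r i)) / R ≤ Gm β R r l := by
    rw [div_le_iff₀ (Nat.cast_pos.2 hR)]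
    calc ∑ i ∈ range l, (Gm β R r l - Gm β R r i) ≤ ∑ _i ∈ range l, Gm β R r l :=
          sum_le_sum fun i hi => sub_le_self _ (Gm_nonneg hr ((mem_range.1 hi).le.trans hl))
      _ = l * Gm β R r l := by simp
      _ ≤ R * Gm β R r l := mul_le_mul_of_nonneg_right (Nat.cast_le.2 hl) hG
      _ = _ := mul_comm _ _
  simp only [suc]; linarith

lemma suc_succ (l : ℕ) :
    suc β R r (l + 1) = suc β R r l - ((l : ℝ) + 1) / R * (Gm β R r (l + 1) - Gm β R r l) := by
  simp only [suc, sum_sub_distrib, sum_const, card_range, nsmul_eq_mul, sum_range_succ, Nat.cast_add, Nat.cast_one]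
  ring

lemma lt_one {e : ℝ} (hr : Prof R r 1) (he : e < exp (-(β ^ 2))) (hlo : ∀ l < R, -e ≤ gap β R r l) :
    ∀ i < R, r i < 1 := fun i hi => by
  refine lt_of_le_of_ne (hr.upper hi.le).2 fun h => ?_
  have h1 := hlo i hi
  rw [gap_eq, h] at h1
  have h2 := Gm_le_exp (β := β) hr hi.le
  rw [h, mul_one] at h2
  linarith

lemma wbar_top {e : ℝ} (hR : 1 ≤ R) (hr : Prof R r 1) (he : 0 ≤ e) (he' : e < exp (-(β ^ 2)))
    (hlo : ∀ l < R, -e ≤ gap β R r l) (hhi : ∀ l < R, r l < 1 → gap β R r l ≤ e) :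
    |wbar β R r - top R r| ≤ e := by
  rw [wbar_eq hR hr, top_eq' hR, show ∀ x y : ℝ, 1 - x - (1 - y) = -(x - y) from fun x y => by ring, abs_neg]
  exact avg_close he fun i hi => abs_le.2 ⟨hlo i hi, hhi i hi (lt_one hr he' hlo i hi)⟩

lemma low_chain {η θ D : ℝ} (hβ : 0 ≤ β) (hη : 0 < η) (hD0 : 0 ≤ D) (hR : 1 ≤ R) (hp : Prof R p 1)
    (hD : ∀ l < R, Gm β R p l ≤ D * p l) (hw : 1 + 3 * η / 4 ≤ β * wbar β R p)
    (hθ1 : 4 * β * D * θ ≤ 1) (hθ2 : 8 * β ^ 4 * θ ≤ 1) :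
    (1 + η / 2) * p 0 ≤ Gm β R p 0 ∧ ∀ j < R, p j ≤ θ * η → (1 + η / 2) * p j ≤ Gm β R p j := by
  have hsq : ∀ x : ℝ, 1 + η / 2 ≤ x → 1 + η ≤ x ^ 2 := fun x hx => by
    have := pow_le_pow_left₀ (by linarith : 0 ≤ 1 + η / 2) hx 2
    linarith [sq_nonneg η]
  have h0 : (1 + η / 2) * p 0 ≤ Gm β R p 0 := by
    have h1 := mul_le_mul_of_nonneg_left (hsq _ (by linarith : 1 + η / 2 ≤ β * wbar β R p)) hp.zero
    have h2 := mul_nonneg hη.le hp.zero
    linarith [incr_zero (β := β) hR hp]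
  refine ⟨h0, fun j => ?_⟩
  induction j with
  | zero => intro _ _; exact h0
  | succ j ih =>
    intro hj hpj
    have hj' : j < R := by omega
    have hu := hp.upper hj'.le
    have hmono := hp.mono j hj'
    have ih' := ih hj' (hmono.trans hpj)
    obtain ⟨Δ, hΔ⟩ : ∃ Δ, Δ = p (j + 1) - p j := ⟨_, rfl⟩
    have hΔ0 : 0 ≤ Δ := by linarith
    have hG : Gm β R p j ≤ D * (θ * η) := (hD j hj').trans (mul_le_mul_of_nonneg_left (hmono.trans hpj) hD0)
    have hs : 1 + η / 2 ≤ β * suc β R p j := by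
      have h1 := mul_le_mul_of_nonneg_left ((le_suc (β := β) hR hp hj'.le).trans' (sub_le_sub_left hG _)) hβ
      have h2 := mul_le_mul_of_nonneg_right hθ1 hη.le
      linarith
    have hinc := incr_ge (β := β) hR hp hj'
    rw [← hΔ] at hinc
    have he : 2 * (((j : ℝ) + 1) / R) * (β ^ 2 * Δ) ^ 2 ≤ η / 4 * Δ := by
      have h1 : ((j : ℝ) + 1) / R ≤ 1 := by
        rw [div_le_one (Nat.cast_pos.2 (by omega))]; exact_mod_cast hj'
      have h2 := mul_le_mul_of_nonneg_right h1 (sq_nonneg (β ^ 2 * Δ))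
      have h3 := mul_le_mul_of_nonneg_left (show Δ ≤ θ * η by linarith) (show 0 ≤ 2 * β ^ 4 * Δ by positivity)
      have h4 := mul_le_mul_of_nonneg_right hθ2 (mul_nonneg hη.le hΔ0)
      linarith
    have h2 := mul_le_mul_of_nonneg_left (hsq _ hs) hΔ0
    have h3 : 0 ≤ η * Δ := mul_nonneg hη.le hΔ0
    rw [show p (j + 1) = p j + Δ by linarith]
    linarith

/-- **Marginality from above**, with `e` quadratic in `η` -/
theorem stationary_upper (hβ : 1 < β) :
    ∃ θ : ℝ, 0 < θ ∧ ∀ η : ℝ, 0 < η → η ≤ 1 → ∀ (R : ℕ) (r : ℕ → ℝ) (e : ℝ), 1 ≤ R → Prof R r 1 → r R = 1 →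
      0 ≤ e → e ≤ θ * η ^ 2 → (∀ l < R, -e ≤ gap β R r l) → (∀ l < R, r l < 1 → gap β R r l ≤ e) →
      (∀ l < R, ∀ x : ℝ, (∀ i < l, r i ≤ x) → 0 ≤ x → x ≤ r (l + 1) →
        ∫ v in r l..x, gap β R (Function.update r l v) l ≤ e * |x - r l|) →
      β * top R r ≤ 1 + η := by
  obtain ⟨K, hK, hlip⟩ := Gm_lip β
  obtain ⟨D, hD, hlin⟩ : ∃ D : ℝ, 0 ≤ D ∧ ∀ (R : ℕ) (r : ℕ → ℝ), 1 ≤ R → Prof R r 1 → ∀ l < R,
      Gm β R r l ≤ D * r l := ⟨β ^ 2, sq_nonneg β, fun R r _ hr l hl => Gm_le_lin hr hl.le⟩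
  have hβ0 : 0 < β := by linarith
  obtain ⟨θ, hθ, hθx, hθ1, hθ2, hθK, hθ8⟩ : ∃ θ : ℝ, 0 < θ ∧ θ ≤ exp (-(β ^ 2)) / 2 ∧ θ * (4 * β * (D + 1)) ≤ 1 ∧
      θ * (8 * β ^ 4) ≤ 1 ∧ θ * (16 * β * (K + 1)) ≤ 1 ∧ θ ≤ 1 / 8 :=
    ⟨min (exp (-(β ^ 2)) / 2) (min (1 / (4 * β * (D + 1))) (min (1 / (8 * β ^ 4))
        (min (1 / (16 * β * (K + 1))) (1 / 8)))),
      lt_min (by positivity) (lt_min (by positivity) (lt_min (by positivity) (lt_min (by positivity) (by norm_num)))),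
      min_le_left _ _, (le_div_iff₀ (by positivity)).1 ((min_le_right _ _).trans (min_le_left _ _)),
      (le_div_iff₀ (by positivity)).1 ((min_le_right _ _).trans ((min_le_right _ _).trans (min_le_left _ _))),
      (le_div_iff₀ (by positivity)).1
        ((min_le_right _ _).trans ((min_le_right _ _).trans ((min_le_right _ _).trans (min_le_left _ _)))),
      (min_le_right _ _).trans ((min_le_right _ _).trans ((min_le_right _ _).trans (min_le_right _ _)))⟩
  refine ⟨θ / 32, by positivity, fun η hη hη1 R r e hR hr hr1 he heθ hlo hhi hint => ?_⟩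
  by_contra hcon
  push Not at hcon
  have hR0 : (0 : ℝ) < R := Nat.cast_pos.2 hR
  have hη2 : η ^ 2 ≤ η := pow_le_of_le_one hη.le hη1 two_ne_zero
  have hθη : 0 ≤ θ * η ^ 2 := by positivity
  have hθ4 : 4 * β * D * θ ≤ 1 := by linarith [mul_pos hθ hβ0]
  have hθ' : 8 * β ^ 4 * θ ≤ 1 := by linarith
  have hee : e < exp (-(β ^ 2)) := by
    linarith [mul_le_of_le_one_right hθ.le (hη2.trans hη1), exp_pos (-(β ^ 2))]
  have hlt := lt_one hr hee hlo
  have hw0 := (abs_le.1 (wbar_top hR hr he hee hlo hhi)).1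
  have hbe : β * e + 2 * β * K * (θ * η) ≤ η / 4 := by
    have h1 := mul_le_mul_of_nonneg_left heθ hβ0.le
    have h2 := mul_le_mul_of_nonneg_left hη2 (mul_nonneg hβ0.le hθ.le)
    have h3 := mul_le_mul_of_nonneg_right hθK hη.le
    have h4 : 0 ≤ β * (θ * η) := by positivity
    have h5 : 0 ≤ β * K * (θ * η) := by positivity
    linarith
  have hwr : 1 + η ≤ β * wbar β R r + β * e := by
    have := mul_le_mul_of_nonneg_left hw0 hβ0.le
    linarith
  have hKθ : 0 ≤ β * K * (θ * η) := by positivity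
  obtain ⟨hz, hch⟩ := low_chain hβ0.le hη hD hR hr (hlin R r hR hr) (by linarith) hθ4 hθ'
  have hsmall : ∀ i < R, (1 + η / 2) * r i ≤ Gm β R r i → r i ≤ θ * η / 16 := fun i hi h => by
    have h1 := hhi i hi (hlt i hi)
    rw [gap_eq] at h1
    refine le_of_mul_le_mul_left ?_ hη
    linarith
  set j := Nat.findGreatest (fun i => r i ≤ θ * η) (R - 1)
  have hj : j < R := by
    have : j ≤ R - 1 := Nat.findGreatest_le _
    omega
  have h0 : r 0 ≤ θ * η := (hsmall 0 (by omega) hz).trans (by linarith [mul_pos hθ hη])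
  have hjp : r j ≤ θ * η :=
    Nat.findGreatest_spec (P := fun i => r i ≤ θ * η) (Nat.zero_le _) h0
  have hjs : r j ≤ θ * η / 16 := hsmall j hj (hch j hj hjp)
  obtain ⟨δ, hδdef⟩ : ∃ δ, δ = θ * η / 2 := ⟨_, rfl⟩
  have hδ : 0 < δ := by rw [hδdef]; positivity
  have hnext : r j + δ ≤ r (j + 1) := by
    rcases Nat.lt_or_ge (j + 1) R with h | h
    · have := Nat.findGreatest_is_greatest (P := fun i => r i ≤ θ * η) (show j < j + 1 by omega)
        (show j + 1 ≤ R - 1 by omega)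
      push Not at this
      linarith [mul_pos hθ hη]
    · rw [show j + 1 = R by omega, hr1]
      linarith [mul_le_of_le_one_right hθ.le hη1]
  have hprof : ∀ v ∈ Set.Icc (r j) (r j + δ), Prof R (Function.update r j v) 1 := fun v hv =>
    prof_update hr hj (fun i hi => (hr.le_of_le hi.le hj.le).trans hv.1) ((hr.upper hj.le).1.trans hv.1)
      (hv.2.trans hnext)
  have hge : ∀ v ∈ Set.Icc (r j) (r j + δ), η / 2 * (v - r j) ≤ gap β R (Function.update r j v) j := fun v hv => by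
    have hd : dist1 R r (Function.update r j v) ≤ θ * η := by
      refine (dist1_le_of (b := θ * η) hR le_rfl (fun i _ hne => by
        rw [Function.update_of_ne hne, sub_self, abs_zero]) hj (by
          rw [Function.update_self, abs_sub_comm, abs_of_nonneg (by linarith [hv.1])]
          linarith [hv.2, (hr.upper hj.le).1])).trans ?_
      have : θ * η / R ≤ θ * η := div_le_self (by positivity) (Nat.one_le_cast.2 hR)
      linarith
    have h1 := mul_le_mul_of_nonneg_left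
      ((abs_le.1 (hlip R r _ hR hr (hprof v hv)).2).2.trans (mul_le_mul_of_nonneg_left hd (by positivity))) hβ0.le
    have h2 := (low_chain hβ0.le hη hD hR (hprof v hv) (hlin R _ hR (hprof v hv)) (by linarith) hθ4 hθ').2 j hj
      (by rw [Function.update_self]; linarith [hv.2])
    rw [Function.update_self] at h2
    rw [gap_eq, Function.update_self]
    have := mul_nonneg hη.le (hr.upper hj.le).1
    linarith
  have hI := hint j hj (r j + δ) (fun i hi => (hr.le_of_le hi.le hj.le).trans (by linarith))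
    (by linarith [(hr.upper hj.le).1]) hnext
  rw [show r j + δ - r j = δ by ring, abs_of_pos hδ] at hI
  have hc : Continuous fun v : ℝ => η / 2 * (v - r j) := by fun_prop
  have hmono : ∫ v in r j..(r j + δ), η / 2 * (v - r j) ≤
      ∫ v in r j..(r j + δ), gap β R (Function.update r j v) j :=
    intervalIntegral.integral_mono_on (by linarith) (hc.intervalIntegrable _ _)
      ((cont_gap hK hR hj (fun p q => hlip R p q hR) hprof).intervalIntegrable_of_Icc (by linarith)) hge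
  have e1 : ∫ v in r j..(r j + δ), η / 2 * (v - r j) = η / 4 * δ ^ 2 := by
    rw [intervalIntegral.integral_const_mul, intervalIntegral.integral_comp_sub_right (fun v => v) (r j),
      integral_id]
    ring
  have h2 : η / 4 * δ ≤ e := by
    refine le_of_mul_le_mul_right ?_ hδ
    linarith
  rw [hδdef] at h2
  have : 0 < θ * η ^ 2 := by positivity
  linarith

/-- above a level of exponent at least `μ` the deficit falls quadratically while the levels stay small -/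
lemma growth {C D μ ρ α η κ : ℝ} {L : ℕ} (hβ : 1 ≤ β) (hR : 1 ≤ R) (hp : Prof R p 1) (hC : 0 ≤ C) (hD0 : 0 ≤ D)
    (hD : ∀ l < R, Gm β R p l ≤ D * p l)
    (hinc : ∀ l, l + 1 < R → p (l + 1) ≤ ρ →
      Gm β R p (l + 1) - Gm β R p l + ((l : ℝ) + 1) / R * suc β R p l * (Gm β R p (l + 1) - Gm β R p l) ^ 2 ≤
        β ^ 2 * (p (l + 1) - p l) * suc β R p l ^ 2 + C * (p (l + 1) - p l) * p (l + 1) ^ 2)
    (hw1 : 1 / (2 * β) ≤ wbar β R p) (hw2 : β * wbar β R p ≤ 1 + 2 * η) (hη : 0 ≤ η) (hη1 : η ≤ 1)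
    (hμ : 0 ≤ μ) (hμL : μ ≤ ((L : ℝ) + 1) / R) (hα : p L ≤ α)
    (hρD : 4 * β * D * ρ ≤ 1) (hρ4 : 64 * β ^ 4 * ρ ≤ 1) (hκ : κ * (4096 * β) = μ) (hρκ : 4 * C * ρ ≤ κ) :
    ∀ i, L ≤ i → i < R → p i ≤ ρ →
      gap β R p i ≤ gap β R p L + (8 * η + 2 * C * α ^ 2) * (p i - p L) - κ / 2 * (p i - p L) ^ 2 := by
  have hβ0 : 0 < β := by linarith
  have hb : ∀ l < R, p l ≤ ρ → 1 / 4 ≤ β * suc β R p l ∧ β * suc β R p l ≤ 1 + 2 * η := fun l hl hlρ => by
    refine ⟨?_, (mul_le_mul_of_nonneg_left (suc_le_wbar hR hp hl.le) hβ0.le).trans hw2⟩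
    have h1 := mul_le_mul_of_nonneg_left ((sub_le_sub_left ((hD l hl).trans
      (mul_le_mul_of_nonneg_left hlρ hD0)) _).trans (le_suc (β := β) hR hp hl.le)) hβ0.le
    have h2 := mul_le_mul_of_nonneg_left hw1 hβ0.le
    rw [show β * (1 / (2 * β)) = 1 / 2 by field_simp] at h2
    linarith
  suffices key : ∀ i, L ≤ i → i < R → p i ≤ ρ →
      (p i - p L) / 32 ≤ Gm β R p i - Gm β R p L ∧
      suc β R p i + μ * Gm β R p i ≤ suc β R p L + μ * Gm β R p L ∧
      gap β R p i ≤ gap β R p L + (8 * η + 2 * C * α ^ 2) * (p i - p L) - κ / 2 * (p i - p L) ^ 2 from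
    fun i h1 h2 h3 => (key i h1 h2 h3).2.2
  intro i hi
  induction i, hi using Nat.le_induction with
  | base => intro _ _; simp
  | succ l hl ih =>
    intro hlR hlρ
    have hl' : l < R := by omega
    have hmono := hp.mono l hl'
    obtain ⟨ihG, ihS, ihg⟩ := ih hl' (hmono.trans hlρ)
    have hpL := hp.le_of_le hl hl'.le
    obtain ⟨hs1, hs2⟩ := hb l hl' (hmono.trans hlρ)
    obtain ⟨hL1, hL2⟩ := hb L (by omega) (hpL.trans (hmono.trans hlρ))
    obtain ⟨Δ, hΔ⟩ : ∃ Δ, Δ = p (l + 1) - p l := ⟨_, rfl⟩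
    obtain ⟨X, hX⟩ : ∃ X, X = p l - p L := ⟨_, rfl⟩
    obtain ⟨dG, hdG⟩ : ∃ dG, dG = Gm β R p (l + 1) - Gm β R p l := ⟨_, rfl⟩
    obtain ⟨sl, hsl⟩ : ∃ sl, sl = suc β R p l := ⟨_, rfl⟩
    obtain ⟨m, hm⟩ : ∃ m, m = ((l : ℝ) + 1) / R := ⟨_, rfl⟩
    rw [← hsl] at hs1 hs2 ihS
    rw [← hX] at ihG ihg
    have hΔ0 : 0 ≤ Δ := by linarith
    have hX0 : 0 ≤ X := by linarith
    have hu := hp.upper hl'.le
    have hpl1 : 0 ≤ p (l + 1) := hu.1.trans hmono
    have hpL0 := (hp.upper (show L ≤ R by omega)).1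
    have hsl0 : 0 ≤ sl := by
      by_contra h
      push Not at h
      linarith [mul_neg_of_pos_of_neg hβ0 h]
    have hm1 : m ≤ 1 := by
      rw [hm, div_le_one (Nat.cast_pos.2 (by omega))]; exact_mod_cast hl'
    have hμm : μ ≤ m := hμL.trans (by rw [hm]; gcongr)
    have hge := incr_ge (β := β) hR hp hl'
    have hle := hinc l hlR hlρ
    rw [← hdG, ← hΔ, ← hsl, ← hm] at hge hle
    have hdG1 : Δ / 32 ≤ dG := by
      have h1 := mul_le_mul_of_nonneg_left (pow_le_pow_left₀ (by norm_num) hs1 2) hΔ0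
      have h2 := mul_le_mul_of_nonneg_right hm1 (sq_nonneg (β ^ 2 * Δ))
      have h3 := mul_le_mul_of_nonneg_left (show Δ ≤ ρ by linarith) (show 0 ≤ 2 * β ^ 4 * Δ by positivity)
      have h4 := mul_le_mul_of_nonneg_left hρ4 hΔ0
      linarith
    have hG' : Gm β R p (l + 1) = Gm β R p l + dG := by linarith
    refine ⟨by linarith, ?_, ?_⟩
    · rw [suc_succ, ← hdG, ← hm, ← hsl, hG']
      have := mul_le_mul_of_nonneg_right hμm (show 0 ≤ dG by linarith)
      linarith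
    · have hdiff : μ * (X / 32) ≤ suc β R p L - sl := by
        have := mul_le_mul_of_nonneg_left ihG hμ
        linarith
      have h5 : (β * sl) ^ 2 ≤ 1 + 8 * η - μ * β * X / 128 := by
        have hd0 : 0 ≤ β * suc β R p L - β * sl := by
          have := mul_le_mul_of_nonneg_left hdiff hβ0.le
          have : 0 ≤ μ * β * X := by positivity
          linarith
        have a1 := mul_le_mul_of_nonneg_right hL1 hd0
        have a2 := mul_le_mul_of_nonneg_left (show β * sl ≤ β * suc β R p L by linarith) (show 0 ≤ β * sl by linarith)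
        have a3 := mul_le_mul_of_nonneg_left hdiff hβ0.le
        have a4 := pow_le_pow_left₀ (show 0 ≤ β * suc β R p L by linarith) hL2 2
        have a5 := mul_le_mul_of_nonneg_left hη1 hη
        have a6 : 0 ≤ (β * suc β R p L - β * sl) * (β * sl) := mul_nonneg hd0 (by linarith)
        linarith
      have h6 : κ * Δ ^ 2 ≤ m * sl * dG ^ 2 := by
        have b1 := pow_le_pow_left₀ (by positivity) hdG1 2
        have b2 := mul_le_mul hμm hs1 (by norm_num) (hμ.trans hμm)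
        have b3 := mul_le_mul b2 b1 (by positivity) (mul_nonneg (hμ.trans hμm) (by linarith))
        refine le_of_mul_le_mul_left ?_ hβ0
        rw [← hκ] at b3
        linarith
      have h7 : C * Δ * p (l + 1) ^ 2 ≤ 2 * C * α ^ 2 * Δ + κ / 2 * (Δ * (2 * X + Δ)) := by
        have c1 : p (l + 1) ^ 2 ≤ 2 * α ^ 2 + 2 * (X + Δ) ^ 2 := by
          have := pow_le_pow_left₀ hpl1 (show p (l + 1) ≤ α + (X + Δ) by linarith) 2
          linarith [sq_nonneg (α - (X + Δ))]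
        have c2 : (X + Δ) ^ 2 ≤ ρ * (2 * X + Δ) := by
          have d1 := mul_le_mul (show X + Δ ≤ ρ by linarith) (show X + Δ ≤ 2 * X + Δ by linarith)
            (by linarith) (hpl1.trans hlρ)
          linarith
        have c3 := mul_le_mul_of_nonneg_left (c1.trans (add_le_add le_rfl (mul_le_mul_of_nonneg_left c2 two_pos.le)))
          (mul_nonneg hC hΔ0)
        have c4 := mul_le_mul_of_nonneg_right hρκ (mul_nonneg hΔ0 (show 0 ≤ 2 * X + Δ by linarith))
        linarith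
      have h8 : 2 * κ * (X * Δ) ≤ μ * β * X * Δ / 128 := by
        have hκ0 : 0 ≤ κ := nonneg_of_mul_nonneg_left (hκ.symm ▸ hμ) (by positivity)
        have hb2 : 1 ≤ β ^ 2 := one_le_pow₀ hβ
        have := mul_le_mul_of_nonneg_left hb2 (show 0 ≤ κ * X * Δ by positivity)
        rw [← hκ]
        have : 0 ≤ κ * X * Δ := by positivity
        linarith
      have h9 := mul_le_mul_of_nonneg_left h5 hΔ0
      have hgd : gap β R p (l + 1) = gap β R p l + (dG - Δ) := by rw [gap_eq, gap_eq]; linarith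
      rw [hgd, show p (l + 1) - p L = X + Δ by linarith]
      linarith

lemma integral_dip {a b x y E δ : ℝ} {f : ℝ → ℝ} (hax : a ≤ x) (hxy : x ≤ y) (hyb : y ≤ b)
    (hf : ContinuousOn f (Set.Icc a b)) (h1 : ∀ v ∈ Set.Icc a b, f v ≤ E)
    (h2 : ∀ v ∈ Set.Icc x y, f v ≤ E - δ) : ∫ v in a..b, f v ≤ E * (b - a) - δ * (y - x) := by
  have i1 : IntervalIntegrable f volume a x :=
    (hf.mono (Set.Icc_subset_Icc le_rfl (hxy.trans hyb))).intervalIntegrable_of_Icc hax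
  have i2 : IntervalIntegrable f volume x y :=
    (hf.mono (Set.Icc_subset_Icc hax hyb)).intervalIntegrable_of_Icc hxy
  have i3 : IntervalIntegrable f volume y b :=
    (hf.mono (Set.Icc_subset_Icc (hax.trans hxy) le_rfl)).intervalIntegrable_of_Icc hyb
  have e1 : ∫ v in a..x, f v ≤ ∫ _ in a..x, E := intervalIntegral.integral_mono_on hax i1 intervalIntegrable_const
    fun v hv => h1 v ⟨hv.1, hv.2.trans (hxy.trans hyb)⟩
  have e2 : ∫ v in x..y, f v ≤ ∫ _ in x..y, (E - δ) :=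
    intervalIntegral.integral_mono_on hxy i2 intervalIntegrable_const h2
  have e3 : ∫ v in y..b, f v ≤ ∫ _ in y..b, E := intervalIntegral.integral_mono_on hyb i3 intervalIntegrable_const
    fun v hv => h1 v ⟨(hax.trans hxy).trans hv.1, hv.2⟩
  simp only [intervalIntegral.integral_const, smul_eq_mul] at e1 e2 e3
  rw [← intervalIntegral.integral_add_adjacent_intervals (i1.trans i2) i3,
    ← intervalIntegral.integral_add_adjacent_intervals i1 i2]
  linarith

/-- the gap below level `l`, when everything below it is within `a` of zero -/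
lemma gap_below {K Cg e a σ : ℝ} {l : ℕ} (hβ : 1 ≤ β) (hK : 0 ≤ K) (hCg : 0 ≤ Cg) (hR : 1 ≤ R)
    (hlip : ∀ p q : ℕ → ℝ, Prof R p 1 → Prof R q 1 →
      (∀ j ≤ R, |Gm β R p j - Gm β R q j| ≤ K * (|p j - q j| + dist1 R p q)) ∧
        |wbar β R p - wbar β R q| ≤ 2 * K * dist1 R p q)
    (hgap : ∀ (p : ℕ → ℝ) (l : ℕ) (T A σ : ℝ), l + 1 < R →
      Prof R p 1 → (∀ i ≤ l, p i = 0) → 0 ≤ T → T ≤ p (l + 1) → 0 ≤ A → 0 ≤ σ → σ ≤ 1 → β * A ≤ 1 + σ →
      (∀ τ ∈ Set.Icc 0 T, wbar β R (Function.update p l τ) ≤ A) → 1 ≤ β →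
      ∀ E : ℝ, 0 ≤ E → Gm β R (Function.update p l T) l + Cg / R - T ≤ E →
        ∀ τ ∈ Set.Icc 0 T, Gm β R (Function.update p l τ) l - τ ≤ E + 3 * σ + 2 * Cg / R ∧
          Gm β R (Function.update p l τ) l - τ ≤ β ^ 2 * τ * (A + Cg * τ) ^ 2 - τ + Cg / R)
    (hr : Prof R r 1) (he : 0 ≤ e) (hσ : 0 ≤ σ) (hσ1 : σ ≤ 1) (hl : l + 1 < R) (ha : 0 ≤ a) (hal : a ≤ r l)
    (hbelow : ∀ i < l, r i ≤ a) (hhi : gap β R r l ≤ e)
    (hw : β * (wbar β R r + 2 * K * (2 * a + 1 / R)) ≤ 1 + σ) :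
    ∀ v ∈ Set.Icc a (r l), gap β R (Function.update r l v) l ≤
      e + a + 2 * (K * (4 * a + 1 / R)) + 3 * σ + 3 * (Cg / R) := by
  have hlR : l < R := by omega
  have hu := hr.upper hlR.le
  have hβ0 : 0 < β := by linarith
  have hR1 : (1 : ℝ) ≤ R := Nat.one_le_cast.2 hR
  obtain ⟨A, hAdef⟩ : ∃ A, A = (1 + σ) / β := ⟨_, rfl⟩
  have hA : 0 ≤ A := hAdef ▸ div_nonneg (by linarith) hβ0.le
  have hAβ : β * A = 1 + σ := by rw [hAdef, mul_div_cancel₀ _ hβ0.ne']
  have hwA : ∀ τ ∈ Set.Icc 0 (r l - a), wbar β R (Function.update (shift r l a) l τ) ≤ A := fun τ hτ => by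
    have hd : dist1 R r (Function.update (shift r l a) l τ) ≤ 2 * a + 1 / R :=
      dist1_le_of hR ha (fun i hi hne => shift_off hr ha hbelow τ hi hne) hlR (by
        rw [Function.update_self, abs_le]
        constructor <;> linarith [hτ.1, hτ.2, hu.1, hu.2])
    have h1 := (abs_le.1 (hlip r _ hr (prof_moved_shift hr hlR ha hal hτ)).2).1
    have h2 := mul_le_mul_of_nonneg_left hd (by positivity : 0 ≤ 2 * K)
    rw [hAdef, le_div_iff₀ hβ0]
    have h3 := mul_le_mul_of_nonneg_left (show wbar β R (Function.update (shift r l a) l τ) ≤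
      wbar β R r + 2 * K * (2 * a + 1 / R) by linarith) hβ0.le
    linarith
  have hcmp : ∀ v ∈ Set.Icc a (r l), |Gm β R (Function.update r l v) l -
      Gm β R (Function.update (shift r l a) l (v - a)) l| ≤ K * (4 * a + 1 / R) := by
    intro v hv
    have hτ : v - a ∈ Set.Icc 0 (r l - a) := ⟨by linarith [hv.1], by linarith [hv.2]⟩
    have hat : |Function.update r l v l - Function.update (shift r l a) l (v - a) l| ≤ a := by
      rw [Function.update_self, Function.update_self, sub_sub_cancel, abs_of_nonneg ha]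
    refine ((hlip _ _ (prof_moved hr hlR hbelow ha hv) (prof_moved_shift hr hlR ha hal hτ)).1 l hlR.le).trans
      (mul_le_mul_of_nonneg_left ?_ hK)
    have := dist1_le_of (b := a) hR ha (fun i hi hne => by
      rw [Function.update_of_ne hne (f := r)]; exact shift_off hr ha hbelow (v - a) hi hne) hlR hat
    have : a / R ≤ a := div_le_self ha hR1
    have : 0 ≤ 1 / (R : ℝ) := by positivity
    linarith
  obtain ⟨E, hEdef⟩ : ∃ E, E = e + a + K * (4 * a + 1 / R) + Cg / R := ⟨_, rfl⟩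
  have hE : 0 ≤ E := by rw [hEdef]; positivity
  have hend : Gm β R (Function.update (shift r l a) l (r l - a)) l + Cg / R - (r l - a) ≤ E := by
    have h1 := (abs_le.1 (hcmp (r l) ⟨hal, le_rfl⟩)).1
    rw [Function.update_eq_self l r] at h1
    rw [gap_eq] at hhi
    linarith
  intro v hv
  have h1 := (abs_le.1 (hcmp v hv)).2
  have h2 := (hgap (shift r l a) l (r l - a) A σ hl (prof_shift hr hlR ha hal) (fun i hi => by simp [shift, hi])
    (by linarith) (by simp only [shift, if_neg (show ¬l + 1 ≤ l by omega)]; linarith [hr.mono l hlR])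
    hA hσ hσ1 hAβ.le hwA hβ E hE hend (v - a) ⟨by linarith [hv.1], by linarith [hv.2]⟩).1
  rw [gap_eq, Function.update_self]
  rw [mul_div_assoc] at h2
  linarith

/-- levels of exponent at least `μ` that are still of order `μ` are of order `μ ^ 5` -/
lemma levels_below {C D μ ρ η k M a b e : ℝ} {L : ℕ} (hβ : 1 ≤ β) (hR : 1 ≤ R) (hr : Prof R r 1) (hC : 0 ≤ C)
    (hD0 : 0 ≤ D) (hD : ∀ l < R, Gm β R r l ≤ D * r l)
    (hinc : ∀ l, l + 1 < R → r (l + 1) ≤ ρ →
      Gm β R r (l + 1) - Gm β R r l + ((l : ℝ) + 1) / R * suc β R r l * (Gm β R r (l + 1) - Gm β R r l) ^ 2 ≤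
        β ^ 2 * (r (l + 1) - r l) * suc β R r l ^ 2 + C * (r (l + 1) - r l) * r (l + 1) ^ 2)
    (hw1 : 1 / (2 * β) ≤ wbar β R r) (hw2 : β * wbar β R r ≤ 1 + 2 * η) (hη : 0 ≤ η) (hη1 : η ≤ 1)
    (hμ : 0 < μ) (hμL : μ ≤ ((L : ℝ) + 1) / R) (hρD : 4 * β * D * ρ ≤ 1)
    (hρ4 : 64 * β ^ 4 * ρ ≤ 1) (hk : k * μ * (4096 * β) = μ) (hρk : 4 * C * ρ ≤ k * μ)
    (ha : a = μ ^ 5) (hb : b = μ ^ 10) (hμ1 : μ ≤ 1) (he : e ≤ μ ^ 20)
    (hM : 8 * η + 2 * C * b + 2 * b ≤ M * b) (hM0 : 0 < M) (hMk : M * μ < k / 2)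
    (hlo : ∀ l < R, -e ≤ gap β R r l) (hhi : gap β R r L ≤ e) (hL : r L ≤ a) :
    ∀ i, L ≤ i → i < R → r i ≤ ρ → r i ≤ 2 * a := fun i hi hiR hiρ => by
  have h := growth (α := a) hβ hR hr hC hD0 hD hinc hw1 hw2 hη hη1 hμ.le hμL hL hρD hρ4 hk hρk i hi hiR hiρ
  have h1 := hlo i hiR
  by_contra hX
  push Not at hX
  obtain ⟨X, hXdef⟩ : ∃ X, X = r i - r L := ⟨_, rfl⟩
  rw [← hXdef] at h
  have haX : a < X := by linarith
  have ha0 : 0 < a := by rw [ha]; positivity
  have hb0 : 0 < b := by rw [hb]; positivity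
  have hab : a ^ 2 = b := by rw [ha, hb]; ring
  rw [hab] at h
  have hX0 : 0 < X := ha0.trans haX
  have h4 : 2 * e ≤ 2 * b * X := by
    have h5 : μ ^ 20 ≤ b * a := by
      rw [hb, ha, ← pow_add]; exact pow_le_pow_of_le_one hμ.le hμ1 (by norm_num)
    have h6 := mul_le_mul_of_nonneg_left haX.le hb0.le
    linarith
  have hk0 : 0 < k := by
    by_contra hk'
    push Not at hk'
    linarith [mul_pos hM0 hμ]
  have h5 : k * μ / 2 * X ≤ M * b := by
    refine le_of_mul_le_mul_right ?_ hX0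
    have := mul_le_mul_of_nonneg_right hM hX0.le
    linarith
  have h6 := mul_le_mul_of_nonneg_left haX.le (show 0 ≤ k * μ / 2 by positivity)
  have h7 : k / 2 * μ ^ 6 ≤ M * μ ^ 4 * μ ^ 6 := by
    calc k / 2 * μ ^ 6 = k * μ / 2 * a := by rw [ha]; ring
      _ ≤ M * b := h6.trans h5
      _ = _ := by rw [hb]; ring
  have h8 := le_of_mul_le_mul_right h7 (show 0 < μ ^ 6 by positivity)
  have h9 := mul_le_mul_of_nonneg_left (pow_le_of_le_one hμ.le hμ1 (show 4 ≠ 0 by norm_num)) hM0.le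
  linarith

/-- a jump from the scale `a` past the scale `μ` cannot be stationary -/
lemma jump_bad {C D K Cg μ ρ η k M a e σ : ℝ} {l : ℕ} (hβ : 1 ≤ β) (hR : 1 ≤ R) (hr : Prof R r 1) (hC : 0 ≤ C)
    (hK : 0 ≤ K) (hCg : 0 ≤ Cg) (hD0 : 0 ≤ D)
    (hlip : ∀ p q : ℕ → ℝ, Prof R p 1 → Prof R q 1 →
      (∀ j ≤ R, |Gm β R p j - Gm β R q j| ≤ K * (|p j - q j| + dist1 R p q)) ∧
        |wbar β R p - wbar β R q| ≤ 2 * K * dist1 R p q)
    (hgap : ∀ (p : ℕ → ℝ) (l : ℕ) (T A σ : ℝ), l + 1 < R →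
      Prof R p 1 → (∀ i ≤ l, p i = 0) → 0 ≤ T → T ≤ p (l + 1) → 0 ≤ A → 0 ≤ σ → σ ≤ 1 → β * A ≤ 1 + σ →
      (∀ τ ∈ Set.Icc 0 T, wbar β R (Function.update p l τ) ≤ A) → 1 ≤ β →
      ∀ E : ℝ, 0 ≤ E → Gm β R (Function.update p l T) l + Cg / R - T ≤ E →
        ∀ τ ∈ Set.Icc 0 T, Gm β R (Function.update p l τ) l - τ ≤ E + 3 * σ + 2 * Cg / R ∧
          Gm β R (Function.update p l τ) l - τ ≤ β ^ 2 * τ * (A + Cg * τ) ^ 2 - τ + Cg / R)
    (hD : ∀ p, Prof R p 1 → ∀ l < R, Gm β R p l ≤ D * p l)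
    (hinc : ∀ p, Prof R p 1 → 1 / (2 * β) ≤ wbar β R p → ∀ l, l + 1 < R → p (l + 1) ≤ ρ →
      Gm β R p (l + 1) - Gm β R p l + ((l : ℝ) + 1) / R * suc β R p l * (Gm β R p (l + 1) - Gm β R p l) ^ 2 ≤
        β ^ 2 * (p (l + 1) - p l) * suc β R p l ^ 2 + C * (p (l + 1) - p l) * p (l + 1) ^ 2)
    (hw1 : 1 / β - η / β + 2 * K / R ≤ wbar β R r) (hw2 : β * (wbar β R r + 2 * K / R) ≤ 1 + 2 * η)
    (hη : 0 ≤ η) (hη1 : 4 * η ≤ 1) (hμ : 0 < μ) (hl : l + 1 < R) (hl0 : 0 < l) (hμL : μ ≤ (l : ℝ) / R)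
    (hρD : 4 * β * D * ρ ≤ 1) (hρ4 : 64 * β ^ 4 * ρ ≤ 1) (hk : k * μ * (4096 * β) = μ) (hρk : 4 * C * ρ ≤ k * μ)
    (ha : 0 ≤ a) (ha1 : a ≤ 1) (hρa : 8 * a ≤ ρ) (he : 0 ≤ e)
    (hM : 2 * e + (8 * η + 8 * C * a) + 2 * a + 2 * K * (8 * a + 1 / R) + 3 * σ + 3 * (Cg / R) + K / R ≤ M)
    (hM' : 2 * M < k * μ * ρ ^ 3 / 64)
    (hσ0 : 0 ≤ σ) (hσ1 : σ ≤ 1) (hσ : β * (wbar β R r + 2 * K * (4 * a + 1 / R)) ≤ 1 + σ)
    (hbelow : ∀ i < l, r i ≤ 2 * a) (hrl : ρ < r l) (hhi : gap β R r l ≤ e) (hhi' : gap β R r (l - 1) ≤ e)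
    (hint : ∫ v in r l..(2 * a), gap β R (Function.update r l v) l ≤ e * |2 * a - r l|) : False := by
  have hβ0 : 0 < β := by linarith
  have hlR : l < R := by omega
  have hR0 : (0 : ℝ) < R := Nat.cast_pos.2 hR
  have hu := hr.upper hlR.le
  have hCR : 0 ≤ Cg / (R : ℝ) := by positivity
  have hKR : 0 ≤ K / (R : ℝ) := by positivity
  have hKa : 0 ≤ K * (8 * a + 1 / (R : ℝ)) := by positivity
  have hCa : 0 ≤ C * a := by positivity
  have hb2 := gap_below hβ hK hCg hR hlip hgap hr he hσ0 hσ1 hl (show 0 ≤ 2 * a by linarith) (by linarith) hbelow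
    hhi (by linarith)
  have hE : ∀ v ∈ Set.Icc (2 * a) (r l), gap β R (Function.update r l v) l ≤ M := fun v hv => by
    have := hb2 v hv
    linarith
  have hnear : ∀ v ∈ Set.Icc (ρ / 2) ρ,
      gap β R (Function.update r l v) l ≤ M - k * μ * ρ ^ 2 / 32 := fun v hv => by
    obtain ⟨i₀, hi₀⟩ : ∃ i₀, l = i₀ + 1 := ⟨l - 1, by omega⟩
    have hp := prof_moved hr hlR hbelow (by linarith) (v := v) ⟨by linarith [hv.1], by linarith [hv.2]⟩
    have hd : dist1 R r (Function.update r l v) ≤ 1 / R := by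
      have := dist1_le_of (b := 1) hR le_rfl (fun i _ hne => by
        rw [Function.update_of_ne hne, sub_self, abs_zero]) hlR (r := r) (p := Function.update r l v) (by
          rw [Function.update_self, abs_le]
          constructor <;> linarith [hu.1, hu.2, hv.1, hv.2])
      linarith
    obtain ⟨hG, hW⟩ := hlip r _ hr hp
    obtain ⟨hW0, hW1⟩ := abs_le.1 (hW.trans (mul_le_mul_of_nonneg_left hd (show 0 ≤ 2 * K by positivity)))
    rw [mul_one_div] at hW0 hW1
    have hwl : 1 / (2 * β) ≤ wbar β R (Function.update r l v) := by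
      refine le_trans ?_ (show 1 / β - η / β ≤ _ by linarith)
      rw [← sub_div, div_le_div_iff₀ (by positivity) hβ0]
      linarith [mul_le_mul_of_nonneg_left hη1 hβ0.le]
    have hwu : β * wbar β R (Function.update r l v) ≤ 1 + 2 * η :=
      (mul_le_mul_of_nonneg_left (by linarith) hβ0.le).trans hw2
    have hpi : Function.update r l v i₀ = r i₀ := Function.update_of_ne (by omega) _ _
    have h := growth (α := 2 * a) (L := i₀) hβ hR hp hC hD0 (hD _ hp) (hinc _ hp hwl) hwl hwu hη (by linarith)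
      hμ.le (hμL.trans_eq (by rw [hi₀]; push_cast; rfl))
      (by rw [hpi]; exact hbelow i₀ (by omega)) hρD hρ4 hk hρk l (by omega) hlR
      (by rw [Function.update_self]; exact hv.2)
    rw [Function.update_self, hpi] at h
    have hi0 := (hr.upper (show i₀ ≤ R by omega)).1
    have hi2 := hbelow i₀ (by omega)
    have hg0 : gap β R (Function.update r l v) i₀ ≤ e + K / R := by
      have h1 := (abs_le.1 (hG i₀ (by omega))).1
      rw [hpi, sub_self, abs_zero, zero_add] at h1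
      have h3 := mul_le_mul_of_nonneg_left hd hK
      rw [mul_one_div] at h3
      rw [show l - 1 = i₀ by omega, gap_eq] at hhi'
      rw [gap_eq, hpi]
      linarith
    obtain ⟨X, hX⟩ : ∃ X, X = v - r i₀ := ⟨_, rfl⟩
    rw [← hX] at h
    have hX1 : ρ / 4 ≤ X := by linarith [hv.1]
    have hX2 : X ≤ 1 := by linarith [hv.2]
    have h4 : (8 * η + 2 * C * (2 * a) ^ 2) * X ≤ 8 * η + 8 * C * a := by
      refine (mul_le_of_le_one_right (by positivity) hX2).trans ?_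
      have := mul_le_mul_of_nonneg_left (mul_le_of_le_one_right ha ha1) (show 0 ≤ 8 * C by positivity)
      linarith
    have hk0 : 0 < k * μ := by
      refine pos_of_mul_pos_left (hk.symm ▸ hμ) ?_
      positivity
    have h5 := mul_le_mul_of_nonneg_left (pow_le_pow_left₀ (by linarith) hX1 2) (show 0 ≤ k * μ / 2 by linarith)
    linarith
  rw [intervalIntegral.integral_symm, abs_of_nonpos (by linarith)] at hint
  have hdip := integral_dip (E := M) (δ := k * μ * ρ ^ 2 / 32) (show 2 * a ≤ ρ / 2 by linarith)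
    (show ρ / 2 ≤ ρ by linarith) hrl.le
    (cont_gap hK hR hlR hlip fun v hv => prof_moved hr hlR hbelow (by linarith) hv) hE hnear
  have hM0 : 0 ≤ M := by linarith
  have h1 : M * (r l - 2 * a) ≤ M := mul_le_of_le_one_right hM0 (by linarith [hu.2])
  have h2 : e * -(2 * a - r l) ≤ e := mul_le_of_le_one_right he (by linarith [hu.2])
  linarith

/-- **Spread**: no level of exponent above `μ` stays below `μ ^ 5` -/
theorem stationary_spread (hβ : 1 < β) :
    ∃ c : ℝ, 0 < c ∧ ∀ μ η : ℝ, 0 < μ → μ ≤ c → 0 ≤ η → η ≤ μ ^ 10 → ∀ (R : ℕ) (r : ℕ → ℝ) (e : ℝ),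
      1 ≤ R → Prof R r 1 → r R = 1 → 0 ≤ e → e ≤ μ ^ 20 → 1 / (R : ℝ) ≤ μ ^ 10 → |β * top R r - 1| ≤ η →
      (∀ l < R, -e ≤ gap β R r l) → (∀ l < R, r l < 1 → gap β R r l ≤ e) →
      (∀ l < R, ∀ x : ℝ, (∀ i < l, r i ≤ x) → 0 ≤ x → x ≤ r (l + 1) →
        ∫ v in r l..x, gap β R (Function.update r l v) l ≤ e * |x - r l|) →
      μ ^ 5 ≤ r ⌈μ * (R : ℝ)⌉₊ := by
  obtain ⟨C, ρ₀, hC, hρ₀, hincle⟩ := incr_le β hβ.le
  obtain ⟨K, hK, hlip⟩ := Gm_lip β
  obtain ⟨D, hD, hlin⟩ : ∃ D : ℝ, 0 ≤ D ∧ ∀ (R : ℕ) (r : ℕ → ℝ), 1 ≤ R → Prof R r 1 → ∀ l < R,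
      Gm β R r l ≤ D * r l := ⟨β ^ 2, sq_nonneg β, fun R r _ hr l hl => Gm_le_lin hr hl.le⟩
  obtain ⟨Cg, hCg, hgap⟩ := gap_shape_slack β
  have hβ0 : 0 < β := by linarith
  have hb1 : 0 < β - 1 := by linarith
  obtain ⟨c₁, hc₁, hc₁ρ, hc₁D, hc₁β, hc₁C⟩ : ∃ c₁ : ℝ, 0 < c₁ ∧ c₁ ≤ ρ₀ ∧ c₁ * (4 * β * (D + 1)) ≤ 1 ∧
      c₁ * (64 * β ^ 4) ≤ 1 ∧ c₁ * (4 * (C + 1) * (4096 * β)) ≤ 1 :=
    ⟨min ρ₀ (min (1 / (4 * β * (D + 1))) (min (1 / (64 * β ^ 4)) (1 / (4 * (C + 1) * (4096 * β))))),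
      lt_min hρ₀ (lt_min (by positivity) (lt_min (by positivity) (by positivity))), min_le_left _ _,
      (le_div_iff₀ (by positivity)).1 ((min_le_right _ _).trans (min_le_left _ _)),
      (le_div_iff₀ (by positivity)).1 ((min_le_right _ _).trans ((min_le_right _ _).trans (min_le_left _ _))),
      (le_div_iff₀ (by positivity)).1 ((min_le_right _ _).trans ((min_le_right _ _).trans (min_le_right _ _)))⟩
  obtain ⟨k, hk, hk0⟩ : ∃ k : ℝ, k = 1 / (4096 * β) ∧ 0 < k := ⟨_, rfl, by positivity⟩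
  obtain ⟨M, hM, hM0⟩ : ∃ M : ℝ, M = 100 * (1 + β + K + β * K + Cg + C) ∧ 0 < M := ⟨_, rfl, by positivity⟩
  obtain ⟨c, hc, hce, hc8, hcc, hcβ, hcM, hcκ⟩ : ∃ c : ℝ, 0 < c ∧ c ≤ exp (-(β ^ 2)) / 2 ∧ c * 16 ≤ 1 ∧
      c * 16 ≤ c₁ ∧ c * (M + 1) ≤ β - 1 ∧ c * (M + 1) ≤ k * c₁ ^ 3 / 256 ∧ c * (M + 1) ≤ k / 8 :=
    ⟨min (exp (-(β ^ 2)) / 2) (min (1 / 16) (min (c₁ / 16) (min ((β - 1) / (M + 1))
        (min (k * c₁ ^ 3 / 256 / (M + 1)) (k / 8 / (M + 1)))))),
      lt_min (by positivity) (lt_min (by norm_num) (lt_min (by positivity) (lt_min (by positivity)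
        (lt_min (by positivity) (by positivity))))),
      min_le_left _ _,
      (le_div_iff₀ (by norm_num)).1 ((min_le_right _ _).trans (min_le_left _ _)),
      (le_div_iff₀ (by norm_num)).1 ((min_le_right _ _).trans ((min_le_right _ _).trans (min_le_left _ _))),
      (le_div_iff₀ (by positivity)).1
        ((min_le_right _ _).trans ((min_le_right _ _).trans ((min_le_right _ _).trans (min_le_left _ _)))),
      (le_div_iff₀ (by positivity)).1
        ((min_le_right _ _).trans ((min_le_right _ _).trans ((min_le_right _ _).trans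
          ((min_le_right _ _).trans (min_le_left _ _))))),
      (le_div_iff₀ (by positivity)).1
        ((min_le_right _ _).trans ((min_le_right _ _).trans ((min_le_right _ _).trans
          ((min_le_right _ _).trans (min_le_right _ _)))))⟩
  refine ⟨c, hc, fun μ η hμ hμc hη hημ R r e hR hr hr1 he heμ hRμ htop hlo hhi hint => ?_⟩
  have hR0 : (0 : ℝ) < R := Nat.cast_pos.2 hR
  have hμ8 : μ ≤ 1 / 16 := by linarith
  have hμ1 : μ ≤ 1 := by linarith
  obtain ⟨a, ha⟩ : ∃ a, a = μ ^ 5 := ⟨_, rfl⟩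
  obtain ⟨b, hb⟩ : ∃ b, b = μ ^ 10 := ⟨_, rfl⟩
  have ha0 : 0 < a := by rw [ha]; positivity
  have hb0 : 0 < b := by rw [hb]; positivity
  have hba : b ≤ a := by rw [ha, hb]; exact pow_le_pow_of_le_one hμ.le hμ1 (by norm_num)
  have haμ : a ≤ μ * μ := by rw [ha, ← sq]; exact pow_le_pow_of_le_one hμ.le hμ1 (by norm_num)
  have hμμ : μ * μ ≤ μ := mul_le_of_le_one_right hμ.le hμ1
  have hηb : η ≤ b := hb ▸ hημ
  have hRb : 1 / (R : ℝ) ≤ b := hb ▸ hRμ
  have heb : e ≤ b := heμ.trans (hb ▸ pow_le_pow_of_le_one hμ.le hμ1 (by norm_num))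
  have hee : e < exp (-(β ^ 2)) := by linarith [exp_pos (-(β ^ 2))]
  have hMμ : M * μ + μ ≤ β - 1 := by
    linarith [mul_le_mul_of_nonneg_right hμc (show 0 ≤ M + 1 by linarith)]
  have hkμ : M * μ + μ ≤ k / 8 := by
    linarith [mul_le_mul_of_nonneg_right hμc (show 0 ≤ M + 1 by linarith)]
  have hk1 : k ≤ 1 / 4096 := by
    rw [hk]; exact one_div_le_one_div_of_le (by norm_num) (by linarith)
  have hMa : M * a ≤ M * μ := mul_le_mul_of_nonneg_left (haμ.trans hμμ) hM0.le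
  have hMb : M * b ≤ M * a := mul_le_mul_of_nonneg_left hba hM0.le
  obtain ⟨η₁, hη₁⟩ : ∃ η₁, η₁ = (1 + β + 2 * (β * K)) * b := ⟨_, rfl⟩
  have hη₁0 : 0 ≤ η₁ := by rw [hη₁]; positivity
  have hη₁M : 8 * η₁ + 2 * C * b + 2 * b ≤ M * b := by
    rw [hη₁, hM]
    have : 0 ≤ (1 + β + K + β * K + Cg + C) * b := by positivity
    have : 0 ≤ (K + Cg) * b := by positivity
    have : 0 ≤ C * b := by positivity
    have : 0 ≤ β * b := by positivity
    have : 0 ≤ β * K * b := by positivity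
    linarith
  have hCb : 0 ≤ C * b := by positivity
  have hlt := lt_one hr hee hlo
  obtain ⟨hwt0, hwt1⟩ := abs_le.1 (wbar_top hR hr he hee hlo hhi)
  obtain ⟨htop0, htop1⟩ := abs_le.1 htop
  have hbe := mul_le_mul_of_nonneg_left heb hβ0.le
  have hKb := mul_le_mul_of_nonneg_left hRb (show 0 ≤ 2 * (β * K) by positivity)
  have hwu : β * (wbar β R r + 2 * K / R) ≤ 1 + η₁ := by
    have h1 := mul_le_mul_of_nonneg_left hwt1 hβ0.le
    rw [show 2 * K / (R : ℝ) = 2 * K * (1 / R) by ring, hη₁]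
    linarith
  have hwl : 1 / β - η₁ / β + 2 * K / R ≤ wbar β R r := by
    have h1 := mul_le_mul_of_nonneg_left hwt0 hβ0.le
    refine le_of_mul_le_mul_left ?_ hβ0
    rw [show β * (1 / β - η₁ / β + 2 * K / R) = 1 - η₁ + 2 * (β * K) * (1 / R) by field_simp, hη₁]
    linarith
  have hKR : 0 ≤ 2 * K / (R : ℝ) := by positivity
  set L := ⌈μ * (R : ℝ)⌉₊
  have hL0 : μ * R ≤ L := Nat.le_ceil _
  have hLR : L < R := by
    have h1 : (L : ℝ) < μ * R + 1 := Nat.ceil_lt_add_one (by positivity)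
    have h2 := mul_le_mul_of_nonneg_right hμ8 hR0.le
    have h3 : 1 ≤ 1 / 16 * (R : ℝ) := by
      have := hRb.trans (hba.trans (haμ.trans (hμμ.trans hμ8)))
      rw [div_le_iff₀ hR0] at this
      linarith
    exact_mod_cast show (L : ℝ) < R by linarith
  obtain ⟨ρ, hρ⟩ : ∃ ρ, ρ = c₁ * μ := ⟨_, rfl⟩
  have hρ0 : 0 < ρ := by rw [hρ]; positivity
  have hρc : ρ ≤ c₁ := by rw [hρ]; exact mul_le_of_le_one_right hc₁.le hμ1
  have hκμ : k * μ * (4096 * β) = μ := by rw [hk]; field_simp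
  have hρD : 4 * β * D * ρ ≤ 1 := by
    have h1 := mul_le_mul_of_nonneg_left hρc (show 0 ≤ 4 * β * D by positivity)
    have h2 : 0 ≤ β * c₁ := by positivity
    linarith
  have hρ4 : 64 * β ^ 4 * ρ ≤ 1 := by
    linarith [mul_le_mul_of_nonneg_left hρc (show 0 ≤ 64 * β ^ 4 by positivity)]
  have hρκ : 4 * C * ρ ≤ k * μ := by
    have h1 := mul_le_mul_of_nonneg_right hc₁C hμ.le
    have h2 : 0 ≤ c₁ * μ * (4096 * β) := by positivity
    refine le_of_mul_le_mul_right ?_ (show 0 < 4096 * β by positivity)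
    rw [hκμ, hρ]; linarith
  have hρ1 : ρ ≤ 1 := by
    have : 1 ≤ 64 * β ^ 4 := by linarith [one_le_pow₀ (n := 4) hβ.le]
    linarith [le_mul_of_one_le_left hρ0.le this]
  have hρ8 : 16 * a ≤ ρ := by
    rw [hρ]
    have := mul_le_mul_of_nonneg_right hμc hμ.le
    have := mul_le_mul_of_nonneg_right hcc hμ.le
    linarith
  have hhalf : 1 / (2 * β) ≤ wbar β R r := by
    refine le_trans ?_ (show 1 / β - η₁ / β ≤ _ by linarith)
    rw [← sub_div, div_le_div_iff₀ (by positivity) hβ0]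
    linarith [mul_le_mul_of_nonneg_left (show 2 * η₁ ≤ 1 by linarith) hβ0.le]
  rw [← ha]
  by_contra hcon
  push Not at hcon
  have hgr := levels_below (L := L) hβ.le hR hr hC hD (hlin R r hR hr) (ρ := ρ) (η := η₁) (M := M) (e := e)
    (fun j hj hjρ => hincle R r j hj hr (hjρ.trans (hρc.trans hc₁ρ)) hhalf) hhalf
    (by linarith [mul_nonneg hβ0.le hKR]) hη₁0 (by linarith) hμ (by rw [le_div_iff₀ hR0]; linarith)
    hρD hρ4 hκμ hρκ ha hb hμ1 heμ hη₁M hM0 (by linarith) hlo (hhi L hLR (hlt L hLR)) hcon.le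
  classical
  have hex : ∃ i, L ≤ i ∧ (i = R ∨ ρ < r i) := ⟨R, hLR.le, Or.inl rfl⟩
  obtain ⟨l, hldef⟩ : ∃ l, l = Nat.find hex := ⟨_, rfl⟩
  have hlR : l ≤ R := hldef ▸ Nat.find_min' hex ⟨hLR.le, Or.inl rfl⟩
  have hspec := Nat.find_spec hex
  rw [← hldef] at hspec
  obtain ⟨hLl, hspec⟩ := hspec
  have hbelow : ∀ i < l, r i ≤ 2 * a := fun i hi => by
    rcases Nat.lt_or_ge i L with h | h
    · linarith [hr.le_of_le h.le hLR.le]
    · have := Nat.find_min hex (show i < Nat.find hex by omega)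
      push Not at this
      exact hgr i h (by omega) (this h).2
  have hLlt : L < l := by
    rcases hLl.lt_or_eq with h | h
    · exact h
    rcases hspec with h' | h'
    · omega
    · rw [← h] at h'; linarith
  rcases Nat.lt_or_ge (l + 1) R with hl | hl
  · obtain ⟨σ, hσ⟩ : ∃ σ, σ = (1 + β + 10 * (β * K)) * a := ⟨_, rfl⟩
    have hσ0 : 0 ≤ σ := by rw [hσ]; positivity
    have hσ5 : σ * 5 ≤ M * a := by
      rw [hσ, hM]
      have : 0 ≤ (K + Cg + C) * a := by positivity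
      have : 0 ≤ β * a := by positivity
      have : 0 ≤ β * K * a := by positivity
      linarith
    have hμR : μ ≤ (l : ℝ) / R := by
      rw [le_div_iff₀ hR0]
      exact hL0.trans (Nat.cast_le.2 hLlt.le)
    have hKa := mul_le_mul_of_nonneg_left (hRb.trans hba) (show 0 ≤ K by positivity)
    have hCga := mul_le_mul_of_nonneg_left (hRb.trans hba) (show 0 ≤ Cg by positivity)
    rw [mul_one_div] at hKa hCga
    have hη₁a : η₁ ≤ (1 + β + 2 * (β * K)) * a := hη₁ ▸ mul_le_mul_of_nonneg_left hba (by positivity)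
    refine jump_bad (M := M * a) hβ.le hR hr hC hK hCg hD (fun p q => hlip R p q hR) (fun p l T A σ => hgap R p l T A σ)
      (fun p hp => hlin R p hR hp) (fun p hp hw j hj hjρ => hincle R p j hj hp (hjρ.trans (hρc.trans hc₁ρ)) hw)
      hwl (by linarith) hη₁0 (by linarith) hμ hl (by omega) hμR hρD hρ4 hκμ hρκ ha0.le (by linarith) (by linarith)
      he ?_ ?_ hσ0 (by linarith) ?_ hbelow (hspec.resolve_left (by omega))
      (hhi l (by omega) (hlt l (by omega))) (hhi (l - 1) (by omega) (hlt (l - 1) (by omega)))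
      (hint l (by omega) (2 * a) hbelow (by linarith) (by linarith [hr.mono l (by omega), hspec.resolve_left (by omega)]))
    · rw [hM, hσ, mul_add (2 * K), mul_one_div (2 * K), mul_div_assoc 2 K]
      have : 0 ≤ (K + Cg + C) * a := by positivity
      have : 0 ≤ C * a := by positivity
      have : 0 ≤ β * a := by positivity
      have : 0 ≤ β * K * a := by positivity
      have : 0 ≤ Cg * a := by positivity
      have : 0 ≤ K * a := by positivity
      linarith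
    · have h3 : k * μ * ρ ^ 3 / 64 = k * c₁ ^ 3 / 64 * μ ^ 4 := by rw [hρ]; ring
      have h4 : M * a = M * μ * μ ^ 4 := by rw [ha]; ring
      have h6 := mul_le_mul_of_nonneg_right hμc (show 0 ≤ M + 1 by linarith)
      have h5 := mul_lt_mul_of_pos_right (show 2 * (M * μ) < k * c₁ ^ 3 / 64 by linarith) (pow_pos hμ 4)
      linarith
    · have h1 := mul_le_mul_of_nonneg_left hwt1 hβ0.le
      have h2 := mul_le_mul_of_nonneg_left (hRb.trans hba) (show 0 ≤ 2 * β * K by positivity)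
      have h3 : 0 ≤ β * K * a := by positivity
      have h4 := mul_le_mul_of_nonneg_left (heb.trans hba) hβ0.le
      rw [hσ]
      linarith
  · have h1 : (∑ i ∈ range R, r i) / R ≤ 2 * a + 1 / R := by
      rw [div_le_iff₀ hR0, add_mul, div_mul_cancel₀ _ hR0.ne']
      calc ∑ i ∈ range R, r i ≤ ∑ i ∈ range R, (2 * a + if i = R - 1 then 1 else 0) := sum_le_sum fun i hi => by
            have hi' := mem_range.1 hi
            split_ifs with h
            · linarith [(hr.upper hi'.le).2]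
            · linarith [hbelow i (by omega)]
        _ = _ := by rw [sum_add_distrib, sum_ite_eq', if_pos (mem_range.2 (by omega))]; simp [mul_comm]
    have h2 : 1 - 2 * a - 1 / R ≤ top R r := by rw [top_eq' hR]; linarith
    have h3 := mul_le_mul_of_nonneg_left h2 hβ0.le
    have h4 := mul_le_mul_of_nonneg_left (hRb.trans hba) hβ0.le
    have h5 : 3 * β * a + a ≤ M * a := by
      rw [hM]
      have : 0 ≤ (K + β * K + Cg + C) * a := by positivity
      have : 0 ≤ β * a := by positivity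
      linarith
    linarith

/-- **Spread of near-minimisers** -/
theorem spread {β : ℝ} (hβ : 1 < β) : ∃ c : ℝ, 0 < c ∧ ∀ (μ η : ℝ), 0 < μ → μ ≤ c → 0 < η → η ≤ μ ^ 10 →
    ∀ (R : ℕ) (q : ℕ → ℝ), 1 ≤ R → 1 / (R : ℝ) ≤ c * η ^ 4 → Prof R q 1 → q R = 1 →
      Vsk β R q ≤ sInf (skValues β) + c * η ^ 8 →
        |β * top R q - 1| ≤ η ∧
          ∀ l ∈ Ico (2 * ⌈μ * (R : ℝ)⌉₊) (3 * ⌈μ * (R : ℝ)⌉₊), μ ^ 5 / 2 ≤ q l := by
  obtain ⟨κ₀, hκ₀, hlower⟩ := stationary_marginal_poly hβ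
  obtain ⟨θ, hθ, hupper⟩ := stationary_upper hβ
  obtain ⟨c₀, hc₀, hspread⟩ := stationary_spread hβ
  have hβ0 : 0 < β := by linarith
  obtain ⟨d, hd, hdκ, hdθ, hd16, hdβ, hdc⟩ : ∃ d : ℝ, 0 < d ∧ d * 64 ≤ κ₀ ∧ d * 16 ≤ θ ∧ d * 16 ≤ 1 ∧
      d * (2 * β) ≤ 1 ∧ d ≤ c₀ :=
    ⟨min (κ₀ / 64) (min (θ / 16) (min (1 / 16) (min (1 / (2 * β)) c₀))),
      lt_min (by positivity) (lt_min (by positivity) (lt_min (by norm_num) (lt_min (by positivity) hc₀))),
      (le_div_iff₀ (by norm_num)).1 (min_le_left _ _),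
      (le_div_iff₀ (by norm_num)).1 ((min_le_right _ _).trans (min_le_left _ _)),
      (le_div_iff₀ (by norm_num)).1 ((min_le_right _ _).trans ((min_le_right _ _).trans (min_le_left _ _))),
      (le_div_iff₀ (by positivity)).1
        ((min_le_right _ _).trans ((min_le_right _ _).trans ((min_le_right _ _).trans (min_le_left _ _)))),
      (min_le_right _ _).trans ((min_le_right _ _).trans ((min_le_right _ _).trans (min_le_right _ _)))⟩
  refine ⟨d ^ 2, by positivity, fun μ η hμ hμc hη hημ R q hR hRq hq hq1 hv => ?_⟩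
  have hd2 : d ^ 2 ≤ d / 16 := by
    have := mul_le_mul_of_nonneg_left (show d ≤ 1 / 16 by linarith) hd.le
    linarith
  have hμ16 : μ ≤ 1 / 16 := by linarith
  have hμ1 : μ ≤ 1 := by linarith
  have hη1 : η ≤ 1 := hημ.trans (pow_le_one₀ hμ.le hμ1)
  have hR0 : (0 : ℝ) < R := Nat.cast_pos.2 hR
  obtain ⟨r, hr, hr1, hd1, hlo, hhi, hint⟩ :=
    first_order hβ.le (by positivity : (0 : ℝ) < d ^ 2 * η ^ 8) hR hq hq1 hv
  have hs : √(d ^ 2 * η ^ 8) = d * η ^ 4 := by
    rw [show d ^ 2 * η ^ 8 = (d * η ^ 4) ^ 2 by ring, sqrt_sq (by positivity)]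
  rw [hs] at hd1 hlo hhi hint
  have hη4 : η ^ 4 ≤ η ^ 2 := pow_le_pow_of_le_one hη.le hη1 (by norm_num)
  have hη4' : η ^ 4 ≤ η := pow_le_of_le_one hη.le hη1 (by norm_num)
  have hη40 : 0 ≤ η ^ 4 := by positivity
  have he0 : 0 ≤ 4 * (d * η ^ 4) := by positivity
  have hd4 : d * η ^ 4 ≤ η ^ 4 := mul_le_of_le_one_left hη40 (by linarith)
  have hlow := hlower (η / 2) (by positivity) (by linarith) R r _ hR hr hr1 he0
    (by linarith [mul_le_mul_of_nonneg_right hdκ hη40])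
    (hRq.trans (by
      have := mul_le_mul_of_nonneg_right (show d ^ 2 * 16 ≤ κ₀ by linarith) hη40
      linarith))
    hlo hhi hint
  have hup := hupper (η / 2) (by positivity) (by linarith) R r _ hR hr hr1 he0
    (by
      have h1 := mul_le_mul_of_nonneg_right hdθ hη40
      have h2 := mul_le_mul_of_nonneg_left hη4 hθ.le
      linarith)
    hlo hhi hint
  have hμη : η ^ 2 ≤ μ ^ 20 := by
    rw [show μ ^ 20 = (μ ^ 10) ^ 2 by ring]; exact pow_le_pow_left₀ hη.le hημ 2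
  have hRμ : 1 / (R : ℝ) ≤ μ ^ 10 := by
    refine hRq.trans ?_
    have := mul_le_mul_of_nonneg_right (show d ^ 2 ≤ 1 by linarith) hη40
    linarith
  have hsp := hspread μ η hμ (by linarith) hη.le hημ R r _ hR hr hr1 he0
    (by linarith [mul_le_mul_of_nonneg_right hd16 hη40]) hRμ (abs_le.2 ⟨by linarith, by linarith⟩) hlo hhi hint
  have hsum : (∑ i ∈ range R, |q i - r i|) / R ≤ d * η ^ 4 :=
    le_trans (le_add_of_nonneg_right (abs_nonneg _)) hd1
  refine ⟨?_, fun l hl => ?_⟩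
  · have ht : |top R q - top R r| ≤ d * η ^ 4 := by
      rw [top_eq' hR, top_eq' hR, show ∀ x y : ℝ, 1 - x - (1 - y) = -(x - y) from fun x y => by ring, abs_neg,
        ← sub_div, ← sum_sub_distrib, abs_div, abs_of_pos hR0]
      exact le_trans (div_le_div_of_nonneg_right (abs_sum_le_sum_abs _ _) hR0.le) hsum
    have h1 := abs_le.1 (show |β * top R q - β * top R r| ≤ β * (d * η ^ 4) by
      rw [← mul_sub, abs_mul, abs_of_pos hβ0]; exact mul_le_mul_of_nonneg_left ht hβ0.le)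
    have h2 := mul_le_mul_of_nonneg_right hdβ hη40
    exact abs_le.2 ⟨by linarith [h1.1], by linarith [h1.2]⟩
  set L := ⌈μ * (R : ℝ)⌉₊
  obtain ⟨hl2, hl3⟩ := mem_Ico.1 hl
  have hμR : μ * R ≤ L := Nat.le_ceil _
  have h3L : 3 * L ≤ R := by
    have h1 : (L : ℝ) < μ * R + 1 := Nat.ceil_lt_add_one (by positivity)
    have h2 := mul_le_mul_of_nonneg_right hμ16 hR0.le
    have h3 : 1 / (R : ℝ) ≤ 1 / 16 := hRμ.trans ((pow_le_of_le_one hμ.le hμ1 (by norm_num)).trans hμ16)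
    rw [div_le_iff₀ hR0] at h3
    exact_mod_cast show (3 * (L : ℝ)) ≤ R by linarith
  have h1 : (L : ℝ) * (r L - q l) ≤ ∑ i ∈ Ico L (2 * L), |q i - r i| := by
    have : ∑ _i ∈ Ico L (2 * L), (r L - q l) ≤ ∑ i ∈ Ico L (2 * L), |q i - r i| := sum_le_sum fun i hi => by
      obtain ⟨ha, hb⟩ := mem_Ico.1 hi
      have := hr.le_of_le ha (by omega)
      have := hq.le_of_le (show i ≤ l by omega) (by omega)
      linarith [neg_le_abs (q i - r i)]
    rw [sum_const, Nat.card_Ico, nsmul_eq_mul, show 2 * L - L = L by omega] at this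
    exact this
  have h2 : ∑ i ∈ Ico L (2 * L), |q i - r i| ≤ R * (d * η ^ 4) := by
    refine (sum_le_sum_of_subset_of_nonneg (t := range R) ?_ fun i _ _ => abs_nonneg _).trans ?_
    · intro i hi; simp only [mem_Ico, mem_range] at hi ⊢; omega
    · rw [div_le_iff₀ hR0] at hsum; linarith
  by_contra hq'
  push Not at hq'
  have h3 := mul_le_mul hμR (show μ ^ 5 / 2 ≤ r L - q l by linarith) (by positivity) (Nat.cast_nonneg L)
  have h4 : μ ^ 6 / 2 ≤ d * η ^ 4 := by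
    refine le_of_mul_le_mul_left ?_ hR0
    linarith
  have h5 : η ^ 4 ≤ μ ^ 6 := hη4'.trans (hημ.trans (pow_le_pow_of_le_one hμ.le hμ1 (by norm_num)))
  have h6 := mul_le_mul_of_nonneg_left h5 hd.le
  have h7 := mul_le_mul_of_nonneg_right (show d * 4 ≤ 1 by linarith) (show 0 ≤ μ ^ 6 by positivity)
  linarith [pow_pos hμ 6]

end Vale.Agent.P146.Lower.Marg
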