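import Vale.Agent.P146.Lower.Marg.StepBase

/-! P146 marginality: jets of `log cosh` are stable under a short step; bound in the exponent. -/

open MeasureTheory ProbabilityTheory Real Filter
open scoped Topology

noncomputable section

namespace Vale.Agent.P146.Lower.Marg

set_option linter.unusedSectionVars false

variable {F f1 f2 : ℝ → ℝ}

/-- constant of the moments of a tilted step of standard deviation at most `c` -/
def Kz (c : ℝ) : ℝ := (∫ z, exp ((2 * c + 3) * |z|) ∂(gaussianReal 0 1)) / ∫ z, exp (-(c * |z|)) ∂(gaussianReal 0 1)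

lemma gr_exp (c : ℝ) : Gr fun z => exp (c * |z|) := by
  refine ⟨by fun_prop, 1, max c 0, le_max_right _ _, fun z => ?_⟩
  rw [abs_exp, one_mul]
  exact exp_le_exp.2 (mul_le_mul_of_nonneg_right (le_max_left _ _) (abs_nonneg _))

lemma gr_exp_neg (c : ℝ) : Gr fun z => exp (-(c * |z|)) := by simpa using gr_exp (-c)

lemma den0_pos (c : ℝ) : 0 < ∫ z, exp (-(c * |z|)) ∂(gaussianReal 0 1) := integral_exp_pos (gr_exp_neg c).integrable

lemma Kz_nonneg (c : ℝ) : 0 ≤ Kz c := div_nonneg (integral_nonneg fun _ => (exp_pos _).le) (den0_pos c).le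

lemma abs_le_exp (z : ℝ) : |z| ≤ exp |z| := by linarith [add_one_le_exp |z|]

lemma sq_le_exp (z : ℝ) : z ^ 2 ≤ exp (2 * |z|) := by
  rw [← sq_abs, show (2:ℝ) * |z| = |z| + |z| by ring, exp_add, sq]
  exact mul_self_le_mul_self (abs_nonneg _) (abs_le_exp z)

lemma abs_exp_sub_one (u : ℝ) : |exp u - 1| ≤ |u| * exp |u| := by
  rcases le_total 0 u with h | h
  · rw [abs_of_nonneg h, abs_of_nonneg (by linarith [one_le_exp h])]
    have h1 := mul_le_mul_of_nonneg_left (add_one_le_exp (-u)) (exp_pos u).le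
    rw [← exp_add, add_neg_cancel, exp_zero] at h1
    linarith
  · rw [abs_of_nonpos h, abs_of_nonpos (by linarith [exp_le_one_iff.2 h])]
    nlinarith [add_one_le_exp u, one_le_exp (neg_nonneg.2 h)]

/-- the tilt, normalised at the starting point -/
def de (m d : ℝ) (F : ℝ → ℝ) (x z : ℝ) : ℝ := exp (m * (F (x + √d * z) - F x))

section

variable (h : Cvx F f1 f2) {m d c : ℝ} (hm : 0 ≤ m) (hm1 : m ≤ 1) (hd : √d ≤ c) (x : ℝ)
include h

lemma gr_de : Gr (de m d F x) := by
  have e : de m d F x = fun z => exp (-(m * F x)) * exp (m * F (x + √d * z)) := funext fun z => by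
    rw [de, ← exp_add]; ring_nf
  rw [e]
  exact (Gr.const _).mul (h.gr_tilt m d x)

omit h in
lemma tl_de (G : ℝ → ℝ) : tl m d F x G = (∫ z, de m d F x z * G z ∂(gaussianReal 0 1)) / ∫ z, de m d F x z ∂(gaussianReal 0 1) := by
  have e : ∀ z, de m d F x z = exp (-(m * F x)) * exp (m * F (x + √d * z)) := fun z => by
    rw [de, ← exp_add]; ring_nf
  simp only [e, mul_assoc, integral_const_mul]
  rw [mul_div_mul_left _ _ (exp_pos _).ne']
  rfl

include hm hm1

lemma abs_expo (z : ℝ) : |m * (F (x + √d * z) - F x)| ≤ √d * |z| := by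
  rw [abs_mul, abs_of_nonneg hm]
  refine (mul_le_of_le_one_left (abs_nonneg _) hm1).trans ((h.lip x _).trans_eq ?_)
  rw [abs_mul, abs_of_nonneg (sqrt_nonneg d)]

include hd

lemma de_bounds (z : ℝ) : exp (-(c * |z|)) ≤ de m d F x z ∧ de m d F x z ≤ exp (c * |z|) := by
  have h1 := (abs_expo h hm hm1 x z).trans (mul_le_mul_of_nonneg_right hd (abs_nonneg z))
  exact ⟨exp_le_exp.2 (abs_le.1 h1).1, exp_le_exp.2 (abs_le.1 h1).2⟩

lemma den_le : ∫ z, exp (-(c * |z|)) ∂(gaussianReal 0 1) ≤ ∫ z, de m d F x z ∂(gaussianReal 0 1) :=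
  integral_mono (gr_exp_neg c).integrable (gr_de h x).integrable
    fun z => (de_bounds h hm hm1 hd x z).1

lemma tl_abs_le {G : ℝ → ℝ} (hG : Gr G) {K : ℝ} (hc : ∀ z, |G z| ≤ K * exp (2 * |z|)) :
    |tl m d F x G| ≤ K * Kz c := by
  have hK0 : 0 ≤ K := nonneg_of_mul_nonneg_left ((abs_nonneg _).trans (hc 0)) (exp_pos _)
  have hc0 : 0 ≤ c := (sqrt_nonneg d).trans hd
  rw [tl_de, abs_div, abs_of_pos ((den0_pos c).trans_le (den_le h hm hm1 hd x)), Kz, mul_div_assoc']
  refine div_le_div₀ (mul_nonneg hK0 (integral_nonneg fun z => (exp_pos _).le)) ?_ (den0_pos c)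
    (den_le h hm hm1 hd x)
  rw [← integral_const_mul]
  refine (abs_integral_le_integral_abs).trans (integral_mono ((gr_de h x).mul hG).integrable.abs
    ((gr_exp _).integrable.const_mul K) fun z => ?_)
  show |de m d F x z * G z| ≤ K * exp ((2 * c + 3) * |z|)
  rw [abs_mul]
  refine (mul_le_mul (b := exp (c * |z|)) ?_ (hc z) (abs_nonneg _) (exp_pos _).le).trans ?_
  · rw [abs_of_pos (show 0 < de m d F x z from exp_pos _)]; exact (de_bounds h hm hm1 hd x z).2
  · rw [mul_left_comm, ← exp_add]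
    exact mul_le_mul_of_nonneg_left (exp_le_exp.2 (by nlinarith [abs_nonneg z])) hK0

lemma tl_id_le : |tl m d F x fun z => z| ≤ √d * Kz c := by
  have hc0 : 0 ≤ c := (sqrt_nonneg d).trans hd
  rw [tl_de, abs_div, abs_of_pos ((den0_pos c).trans_le (den_le h hm hm1 hd x)), Kz, mul_div_assoc']
  refine div_le_div₀ (mul_nonneg (sqrt_nonneg _) (integral_nonneg fun z => (exp_pos _).le)) ?_ (den0_pos c)
    (den_le h hm hm1 hd x)
  have e : ∫ z, de m d F x z * z ∂(gaussianReal 0 1) = ∫ z, (de m d F x z - 1) * z ∂(gaussianReal 0 1) := by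
    simp only [sub_mul, one_mul]
    have i1 : Integrable (fun z => de m d F x z * z) (gaussianReal 0 1) := ((gr_de h x).mul Gr.id).integrable
    rw [integral_sub i1 Gr.id.integrable, integral_id_gaussianReal, sub_zero]
  rw [e, ← integral_const_mul]
  refine (abs_integral_le_integral_abs).trans
    (integral_mono (((gr_de h x).sub (Gr.const 1)).mul Gr.id).integrable.abs
      ((gr_exp _).integrable.const_mul _) fun z => ?_)
  show |(de m d F x z - 1) * z| ≤ √d * exp ((2 * c + 3) * |z|)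
  rw [abs_mul]
  have h1 := abs_expo h hm hm1 x (d := d) z
  calc |de m d F x z - 1| * |z| ≤ √d * |z| * exp (c * |z|) * |z| := by
        refine mul_le_mul_of_nonneg_right ((abs_exp_sub_one _).trans (mul_le_mul h1 (exp_le_exp.2 ?_)
          (exp_pos _).le (mul_nonneg (sqrt_nonneg _) (abs_nonneg _)))) (abs_nonneg _)
        exact h1.trans (mul_le_mul_of_nonneg_right hd (abs_nonneg z))
    _ = √d * (z ^ 2 * exp (c * |z|)) := by rw [← sq_abs z]; ring
    _ ≤ √d * exp ((2 * c + 3) * |z|) := by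
        refine mul_le_mul_of_nonneg_left ((mul_le_mul_of_nonneg_right (sq_le_exp z) (exp_pos _).le).trans ?_)
          (sqrt_nonneg _)
        rw [← exp_add]; exact exp_le_exp.2 (by nlinarith [abs_nonneg z])

end

/-- a bounded function with a bounded continuous derivative -/
structure Sl (P P' : ℝ → ℝ) (B L : ℝ) : Prop where
  d : ∀ y, HasDerivAt P (P' y) y
  c : Continuous P'
  b : ∀ y, |P y| ≤ B
  l : ∀ y, |P' y| ≤ L

lemma Sl.cont {P P' : ℝ → ℝ} {B L : ℝ} (h : Sl P P' B L) : Continuous P :=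
  continuous_iff_continuousAt.2 fun y => (h.d y).continuousAt

lemma Sl.mono {P P' : ℝ → ℝ} {B L B' L' : ℝ} (h : Sl P P' B L) (hB : B ≤ B') (hL : L ≤ L') : Sl P P' B' L' :=
  ⟨h.d, h.c, fun y => (h.b y).trans hB, fun y => (h.l y).trans hL⟩

lemma Sl.mul {A A' P P' : ℝ → ℝ} {a a' b b' : ℝ} (hA : Sl A A' a a') (hP : Sl P P' b b') :
    Sl (fun y => A y * P y) (fun y => A' y * P y + A y * P' y) (a * b) (a' * b + a * b') := by
  have a0 : 0 ≤ a := (abs_nonneg _).trans (hA.b 0)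
  have a0' : 0 ≤ a' := (abs_nonneg _).trans (hA.l 0)
  refine ⟨fun y => (hA.d y).fun_mul (hP.d y), (hA.c.mul hP.cont).add (hA.cont.mul hP.c), fun y => ?_, fun y => ?_⟩
  · rw [abs_mul]; exact mul_le_mul (hA.b y) (hP.b y) (abs_nonneg _) a0
  · refine (abs_add_le _ _).trans (add_le_add ?_ ?_)
    · rw [abs_mul]; exact mul_le_mul (hA.l y) (hP.b y) (abs_nonneg _) a0'
    · rw [abs_mul]; exact mul_le_mul (hA.b y) (hP.l y) (abs_nonneg _) a0

lemma Sl.add {A A' P P' : ℝ → ℝ} {a a' b b' : ℝ} (hA : Sl A A' a a') (hP : Sl P P' b b') :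
    Sl (fun y => A y + P y) (fun y => A' y + P' y) (a + b) (a' + b') :=
  ⟨fun y => (hA.d y).fun_add (hP.d y), hA.c.add hP.c, fun y => (abs_add_le _ _).trans (add_le_add (hA.b y) (hP.b y)),
    fun y => (abs_add_le _ _).trans (add_le_add (hA.l y) (hP.l y))⟩

/-- covariance over one tilted step -/
def cv (m d : ℝ) (F A P : ℝ → ℝ) (x : ℝ) : ℝ :=
  avT m d F (fun y => A y * P y) x - avT m d F A x * avT m d F P x

lemma cv_comm (m d : ℝ) (F A P : ℝ → ℝ) : cv m d F A P = cv m d F P A := by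
  funext x
  simp only [cv, mul_comm]

/-- derivative of a covariance -/
def dcv (m d : ℝ) (F f1 A A' P P' : ℝ → ℝ) (x : ℝ) : ℝ :=
  cv m d F A' P x + cv m d F A P' x + m * (cv m d F f1 (fun y => A y * P y) x -
    cv m d F f1 A x * avT m d F P x - avT m d F A x * cv m d F f1 P x)

section

variable (h : Cvx F f1 f2) (m d : ℝ)
include h

lemma hd_avT {P P' : ℝ → ℝ} {B L : ℝ} (hP : Sl P P' B L) (x : ℝ) :
    HasDerivAt (avT m d F P) (avT m d F P' x + m * cv m d F f1 P x) x :=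
  hasDerivAt_avT h m d hP.d hP.c hP.b hP.l x

lemma hd_cv {A A' P P' : ℝ → ℝ} {a a' b b' : ℝ} (hA : Sl A A' a a') (hP : Sl P P' b b') (x : ℝ) :
    HasDerivAt (cv m d F A P) (dcv m d F f1 A A' P P' x) x := by
  refine ((hd_avT h m d (hA.mul hP) x).fun_sub ((hd_avT h m d hA x).fun_mul (hd_avT h m d hP x))).congr_deriv ?_
  have e : avT m d F (fun y => A' y * P y + A y * P' y) x =
      avT m d F (fun y => A' y * P y) x + avT m d F (fun y => A y * P' y) x := by
    refine avT_add h m d x (hA.c.mul hP.cont) (B := a' * b) (fun y => ?_) (hA.cont.mul hP.c) (B' := a * b')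
      fun y => ?_
    · rw [abs_mul]; exact mul_le_mul (hA.l y) (hP.b y) (abs_nonneg _) ((abs_nonneg _).trans (hA.l y))
    · rw [abs_mul]; exact mul_le_mul (hA.b y) (hP.l y) (abs_nonneg _) ((abs_nonneg _).trans (hA.b y))
  rw [e]
  simp only [dcv, cv]
  ring

lemma cont_cv {A P : ℝ → ℝ} {a b : ℝ} (hA : Continuous A) (ha : ∀ y, |A y| ≤ a) (hP : Continuous P)
    (hb : ∀ y, |P y| ≤ b) : Continuous (cv m d F A P) :=
  (continuous_avT h m d (hA.mul hP) (B := a * b) fun y => by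
    show |A y * P y| ≤ _
    rw [abs_mul]; exact mul_le_mul (ha y) (hb y) (abs_nonneg _) ((abs_nonneg _).trans (ha y))).sub
    ((continuous_avT h m d hA ha).mul (continuous_avT h m d hP hb))

lemma cont_dcv {A A' P P' : ℝ → ℝ} {a a' b b' : ℝ} (hA : Sl A A' a a') (hP : Sl P P' b b') :
    Continuous (dcv m d F f1 A A' P P') :=
  ((cont_cv h m d hA.c hA.l hP.cont hP.b).add (cont_cv h m d hA.cont hA.b hP.c hP.l)).add
    (continuous_const.mul (((cont_cv h m d h.cont1 h.abs1 (hA.mul hP).cont (hA.mul hP).b).sub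
      ((cont_cv h m d h.cont1 h.abs1 hA.cont hA.b).mul (continuous_avT h m d hP.cont hP.b))).sub
      ((continuous_avT h m d hA.cont hA.b).mul (cont_cv h m d h.cont1 h.abs1 hP.cont hP.b))))

variable {m d} {c : ℝ} (hm : 0 ≤ m) (hm1 : m ≤ 1) (hd0 : 0 ≤ d) (hd : √d ≤ c)
include hm hm1 hd0 hd

/-- covariances of Lipschitz functions are of order `d` -/
lemma abs_cv_le {A A' P P' : ℝ → ℝ} {a a' b b' : ℝ} (hA : Sl A A' a a') (hP : Sl P P' b b') (x : ℝ) :
    |cv m d F A P x| ≤ a' * b' * ((Kz c + Kz c ^ 2) * d) := by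
  set s := √d with hs
  have hs0 : 0 ≤ s := sqrt_nonneg d
  have hs2 : s * s = d := mul_self_sqrt hd0
  have gA : Gr fun z => A (x + √d * z) := Gr.bdd (hA.cont.comp (by fun_prop)) fun _ => hA.b _
  have gP : Gr fun z => P (x + √d * z) := Gr.bdd (hP.cont.comp (by fun_prop)) fun _ => hP.b _
  set A0 := fun z => A (x + √d * z) - A x
  set P0 := fun z => P (x + √d * z) - P x
  have g0 : Gr A0 := gA.sub (Gr.const _)
  have g1 : Gr P0 := gP.sub (Gr.const _)
  have bA : ∀ z, |A0 z| ≤ a' * (s * |z|) := fun z => by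
    have := abs_sub_le_of_deriv hA.d hA.l x (x + √d * z)
    rwa [add_sub_cancel_left, abs_mul, abs_of_nonneg (sqrt_nonneg d)] at this
  have bP : ∀ z, |P0 z| ≤ b' * (s * |z|) := fun z => by
    have := abs_sub_le_of_deriv hP.d hP.l x (x + √d * z)
    rwa [add_sub_cancel_left, abs_mul, abs_of_nonneg (sqrt_nonneg d)] at this
  have ha' : 0 ≤ a' := (abs_nonneg _).trans (hA.l 0)
  have hb' : 0 ≤ b' := (abs_nonneg _).trans (hP.l 0)
  have h1 : |tl m d F x A0| ≤ a' * s * Kz c := tl_abs_le h hm hm1 hd x g0 fun z => (bA z).trans <| by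
    rw [mul_assoc a' s]
    exact mul_le_mul_of_nonneg_left (mul_le_mul_of_nonneg_left ((abs_le_exp z).trans
      (exp_le_exp.2 (by linarith [abs_nonneg z]))) hs0) ha'
  have h2 : |tl m d F x P0| ≤ b' * s * Kz c := tl_abs_le h hm hm1 hd x g1 fun z => (bP z).trans <| by
    rw [mul_assoc b' s]
    exact mul_le_mul_of_nonneg_left (mul_le_mul_of_nonneg_left ((abs_le_exp z).trans
      (exp_le_exp.2 (by linarith [abs_nonneg z]))) hs0) hb'
  have h3 : |tl m d F x fun z => A0 z * P0 z| ≤ a' * b' * d * Kz c :=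
    tl_abs_le h hm hm1 hd x (g0.mul g1) fun z => by
      rw [abs_mul]
      refine (mul_le_mul (bA z) (bP z) (abs_nonneg _) (by positivity)).trans ?_
      calc a' * (s * |z|) * (b' * (s * |z|)) = a' * b' * (s * s) * (|z| * |z|) := by ring
        _ ≤ a' * b' * d * exp (2 * |z|) := by
          rw [hs2, abs_mul_abs_self, ← sq]
          exact mul_le_mul_of_nonneg_left (sq_le_exp z) (by positivity)
  have e1 : tl m d F x A0 = avT m d F A x - A x := by
    rw [tl_sub h m d x gA (Gr.const _), tl_const h]; rfl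
  have e2 : tl m d F x P0 = avT m d F P x - P x := by
    rw [tl_sub h m d x gP (Gr.const _), tl_const h]; rfl
  have e3 : tl m d F x (fun z => A0 z * P0 z) = avT m d F (fun y => A y * P y) x - P x * avT m d F A x -
      A x * avT m d F P x + A x * P x := by
    rw [show (fun z => A0 z * P0 z) = fun z => A (x + √d * z) * P (x + √d * z) - P x * A (x + √d * z) -
      A x * P (x + √d * z) + A x * P x from funext fun z => by simp only [A0, P0]; ring,
      tl_add h m d x (((gA.mul gP).sub ((Gr.const _).mul gA)).sub ((Gr.const _).mul gP)) (Gr.const _),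
      tl_sub h m d x ((gA.mul gP).sub ((Gr.const _).mul gA)) ((Gr.const _).mul gP),
      tl_sub h m d x (gA.mul gP) ((Gr.const _).mul gA), tl_const_mul, tl_const_mul, tl_const h]
    rfl
  have e : cv m d F A P x = tl m d F x (fun z => A0 z * P0 z) - tl m d F x A0 * tl m d F x P0 := by
    rw [e1, e2, e3, cv]; ring
  rw [e]
  refine (abs_sub _ _).trans ?_
  rw [abs_mul]
  refine (add_le_add h3 (mul_le_mul h1 h2 (abs_nonneg _) (by positivity [Kz_nonneg c]))).trans_eq ?_
  rw [show a' * s * Kz c * (b' * s * Kz c) = a' * b' * Kz c ^ 2 * (s * s) by ring, hs2]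
  ring

/-- second-order expansion of a tilted mean -/
lemma avT_approx {P P' P'' : ℝ → ℝ} {B L L' : ℝ} (hP : Sl P P' B L) (hP' : Sl P' P'' L L') (x : ℝ) :
    |avT m d F P x - P x| ≤ (L + L') * (Kz c * d) := by
  have hL' : 0 ≤ L' := (abs_nonneg _).trans (hP'.l 0)
  have gP : Gr fun z => P (x + √d * z) := Gr.bdd (hP.cont.comp (by fun_prop)) fun _ => hP.b _
  set r := fun z => P (x + √d * z) - P x - P' x * √d * z
  have gr : Gr r := (gP.sub (Gr.const _)).sub ((Gr.const _).mul Gr.id)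
  have hr : ∀ z, |r z| ≤ L' * d * exp (2 * |z|) := fun z => by
    set u := √d * z
    have hq := (convex_uIcc x (x + u)).norm_image_sub_le_of_norm_hasDerivWithin_le
      (f := fun y => P y - P' x * y) (f' := fun y => P' y - P' x) (C := L' * |u|)
      (fun y _ => by
        simpa using ((hP.d y).fun_sub ((hasDerivAt_id' y).const_mul (P' x))).hasDerivWithinAt)
      (fun y hy => by
        rw [Real.norm_eq_abs]
        refine (abs_sub_le_of_deriv hP'.d hP'.l x y).trans (mul_le_mul_of_nonneg_left ?_ hL')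
        simpa using Set.abs_sub_left_of_mem_uIcc hy)
      Set.left_mem_uIcc Set.right_mem_uIcc
    simp only [Real.norm_eq_abs, add_sub_cancel_left] at hq
    rw [show r z = P (x + u) - P' x * (x + u) - (P x - P' x * x) by simp only [r, u]; ring]
    refine hq.trans ?_
    rw [mul_assoc, mul_assoc, abs_mul_abs_self]
    refine mul_le_mul_of_nonneg_left ?_ hL'
    rw [show u * u = d * z ^ 2 by simp only [u]; linear_combination z ^ 2 * mul_self_sqrt hd0]
    exact mul_le_mul_of_nonneg_left (sq_le_exp z) hd0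
  have e : avT m d F P x - P x = tl m d F x r + P' x * √d * tl m d F x fun z => z := by
    simp only [r]
    rw [tl_sub h m d x (gP.sub (Gr.const _)) ((Gr.const _).mul Gr.id), tl_sub h m d x gP (Gr.const _),
      tl_const h, tl_const_mul]
    rw [avT_eq_tl]; ring
  rw [e, add_mul]
  refine (abs_add_le _ _).trans ((add_comm _ _).trans_le (add_le_add ?_ ?_))
  · rw [abs_mul, abs_mul, abs_of_nonneg (sqrt_nonneg d)]
    calc |P' x| * √d * |tl m d F x fun z => z| ≤ L * √d * (√d * Kz c) :=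
          mul_le_mul (mul_le_mul_of_nonneg_right (hP.l x) (sqrt_nonneg _)) (tl_id_le h hm hm1 hd x) (abs_nonneg _)
            (mul_nonneg ((abs_nonneg _).trans (hP.l x)) (sqrt_nonneg _))
      _ = L * (Kz c * (√d * √d)) := by ring
      _ = L * (Kz c * d) := by rw [mul_self_sqrt hd0]
  · exact (tl_abs_le h hm hm1 hd x gr hr).trans_eq (by ring)

end

theorem jet_lc : Jet lc (fun x => sinh x / cosh x) (fun x => 1 / cosh x ^ 2)
    (fun x => -2 * sinh x / cosh x ^ 3) (fun x => -2 / cosh x ^ 4 + 4 * sinh x ^ 2 / cosh x ^ 4) 4 4 := by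
  have hc : ∀ x, cosh x ≠ 0 := fun x => (cosh_pos x).ne'
  have hd1 : ∀ x, HasDerivAt (fun y => sinh y / cosh y) (1 / cosh x ^ 2) x := fun x =>
    ((hasDerivAt_sinh x).fun_div (hasDerivAt_cosh x) (hc x)).congr_deriv
      (by rw [show cosh x * cosh x - sinh x * sinh x = 1 by linear_combination cosh_sq_sub_sinh_sq x])
  have ht : ∀ x, (sinh x / cosh x) ^ 2 = 1 - 1 / cosh x ^ 2 := fun x => by
    rw [eq_sub_iff_add_eq, div_pow, ← add_div, div_eq_one_iff_eq (pow_ne_zero _ (hc x))]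
    linear_combination -cosh_sq_sub_sinh_sq x
  have hu : ∀ x, 0 < 1 / cosh x ^ 2 ∧ 1 / cosh x ^ 2 ≤ 1 := fun x => by
    have := one_le_pow₀ (one_le_cosh x) (n := 2)
    exact ⟨by positivity, div_le_one_of_le₀ this (by positivity)⟩
  have e4 : ∀ x, -2 / cosh x ^ 4 + 4 * sinh x ^ 2 / cosh x ^ 4 =
      -2 * (1 / cosh x ^ 2) ^ 2 + 4 * (sinh x / cosh x) ^ 2 * (1 / cosh x ^ 2) := fun x => by
    field_simp
  refine
    { d0 := fun x => ((hasDerivAt_cosh x).log (hc x))
      d1 := hd1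
      cont2 := by fun_prop (disch := first | exact hc _ | simp [hc])
      even := fun x => by simp [lc]
      nonneg2 := fun x => (hu x).1.le
      le2 := fun x => by rw [ht]; linarith
      d2 := fun x => ?_
      d3 := fun x => ?_
      cont4 := by fun_prop (disch := first | exact hc _ | simp [hc])
      b3 := fun x => ?_
      b4 := fun x => ?_ }
  · refine ((hasDerivAt_const x (1:ℝ)).fun_div ((hasDerivAt_cosh x).fun_pow 2)
      (pow_ne_zero _ (hc x))).congr_deriv ?_
    field_simp [hc x]; ring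
  · refine (((hasDerivAt_sinh x).const_mul (-2)).fun_div ((hasDerivAt_cosh x).fun_pow 3)
      (pow_ne_zero _ (hc x))).congr_deriv ?_
    field_simp [hc x]
    have := cosh_sq_sub_sinh_sq x
    push_cast
    linear_combination (-2 * cosh x ^ 2) * this
  · obtain ⟨h1, h2⟩ := hu x
    have h3 := ht x
    rw [show -2 * sinh x / cosh x ^ 3 = -2 * (sinh x / cosh x) * (1 / cosh x ^ 2) by field_simp,
      abs_mul, abs_mul, abs_of_pos h1]
    have h4 : |sinh x / cosh x| ≤ 1 := (sq_le_one_iff_abs_le_one _).1 (by linarith)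
    have h5 : |(-2:ℝ)| = 2 := by norm_num
    rw [h5]
    nlinarith [abs_nonneg (sinh x / cosh x)]
  · obtain ⟨h1, h2⟩ := hu x
    rw [e4, ht, abs_le]
    constructor <;> nlinarith

theorem jet_step (D : ℝ) : ∃ C : ℝ, 0 ≤ C ∧ ∀ (F f1 f2 f3 f4 : ℝ → ℝ) (B₃ B₄ m d : ℝ), Jet F f1 f2 f3 f4 B₃ B₄ →
    1 ≤ B₃ → 1 ≤ B₄ → 0 ≤ m → m ≤ 1 → 0 ≤ d → d ≤ D →
      (∃ g3 g4, Jet (smo m d F) (avT m d F f1) (vS m d F f1 f2) g3 g4
        (B₃ * exp (C * d)) (B₄ * exp (C * B₃ ^ 2 * d))) ∧
      |vS m d F f1 f2 0 - f2 0| ≤ C * (B₃ + B₄) * d := by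
  set c := √D with hc
  set K := Kz c + Kz c ^ 2 with hK
  have hKz := Kz_nonneg c
  have hK0 : 0 ≤ K := by positivity
  refine ⟨45 * K, by positivity, ?_⟩
  intro F f1 f2 f3 f4 B₃ B₄ m d hJ hB3 hB4 hm hm1 hd0 hdD
  have hd : √d ≤ c := Real.sqrt_le_sqrt hdD
  have h : Cvx F f1 f2 := hJ.toCvx
  have hc3 : Continuous f3 := continuous_iff_continuousAt.2 fun y => (hJ.d3 y).continuousAt
  have sA : Sl f1 f2 1 1 := ⟨h.d1, h.cont2, h.abs1, h.abs2⟩
  have sB : Sl f2 f3 1 B₃ := ⟨hJ.d2, hc3, h.abs2, hJ.b3⟩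
  have sC : Sl f3 f4 B₃ B₄ := ⟨hJ.d3, hJ.cont4, hJ.b3, hJ.b4⟩
  have sQ := sA.mul sA
  have sQd := (sB.mul sA).add (sA.mul sB)
  set E := K * d with hE
  have hE0 : 0 ≤ E := mul_nonneg hK0 hd0
  -- a derivative of a covariance is of order `d`
  have dT : ∀ {A A' A'' P P' P'' U : ℝ → ℝ} {a la a' la' p lp p' lp' u lu : ℝ},
      Sl A A' a la → Sl A' A'' a' la' → Sl P P' p lp → Sl P' P'' p' lp' → Sl (fun y => A y * P y) U u lu →
      ∀ x, |dcv m d F f1 A A' P P' x| ≤ (la' * lp + la * lp' + lu + la * p + a * lp) * E := by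
    intro A A' A'' P P' P'' U a la a' la' p lp p' lp' u lu hA hA' hP hP' hAP x
    have k1 := abs_cv_le h hm hm1 hd0 hd hA' hP x
    have k2 := abs_cv_le h hm hm1 hd0 hd hA hP' x
    have k3 := abs_cv_le h hm hm1 hd0 hd sA hAP x
    have k4 : |cv m d F f1 A x * avT m d F P x| ≤ 1 * la * E * p := by
      rw [abs_mul]
      exact mul_le_mul (abs_cv_le h hm hm1 hd0 hd sA hA x) (avT_abs_le h m d x hP.cont hP.b) (abs_nonneg _)
        ((abs_nonneg _).trans (abs_cv_le h hm hm1 hd0 hd sA hA x))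
    have k5 : |avT m d F A x * cv m d F f1 P x| ≤ a * (1 * lp * E) := by
      rw [abs_mul]
      exact mul_le_mul (avT_abs_le h m d x hA.cont hA.b) (abs_cv_le h hm hm1 hd0 hd sA hP x) (abs_nonneg _)
        ((abs_nonneg _).trans (hA.b 0))
    have k6 : |m * (cv m d F f1 (fun y => A y * P y) x - cv m d F f1 A x * avT m d F P x -
        avT m d F A x * cv m d F f1 P x)| ≤ 1 * lu * E + 1 * la * E * p + a * (1 * lp * E) := by
      rw [abs_mul, abs_of_nonneg hm]
      exact (mul_le_of_le_one_left (abs_nonneg _) hm1).trans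
        ((abs_sub _ _).trans (add_le_add ((abs_sub _ _).trans (add_le_add k3 k4)) k5))
    exact (abs_add_le _ _).trans ((add_le_add ((abs_add_le _ _).trans (add_le_add k1 k2)) k6).trans_eq (by ring))
  have hG := cvx_step h hm hm1 hd0
  have ev : vS m d F f1 f2 = fun x => avT m d F f2 x + m * cv m d F f1 f1 x := funext fun x => by
    simp only [vS, cv, sq]
  set a1 := avT m d F f1
  set Q := fun y => f1 y * f1 y
  set Q' := fun y => f2 y * f1 y + f1 y * f2 y
  set g3 := fun x => avT m d F f3 x + 3 * m * cv m d F f1 f2 x +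
    m ^ 2 * (cv m d F f1 Q x - 2 * (a1 x * cv m d F f1 f1 x))
  set g4 := fun x => avT m d F f4 x + m * cv m d F f1 f3 x + 3 * m * dcv m d F f1 f1 f2 f2 f3 x +
    m ^ 2 * (dcv m d F f1 f1 f2 Q Q' x -
      2 * (vS m d F f1 f2 x * cv m d F f1 f1 x + a1 x * dcv m d F f1 f1 f2 f1 f2 x))
  have hd2 : ∀ x, HasDerivAt (vS m d F f1 f2) (g3 x) x := fun x => by
    rw [ev]
    refine ((hd_avT h m d sB x).fun_add ((hd_cv h m d sA sA x).const_mul m)).congr_deriv ?_
    simp only [g3, dcv, cv_comm m d F f2 f1, Q, a1]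
    ring
  have hd3 : ∀ x, HasDerivAt g3 (g4 x) x := fun x => by
    refine ((((hd_avT h m d sC x).fun_add ((hd_cv h m d sA sB x).const_mul (3 * m))).fun_add
      (((hd_cv h m d sA sQ x).fun_sub (((hG.d1 x).fun_mul (hd_cv h m d sA sA x)).const_mul 2)).const_mul
        (m ^ 2)))).congr_deriv ?_
    simp only [g4, a1, Q, Q']
  have hm2 : m ^ 2 ≤ 1 := pow_le_one₀ hm hm1
  have hm3 : |3 * m| ≤ 3 := by rw [abs_of_nonneg (by positivity)]; linarith
  have hB33 : B₃ ≤ B₃ ^ 2 := le_self_pow₀ hB3 two_ne_zero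
  have c11 : ∀ x, |cv m d F f1 f1 x| ≤ 1 * 1 * E := fun x => abs_cv_le h hm hm1 hd0 hd sA sA x
  have hg3 : ∀ x, |g3 x| ≤ B₃ * (1 + 7 * E) := fun x => by
    have k1 : |avT m d F f3 x| ≤ B₃ := avT_abs_le h m d x sC.cont hJ.b3
    have k2 : |3 * m * cv m d F f1 f2 x| ≤ 3 * (1 * B₃ * E) := by
      rw [abs_mul]
      exact mul_le_mul hm3 (abs_cv_le h hm hm1 hd0 hd sA sB x) (abs_nonneg _) (by norm_num)
    have k3 : |m ^ 2 * (cv m d F f1 Q x - 2 * (a1 x * cv m d F f1 f1 x))| ≤ 4 * E := by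
      rw [abs_mul, abs_of_nonneg (sq_nonneg m)]
      refine (mul_le_of_le_one_left (abs_nonneg _) hm2).trans ?_
      have e1 : |cv m d F f1 Q x| ≤ 1 * (1 * 1 + 1 * 1) * E := abs_cv_le h hm hm1 hd0 hd sA sQ x
      have e2 : |a1 x * cv m d F f1 f1 x| ≤ 1 * (1 * 1 * E) := by
        rw [abs_mul]; exact mul_le_mul (hG.abs1 x) (c11 x) (abs_nonneg _) zero_le_one
      rw [abs_le] at e1 e2 ⊢
      constructor <;> linarith
    have := mul_le_mul_of_nonneg_right hB3 hE0
    simp only [g3]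
    rw [abs_le] at k1 k2 k3 ⊢
    constructor <;> linarith
  have hg4 : ∀ x, |g4 x| ≤ B₄ * (1 + 45 * (B₃ ^ 2 * E)) := fun x => by
    have k0 : |avT m d F f4 x| ≤ B₄ := avT_abs_le h m d x hJ.cont4 hJ.b4
    have k1 : |m * cv m d F f1 f3 x| ≤ 1 * B₄ * E := by
      rw [abs_mul, abs_of_nonneg hm]
      exact (mul_le_of_le_one_left (abs_nonneg _) hm1).trans (abs_cv_le h hm hm1 hd0 hd sA sC x)
    have k2 : |3 * m * dcv m d F f1 f1 f2 f2 f3 x| ≤ 3 * ((B₃ ^ 2 + B₄ + 2 + 2 * B₃) * E) := by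
      rw [abs_mul]
      exact mul_le_mul hm3 ((dT sA sB sB sC (sA.mul sB) x).trans_eq (by ring)) (abs_nonneg _) (by norm_num)
    have k3 : |dcv m d F f1 f1 f2 Q Q' x -
        2 * (vS m d F f1 f2 x * cv m d F f1 f1 x + a1 x * dcv m d F f1 f1 f2 f1 f2 x)| ≤
        (8 * B₃ + 18) * E := by
      have e1 : |vS m d F f1 f2 x * cv m d F f1 f1 x| ≤ 1 * (1 * 1 * E) := by
        rw [abs_mul]; exact mul_le_mul (hG.abs2 x) (c11 x) (abs_nonneg _) zero_le_one
      have e2 : |a1 x * dcv m d F f1 f1 f2 f1 f2 x| ≤ 1 * ((2 * B₃ + 4) * E) := by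
        rw [abs_mul]
        exact mul_le_mul (hG.abs1 x) ((dT sA sB sA sB sQ x).trans_eq (by ring)) (abs_nonneg _) zero_le_one
      have e3 : |dcv m d F f1 f1 f2 Q Q' x| ≤ (4 * B₃ + 8) * E :=
        (dT sA sB sQ sQd (sA.mul sQ) x).trans_eq (by ring)
      rw [abs_le] at e1 e2 e3 ⊢
      constructor <;> linarith
    have k4 : |m ^ 2 * (dcv m d F f1 f1 f2 Q Q' x -
        2 * (vS m d F f1 f2 x * cv m d F f1 f1 x + a1 x * dcv m d F f1 f1 f2 f1 f2 x))| ≤ (8 * B₃ + 18) * E := by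
      rw [abs_mul, abs_of_nonneg (sq_nonneg m)]
      exact (mul_le_of_le_one_left (abs_nonneg _) hm2).trans k3
    have p1 : B₃ * E ≤ B₃ ^ 2 * E := mul_le_mul_of_nonneg_right hB33 hE0
    have p2 : E ≤ B₃ ^ 2 * E := le_mul_of_one_le_left hE0 (hB3.trans hB33)
    have p3 : B₃ ^ 2 * E ≤ B₄ * (B₃ ^ 2 * E) := le_mul_of_one_le_left (by positivity) hB4
    have p4 : B₄ * E ≤ B₄ * (B₃ ^ 2 * E) := mul_le_mul_of_nonneg_left p2 (by linarith)
    simp only [g4]
    rw [abs_le] at k0 k1 k2 k4 ⊢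
    constructor <;> linarith
  have hexp : ∀ u v : ℝ, 0 ≤ u → u ≤ v → 1 + u ≤ exp v := fun u v _ huv =>
    (add_comm 1 u).trans_le ((add_one_le_exp u).trans (exp_le_exp.2 huv))
  refine ⟨⟨g3, g4, { hG with
    d2 := hd2
    d3 := hd3
    cont4 := ?_
    b3 := fun x => ?_
    b4 := fun x => ?_ }⟩, ?_⟩
  · exact ((((continuous_avT h m d sC.c sC.l).add
      (continuous_const.mul (cont_cv h m d h.cont1 h.abs1 sC.cont sC.b))).add
      (continuous_const.mul (cont_dcv h m d sA sB))).add (continuous_const.mul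
      ((cont_dcv h m d sA sQ).sub (continuous_const.mul
        ((hG.cont2.mul (cont_cv h m d h.cont1 h.abs1 h.cont1 h.abs1)).add
          (hG.cont1.mul (cont_dcv h m d sA sA)))))))
  · refine (hg3 x).trans (mul_le_mul_of_nonneg_left (hexp _ _ (by positivity) ?_) (by linarith))
    rw [hE]; nlinarith [mul_nonneg hK0 hd0]
  · refine (hg4 x).trans (mul_le_mul_of_nonneg_left (hexp _ _ (by positivity) ?_) (by linarith))
    rw [hE]; linarith
  · have k1 : |avT m d F f2 0 - f2 0| ≤ (B₃ + B₄) * (Kz c * d) := avT_approx h hm hm1 hd0 hd sB sC 0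
    have k2 : |m * cv m d F f1 f1 0| ≤ 1 * 1 * E := by
      rw [abs_mul, abs_of_nonneg hm]
      exact (mul_le_of_le_one_left (abs_nonneg _) hm1).trans (c11 0)
    have k3 : Kz c * d ≤ E := mul_le_mul_of_nonneg_right (by simp only [hK]; nlinarith) hd0
    have k4 : (B₃ + B₄) * (Kz c * d) ≤ (B₃ + B₄) * E := mul_le_mul_of_nonneg_left k3 (by linarith)
    have k5 : E ≤ (B₃ + B₄) * E := le_mul_of_one_le_left hE0 (by linarith)
    have k6 : 0 ≤ (B₃ + B₄) * E := by positivity
    rw [ev]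
    rw [abs_le] at k1 k2 ⊢
    simp only [hE] at *
    constructor <;> linarith

theorem avT_exponent (D : ℝ) : ∃ C : ℝ, 0 ≤ C ∧ ∀ (F f1 f2 P : ℝ → ℝ) (m m' d B : ℝ) (x : ℝ), Cvx F f1 f2 →
    Continuous P → (∀ y, |P y| ≤ B) → 0 ≤ m → m ≤ 1 → 0 ≤ m' → m' ≤ 1 → 0 ≤ d → d ≤ D →
      |avT m d F P x - avT m' d F P x| ≤ C * B * |m - m'| := by
  set c := √D with hcdef
  have hc0 : 0 ≤ c := sqrt_nonneg D
  refine ⟨2 * c * Kz c, mul_nonneg (mul_nonneg zero_le_two hc0) (Kz_nonneg c), ?_⟩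
  intro F f1 f2 P m m' d B x h hP hB hm hm1 hm' hm1' _ hdD
  have hd : √d ≤ c := Real.sqrt_le_sqrt hdD
  have hB0 : 0 ≤ B := (abs_nonneg _).trans (hB 0)
  have gP : Gr fun z => P (x + √d * z) := Gr.bdd (hP.comp (by fun_prop)) fun _ => hB _
  set I := ∫ z, exp ((2 * c + 3) * |z|) ∂(gaussianReal 0 1)
  set w := de m d F x
  set w' := de m' d F x
  have gw : Gr w := gr_de h x
  have gw' : Gr w' := gr_de h x
  have hw : ∀ z, |w z - w' z| ≤ c * |m - m'| * exp ((2 * c + 3) * |z|) := fun z => by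
    set Δ := F (x + √d * z) - F x
    have e : w z - w' z = w' z * (exp ((m - m') * Δ) - 1) := by
      rw [mul_sub, mul_one]; simp only [w, w', de, ← exp_add]; congr 2; ring
    have hΔ : |Δ| ≤ c * |z| := by
      refine (h.lip x _).trans ?_
      rw [abs_mul, abs_of_nonneg (sqrt_nonneg d)]
      exact mul_le_mul_of_nonneg_right hd (abs_nonneg z)
    have hmm : |m - m'| ≤ 1 := abs_le.2 ⟨by linarith, by linarith⟩
    have h1 : |(m - m') * Δ| ≤ |m - m'| * (c * |z|) := by
      rw [abs_mul]; exact mul_le_mul_of_nonneg_left hΔ (abs_nonneg _)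
    rw [e, abs_mul, abs_of_pos (show 0 < w' z from exp_pos _)]
    calc w' z * |exp ((m - m') * Δ) - 1|
        ≤ exp (c * |z|) * (|m - m'| * (c * exp |z|) * exp (c * |z|)) := by
          refine mul_le_mul (de_bounds h hm' hm1' hd x z).2 ((abs_exp_sub_one _).trans (mul_le_mul
            (h1.trans (mul_le_mul_of_nonneg_left (mul_le_mul_of_nonneg_left (abs_le_exp z) hc0) (abs_nonneg _)))
            (exp_le_exp.2 (h1.trans (mul_le_of_le_one_left (by positivity) hmm))) (exp_pos _).le (by positivity)))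
            (abs_nonneg _) (exp_pos _).le
      _ = c * |m - m'| * exp ((2 * c + 1) * |z|) := by
          rw [show (2 * c + 1) * |z| = c * |z| + (|z| + c * |z|) by ring, exp_add, exp_add]; ring
      _ ≤ _ := mul_le_mul_of_nonneg_left (exp_le_exp.2 (by nlinarith [abs_nonneg z])) (by positivity)
  have hI : 0 ≤ I := integral_nonneg fun z => (exp_pos _).le
  have ha : |(∫ z, w z * P (x + √d * z) ∂(gaussianReal 0 1)) - ∫ z, w' z * P (x + √d * z) ∂(gaussianReal 0 1)| ≤ B * (c * |m - m'|) * I := by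
    rw [← integral_sub (gw.mul gP).integrable (gw'.mul gP).integrable, ← integral_const_mul]
    refine (abs_integral_le_integral_abs).trans (integral_mono ((gw.mul gP).sub (gw'.mul gP)).integrable.abs
      ((gr_exp _).integrable.const_mul _) fun z => ?_)
    show |w z * P _ - w' z * P _| ≤ B * (c * |m - m'|) * exp ((2 * c + 3) * |z|)
    rw [← sub_mul, abs_mul, mul_comm, mul_assoc]
    exact mul_le_mul (hB _) (hw z) (abs_nonneg _) hB0
  have hb : |(∫ z, w z ∂(gaussianReal 0 1)) - ∫ z, w' z ∂(gaussianReal 0 1)| ≤ c * |m - m'| * I := by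
    rw [← integral_sub gw.integrable gw'.integrable, ← integral_const_mul]
    exact (abs_integral_le_integral_abs).trans
      (integral_mono (gw.sub gw').integrable.abs ((gr_exp _).integrable.const_mul _) hw)
  have hq : |avT m' d F P x| ≤ B := avT_abs_le h m' d x hP hB
  rw [avT_eq_tl, tl_de] at hq
  rw [avT_eq_tl, avT_eq_tl, tl_de, tl_de]
  set a := ∫ z, w z * P (x + √d * z) ∂(gaussianReal 0 1)
  set a' := ∫ z, w' z * P (x + √d * z) ∂(gaussianReal 0 1)
  set b := ∫ z, w z ∂(gaussianReal 0 1)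
  set b' := ∫ z, w' z ∂(gaussianReal 0 1)
  have hb0 : ∫ z, exp (-(c * |z|)) ∂(gaussianReal 0 1) ≤ b := den_le h hm hm1 hd x
  have hb0' : ∫ z, exp (-(c * |z|)) ∂(gaussianReal 0 1) ≤ b' := den_le h hm' hm1' hd x
  have hbp : 0 < b := (den0_pos c).trans_le hb0
  have hbp' : 0 < b' := (den0_pos c).trans_le hb0'
  have e : a / b - a' / b' = ((a - a') - a' / b' * (b - b')) / b := by field_simp; ring
  rw [e, abs_div, abs_of_pos hbp,
    show 2 * c * Kz c * B * |m - m'| = 2 * B * (c * |m - m'|) * I / ∫ z, exp (-(c * |z|)) ∂(gaussianReal 0 1) by rw [Kz]; ring]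
  refine div_le_div₀ (by positivity) ((abs_sub _ _).trans ?_) (den0_pos c) hb0
  rw [abs_mul]
  have := mul_le_mul hq hb (abs_nonneg _) hB0
  linarith

end Vale.Agent.P146.Lower.Marg
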